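import Vale.Agent.P236Z.E.Alg
import Vale.Agent.P251.F.TwistFlat
import Mathlib.RingTheory.MvPolynomial.Homogeneous

/-!
# P236, block E: completed free modules
-/

namespace Vale.Agent.P236Z.E

open Vale.Agent.P251.F Vale.Agent.P251.S MvPolynomial

namespace CmpH

theorem mem_top {A J : Type} [CommRing A] (K : Ideal A) {f : J →₀ A} (h : ∀ i, f i ∈ K) :
    f ∈ (K • ⊤ : Submodule A (J →₀ A)) := by
  rw [← f.sum_single]
  refine sum_mem fun i _ => ?_
  rw [← mul_one (f i), ← smul_eq_mul, ← Finsupp.smul_single]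
  exact Submodule.smul_mem_smul (h i) trivial

theorem eval_mem {A : Type} [CommRing A] {N j : ℕ} (s : Fin N → A) {P : MvPolynomial (Fin N) A}
    (hP : P.IsHomogeneous j) (h : ∀ μ, P.coeff μ ∈ Ideal.span (Set.range s)) :
    eval s P ∈ Ideal.span (Set.range s) ^ (j + 1) := by
  rw [P.as_sum, map_sum]
  refine sum_mem fun μ hμ => ?_
  rw [← mul_one (P.coeff μ), ← C_mul_monomial, map_mul, eval_C, pow_succ']
  exact Ideal.mul_mem_mul (h μ) ((Ideal.mem_span_pow_iff_exists_isHomogeneous s _).2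
    ⟨_, isHomogeneous_monomial 1 (by
      by_contra k
      exact mem_support_iff.1 hμ (hP.coeff_eq_zero k)), rfl⟩)

theorem Ih_eq {B : Type} [CommRing B] (p h : ℕ) (G : Law B) :
    Ih p h G = Ideal.span (Set.range fun i : Fin h => vv p i G) :=
  congrArg Ideal.span (Set.ext fun _ =>
    ⟨fun ⟨i, hi, k⟩ => ⟨⟨i, hi⟩, k⟩, fun ⟨i, k⟩ => ⟨i, i.2, k⟩⟩)

section gen

variable {A B J : Type} [CommRing A] [CommRing B] [Algebra A B] {I : Ideal A} {v : A}

theorem dense {F : Type} [AddCommGroup F] [Module A F] (φ : F →ₗ[A] B)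
    (h : ∀ y : B, ∃ (n : ℕ) (x : F), v ^ n • y - φ x ∈ (I • ⊤ : Submodule A B)) (j : ℕ) (e : B) :
    ∃ (k : ℕ) (f : F), v ^ k • e - φ f ∈ (I ^ j • ⊤ : Submodule A B) := by
  induction j with
  | zero => exact ⟨0, 0, by rw [pow_zero, pow_zero, one_smul _ ⊤]; trivial⟩
  | succ j ih =>
    have h1 : ∀ r ∈ (I ^ j • ⊤ : Submodule A B),
        ∃ (k : ℕ) (f : F), v ^ k • r - φ f ∈ (I ^ (j + 1) • ⊤ : Submodule A B) := fun r hr => by
      refine Submodule.smul_induction_on hr (fun a ha y _ => ?_) ?_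
      · obtain ⟨n, x, hx⟩ := h y
        refine ⟨n, a • x, ?_⟩
        rw [smul_comm, map_smul, ← smul_sub, pow_succ, Submodule.mul_smul]
        exact Submodule.smul_mem_smul ha hx
      · rintro r r' ⟨k, f, hf⟩ ⟨k', f', hf'⟩
        refine ⟨k + k', v ^ k' • f + v ^ k • f', ?_⟩
        have := add_mem (Submodule.smul_mem _ (v ^ k') hf) (Submodule.smul_mem _ (v ^ k) hf')
        rwa [show v ^ (k + k') • (r + r') - φ (v ^ k' • f + v ^ k • f') =
          v ^ k' • (v ^ k • r - φ f) + v ^ k • (v ^ k' • r' - φ f') by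
            simp only [map_add, map_smul]
            module]
    obtain ⟨k, f, hf⟩ := ih
    obtain ⟨k', f', hf'⟩ := h1 _ hf
    refine ⟨k' + k, v ^ k' • f + f', ?_⟩
    rwa [show v ^ (k' + k) • e - φ (v ^ k' • f + f') = v ^ k' • (v ^ k • e - φ f) - φ f' by
      simp only [map_add, map_smul]
      module]

omit [Algebra A B] in
theorem closed {N : ℕ} (lam : A →+* B) (s : Fin N → A) (hq : QReg fun i => lam (s i)) (β : J → B)
    (h : ∀ x : J →₀ A, (x.sum fun j z => lam z * β j) ∈ Ideal.span (Set.range fun i => lam (s i)) →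
      ∀ j, x j ∈ Ideal.span (Set.range s)) (n : ℕ) (x : J →₀ A)
    (hx : (x.sum fun j z => lam z * β j) ∈ Ideal.span (Set.range fun i => lam (s i)) ^ n) (j : J) :
    x j ∈ Ideal.span (Set.range s) ^ n := by
  classical
  induction n generalizing j with
  | zero => simp
  | succ n ih =>
    choose P h1 h2 using fun j => (Ideal.mem_span_pow_iff_exists_isHomogeneous s _).1
      (ih (Ideal.pow_le_pow_right n.le_succ hx) j)
    by_cases hj : j ∈ x.support
    swap
    · rw [Finsupp.notMem_support_iff.1 hj]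
      exact zero_mem _
    rw [← h2]
    refine eval_mem s (h1 j) fun μ => ?_
    have h3 := hq n (∑ i ∈ x.support, map lam (P i) * C (β i))
      (IsHomogeneous.sum _ _ _ fun i _ => ((h1 i).map lam).mul (isHomogeneous_C _ _)) (by
        rw [map_sum, Finset.sum_congr rfl (g := fun i => lam (x i) * β i) fun i _ => ?_]
        · exact hx
        · rw [map_mul, eval_C, ← h2 i, eval_map, eval, coe_eval₂Hom, eval₂_comp_left,
            RingHom.comp_id]
          rfl) μ
    have h4 := h (∑ i ∈ x.support, Finsupp.single i ((P i).coeff μ)) (by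
      rw [← Finsupp.sum_finsetSum_index (by simp) (by simp [add_mul])]
      simpa [coeff_sum, mul_comm, coeff_C_mul, coeff_map] using h3) j
    simpa [Finsupp.finsetSum_apply, Finsupp.single_apply, hj] using h4

end gen

theorem three_mem : (3 : Lam) ∈ mL := Ideal.subset_span ⟨0, rfl⟩

theorem X_mem (i : Fin 5) : (X i : Lam) ∈ mL := Ideal.subset_span ⟨i.succ, rfl⟩

theorem ker_eps : RingHom.ker eps = mL := by
  refine le_antisymm (fun P hP => ?_) (Ideal.span_le.2 ?_)
  · have h1 : P - C (constantCoeff P) ∈ mL := by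
      clear hP
      induction P using MvPolynomial.induction_on with
      | C a => simp
      | add p q hp hq => rw [map_add, map_add, add_sub_add_comm]; exact add_mem hp hq
      | mul_X p i _ => simpa using Ideal.mul_mem_left _ p (X_mem i)
    obtain ⟨c, hc⟩ := (ZMod.intCast_zmod_eq_zero_iff_dvd _ 3).1 hP
    rw [← sub_add_cancel P (C (constantCoeff P))]
    refine add_mem h1 ?_
    rw [hc, map_mul, map_natCast]
    exact Ideal.mul_mem_right _ _ three_mem
  · rintro _ ⟨i, rfl⟩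
    refine Fin.cases ?_ (fun i => ?_) i
    · exact (map_ofNat eps 3).trans rfl
    · simp [s0, eps]

theorem Ih_def {Γ : Law (ZMod 3)} {F : Law Lam} (h : Def Γ F) : Ih 3 6 F = mL := by
  have h0 : (3 : Lam) ∈ Ih 3 6 F := by
    simpa [vv_zero] using vv_mem_Ih (p := 3) (by norm_num : 0 < 6) F
  rw [Ih_eq] at h0 ⊢
  refine le_antisymm (Ideal.span_le.2 ?_) (Ideal.span_le.2 ?_) <;> rintro _ ⟨i, rfl⟩ <;>
    refine Fin.cases ?_ (fun i => ?_) i
  · simpa [vv_zero] using three_mem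
  · exact (Submodule.sub_mem_iff_left _ (X_mem i)).1
      ((Ideal.span_singleton_le_iff_mem _).2 three_mem (h.vv i))
  · exact h0
  · exact (Submodule.sub_mem_iff_right _ (Ideal.subset_span (Set.mem_range_self i.succ))).1
      ((Ideal.span_singleton_le_iff_mem _).2 h0 (h.vv i))

end CmpH

open CmpH

theorem cmp1 : CMP1 := by
  intro B _ G hc hq hu J β h1 h2
  let := (Laz.lift G).toAlgebra
  have e0 : (Laz.I 3 6).map (algebraMap Laz B) = Ih 3 6 G :=
    (Laz.I_map 3 6 (Laz.lift G)).trans (by rw [Laz.univ_map_lift])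
  have e1 : ∀ k (y : B), y ∈ (Laz.I 3 6 ^ k • ⊤ : Submodule Laz B) ↔ y ∈ Ih 3 6 G ^ k :=
    fun k y => by rw [Ideal.smul_top_eq_map, Ideal.map_pow, e0]; rfl
  have e2 : ∀ k (y z : B), y ≡ z [SMOD (Ih 3 6 G ^ k • ⊤ : Submodule B B)] ↔
      y - z ∈ Ih 3 6 G ^ k := fun k y z => by rw [SModEq.sub_mem, smul_eq_mul, Ideal.mul_top]
  have e3 : ∀ y : B, Laz.v 3 6 • y = vv 3 6 G * y := fun y => congrArg (· * y) (Laz.lift_v 3 6 G)
  have e4 : ∀ x, Finsupp.linearCombination Laz β x = x.sum fun j z => Laz.lift G z * β j :=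
    fun _ => rfl
  have e5 : (fun i : Fin 6 => Laz.lift G (vv 3 i Laz.univ)) = fun i : Fin 6 => vv 3 i G :=
    funext fun i => Laz.lift_v 3 i G
  refine ⟨fun y hy => hc.haus' y fun k => (e2 k y 0).2 (by rw [sub_zero, ← e1]; exact hy k),
    fun y hy => ?_, fun y hy => hu.mul_right_eq_zero.1 (e3 y ▸ hy),
    fun y => ⟨hu.unit⁻¹ * y, by rw [e3, ← mul_assoc, hu.mul_val_inv, one_mul]⟩,
    dense _ fun y => ?_, fun j x hx => ⟨0, ?_⟩⟩
  · obtain ⟨l, hl⟩ := hc.prec' y fun {m n} h => by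
      induction n, h using Nat.le_induction with
      | base => rfl
      | succ n h ih =>
        exact ih.trans ((e2 _ _ _).2 (Ideal.pow_le_pow_right h ((e1 _ _).1 (hy n)))).symm
    exact ⟨l, fun k => (e1 _ _).2 ((e2 _ _ _).1 (hl k).symm)⟩
  · obtain ⟨n, x, hx⟩ := h1 y
    refine ⟨n, x, ?_⟩
    rw [← pow_one (Laz.I 3 6), e1, pow_one, Algebra.smul_def, map_pow]
    exact (Laz.lift_v 3 6 G).symm ▸ hx
  · rw [pow_zero, one_smul]
    rw [e1, e4, Ih_eq, ← e5] at hx
    rw [Ih_eq, ← e5, Laz.I, Ih_eq] at h2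
    rw [Laz.I, Ih_eq]
    exact mem_top _ (closed _ _ (e5 ▸ hq) β h2 j x hx)

theorem cmp2 : CMP2 := by
  intro hF h0 hX hG h1 Γ F hΓ hd B _ ι hc
  obtain ⟨J, β, f1, f2⟩ := hF Γ hΓ
  have s1 := OInv.mapE_surjective (ZMod.ringHom_surjective eps)
  have s2 := OInv.ker_mapE (ZMod.ringHom_surjective eps)
  rw [ker_eps] at s2
  set F' := OInv.f Lam • F.map (OInv.inc Lam) with hF'
  set Γ' := OInv.f (ZMod 3) • Γ.map (OInv.inc (ZMod 3)) with hΓ'
  have e0 : F'.map (OInv.mapE eps) = Γ' := by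
    rw [hF', InvSeries.map_smul, OInv.map_mapE_f, Law.map_map, OInv.mapE_comp_inc, ← Law.map_map,
      hd.red]
  have e1 : Ih 3 6 (F'.map ι) = (mL.map (OInv.inc Lam)).map ι := by
    rw [Ih_map, hF', Ih_smul, Ih_map, Ih_def hd]
  have e2 : mL.map (OInv.inc Lam) = Ideal.span (Set.range fun i => OInv.inc Lam (s0 i)) := by
    rw [mL, Ideal.map_span, ← Set.range_comp]; rfl
  have e3 : (mL.map (OInv.inc Lam)).map ι =
      Ideal.span (Set.range fun i => ι (OInv.inc Lam (s0 i))) := by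
    rw [e2, Ideal.map_span, ← Set.range_comp]; rfl
  have e4 : ∀ x, OInv.mapE eps x = 0 → ι x ∈ Ih 3 6 (F'.map ι) := fun x hx => by
    rw [e1, ← s2]
    exact Ideal.mem_map_of_mem ι hx
  have c1 : IsAdicComplete (Ih 3 6 (F'.map ι)) B := e1 ▸ hc.cpl
  have c2 := IsAdicComplete.le_jacobson_bot (Ih 3 6 (F'.map ι))
  choose b hb using fun j => s1 (β j)
  have m1 : ∀ x : J →₀ Laz, ι (x.sum fun j z => Laz.lift F' z * b j) =
      x.sum fun j z => Laz.lift (F'.map ι) z * ι (b j) := fun x => by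
    simp only [map_finsuppSum, map_mul, Laz.map_lift]
  have m2 : ∀ x : J →₀ Laz, OInv.mapE eps (x.sum fun j z => Laz.lift F' z * b j) =
      x.sum fun j z => Laz.lift Γ' z * β j := fun x => by
    simp only [map_finsuppSum, map_mul, Laz.map_lift, e0, hb]
  refine ⟨J, fun j => ι (b j), h1 B _ c1 (hG B 6 _ _ ((e1.trans e3).ge.trans c2)
    ((Ih_eq 3 6 _).symm.trans (e1.trans e3)) (hX _ B ι 6 _ (e2 ▸ hc) h0.2)) ?_ J _
    (fun y => ?_) fun x hx => f2 x ?_⟩
  · have u1 : IsUnit (vv 3 6 Γ') := isUnit_vv_smul 3 6 1 _ _ (by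
      rw [pow_one, Ih_eq, Ideal.span_eq_bot]
      rintro _ ⟨i, rfl⟩
      simp only [vv_map, hΓ.low i i.2, map_zero]) (by rw [vv_map]; exact hΓ.top.map _)
    obtain ⟨w, hw⟩ := s1 u1.unit⁻¹.val
    have u2 := e4 (vv 3 6 F' * w - 1) (by
      rw [map_sub, map_mul, ← vv_map, e0, hw, u1.mul_val_inv, map_one, sub_self])
    rw [map_sub, map_mul, ← vv_map, map_one] at u2
    exact isUnit_of_mul_isUnit_left (Ideal.isUnit_of_sub_one_mem_jacobson_bot _ (c2 u2))
  · obtain ⟨y', hy⟩ := hc.surj 1 y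
    rw [pow_one, ← e1] at hy
    obtain ⟨n, x, hx⟩ := f1 (OInv.mapE eps y')
    refine ⟨n, x, ?_⟩
    have u2 := e4 (vv 3 6 F' ^ n * y' - x.sum fun j z => Laz.lift F' z * b j) (by
      rw [map_sub, map_mul, map_pow, ← vv_map, e0, m2, ← hx, Laz.lift_v, sub_self])
    rw [map_sub, map_mul, map_pow, ← vv_map, m1] at u2
    have u3 := add_mem (Ideal.mul_mem_left _ (vv 3 6 (F'.map ι) ^ n) hy) u2
    rwa [mul_sub, sub_add_sub_cancel] at u3
  · rw [← m1, e1, ← pow_one (Ideal.map ι _)] at hx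
    have u1 := hc.inj 1 _ hx
    rwa [pow_one, ← s2, RingHom.mem_ker, m2] at u1

end Vale.Agent.P236Z.E
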