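import Vale.Agent.P236Z.E.Alg
import Mathlib.RingTheory.AdicCompletion.LocalRing
import Mathlib.RingTheory.AdicCompletion.RingHom
import Mathlib.RingTheory.MvPowerSeries.Equiv
import Mathlib.RingTheory.MvPolynomial.Ideal
import Mathlib.RingTheory.MvPolynomial.Homogeneous
import Mathlib.RingTheory.Polynomial.Basic
import Mathlib.Algebra.Field.ZMod

/-!
# P236, block E: completions
-/

namespace Vale.Agent.P236Z.E

open IsLocalRing

namespace CplH

theorem mem_iff {A : Type} [CommRing A] {J : Ideal A} (h : J.FG) (k : ℕ)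
    (y : AdicCompletion J A) :
    y ∈ J.map (algebraMap A (AdicCompletion J A)) ^ k ↔ AdicCompletion.eval J A k y = 0 := by
  rw [← Ideal.map_pow, ← Submodule.restrictScalars_mem A, ← Ideal.smul_top_eq_map,
    AdicCompletion.pow_smul_top_eq_ker_eval h, LinearMap.mem_ker]

theorem cpl_adic {A : Type} [CommRing A] {J : Ideal A} (h : J.FG) :
    Cpl (algebraMap A (AdicCompletion J A)) J where
  cpl := AdicCompletion.isAdicComplete_self J h
  surj k y := by
    obtain ⟨x, hx⟩ := Submodule.mkQ_surjective _ (AdicCompletion.eval J A k y)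
    refine ⟨x, (mem_iff h k _).2 ?_⟩
    rw [map_sub, ← hx]
    exact sub_eq_zero.2 (AdicCompletion.eval_of J A k x).symm
  inj k x hx := by
    have h1 : (J ^ k • ⊤ : Submodule A A).mkQ x = 0 :=
      (AdicCompletion.eval_of J A k x).symm.trans ((mem_iff h k _).1 hx)
    have h2 := (Submodule.Quotient.mk_eq_zero _).1 h1
    rwa [smul_eq_mul, Ideal.mul_top] at h2

theorem haus {C : Type} [CommRing C] {m : Ideal C} (h : IsHausdorff m C) {a b : C}
    (e : ∀ k, a - b ∈ m ^ k) : a = b :=
  sub_eq_zero.1 (h.haus _ fun k => by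
    rw [SModEq.zero, smul_eq_mul, Ideal.mul_top]
    exact e k)

theorem map_mem {A C : Type} [CommRing A] [CommRing C] {J : Ideal A} {m : Ideal C} (φ : A →+* C)
    (h : J.map φ ≤ m) {k : ℕ} {x : A} (hx : x ∈ J ^ k) : φ x ∈ m ^ k :=
  Ideal.pow_right_mono h k (Ideal.map_pow φ J k ▸ Ideal.mem_map_of_mem φ hx)

theorem map_span {A A' : Type} [CommRing A] [CommRing A'] (ι : A →+* A') {N : ℕ}
    (s : Fin N → A) :
    (Ideal.span (Set.range s)).map ι = Ideal.span (Set.range fun i => ι (s i)) := by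
  rw [Ideal.map_span, ← Set.range_comp]
  rfl

/-- evaluation of power series at elements of an ideal for which the target is complete -/
theorem exists_eval {ι R A : Type} [Finite ι] [CommRing R] [CommRing A] (J : Ideal A)
    [IsAdicComplete J A] (σ : R →+* A) (x : ι → A) (hx : ∀ i, x i ∈ J) :
    ∃ φ : MvPowerSeries ι R →+* A,
      ∀ p : MvPolynomial ι R, φ (p : MvPowerSeries ι R) = MvPolynomial.eval₂Hom σ x p := by
  have hI : ∀ n, MvPolynomial.idealOfVars ι R ^ n ≤
      (J ^ n).comap (MvPolynomial.eval₂Hom σ x) := by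
    intro n
    rw [← Ideal.map_le_iff_le_comap, Ideal.map_pow]
    apply Ideal.pow_right_mono
    rw [MvPolynomial.idealOfVars, Ideal.map_span, Ideal.span_le]
    rintro _ ⟨_, ⟨i, rfl⟩, rfl⟩
    simpa using hx i
  let f : (n : ℕ) → MvPowerSeries ι R →+* A ⧸ J ^ n := fun n =>
    (Ideal.quotientMap (J ^ n) (MvPolynomial.eval₂Hom σ x) (hI n)).comp
      (MvPowerSeries.truncTotalAlgHom ι R n).toRingHom
  have hf : ∀ {m n : ℕ} (hle : m ≤ n), (Ideal.Quotient.factorPow J hle).comp (f n) = f m := by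
    intro m n hle
    ext p
    have h1 := hI m (MvPowerSeries.truncTotal_sub_truncTotal_mem_pow_idealOfVars hle le_rfl p)
    rw [Ideal.mem_comap, map_sub, ← Ideal.Quotient.mk_eq_mk_iff_sub_mem] at h1
    exact h1
  refine ⟨IsAdicComplete.liftRingHom J f hf, fun p => haus (m := J) inferInstance fun n => ?_⟩
  rw [← Ideal.Quotient.eq_zero_iff_mem, map_sub, IsAdicComplete.mk_liftRingHom, sub_eq_zero]
  have h2 := (MvPowerSeries.truncTotalAlgHom ι R n).commutes p
  exact congrArg (Ideal.quotientMap (J ^ n) (MvPolynomial.eval₂Hom σ x) (hI n)) h2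

/-- completions of noetherian rings are noetherian -/
theorem noeth {A A' : Type} [CommRing A] [CommRing A'] [IsNoetherianRing A] {ι : A →+* A'}
    {N : ℕ} {s : Fin N → A} (h : Cpl ι (Ideal.span (Set.range s))) : IsNoetherianRing A' := by
  have := h.cpl
  obtain ⟨φ, hφ⟩ := exists_eval ((Ideal.span (Set.range s)).map ι) ι (fun i => ι (s i))
    fun i => Ideal.mem_map_of_mem ι (Ideal.subset_span ⟨i, rfl⟩)
  have hX : ∀ i, φ (MvPowerSeries.X i) = ι (s i) := by
    intro i
    rw [← MvPolynomial.coe_X, hφ]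
    simp
  have hmap : (Ideal.span (Set.range MvPowerSeries.X) : Ideal (MvPowerSeries (Fin N) A)).map φ =
      (Ideal.span (Set.range s)).map ι := by
    rw [map_span, map_span]
    simp only [hX]
  have hH : IsHausdorff ((Ideal.span (Set.range MvPowerSeries.X) :
      Ideal (MvPowerSeries (Fin N) A)).map φ) A' := by
    rw [hmap]
    infer_instance
  refine isNoetherianRing_of_surjective _ _ φ (surjective_of_mk_map_comp_surjective
    (I := Ideal.span (Set.range MvPowerSeries.X)) φ fun y => ?_)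
  obtain ⟨a, rfl⟩ := Ideal.Quotient.mk_surjective y
  obtain ⟨c, hc⟩ := h.surj 1 a
  refine ⟨MvPowerSeries.C c, ?_⟩
  rw [← MvPolynomial.coe_C, RingHom.comp_apply, hφ]
  simp only [MvPolynomial.coe_eval₂Hom, MvPolynomial.eval₂_C]
  rw [eq_comm, Ideal.Quotient.mk_eq_mk_iff_sub_mem, hmap]
  rwa [pow_one] at hc

end CplH

open CplH

theorem cpx : CPX := fun A _ J h => ⟨AdicCompletion J A, inferInstance, _, cpl_adic h⟩

theorem extn : EXTN := by
  intro A A' C _ _ _ ι J h m hm φ hφ
  have hJ : J.map φ ≤ m := Ideal.map_le_iff_le_comap.2 hφ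
  have h1 : ∀ k, ∃ f : A' →+* C ⧸ m ^ k, ∀ y x, y - ι x ∈ J.map ι ^ k →
      f y = Ideal.Quotient.mk _ (φ x) := by
    intro k
    have hs : Function.Surjective ((Ideal.Quotient.mk (J.map ι ^ k)).comp ι) := fun y => by
      obtain ⟨y, rfl⟩ := Ideal.Quotient.mk_surjective y
      obtain ⟨x, hx⟩ := h.surj k y
      exact ⟨x, ((Ideal.Quotient.mk_eq_mk_iff_sub_mem _ _).2 hx).symm⟩
    have hk : RingHom.ker ((Ideal.Quotient.mk (J.map ι ^ k)).comp ι) ≤
        RingHom.ker ((Ideal.Quotient.mk (m ^ k)).comp φ) := fun x hx =>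
      Ideal.Quotient.eq_zero_iff_mem.2
        (map_mem φ hJ (h.inj k x (Ideal.Quotient.eq_zero_iff_mem.1 hx)))
    refine ⟨(RingHom.liftOfSurjective _ hs ⟨_, hk⟩).comp (Ideal.Quotient.mk _), fun y x e => ?_⟩
    rw [RingHom.comp_apply, (Ideal.Quotient.mk_eq_mk_iff_sub_mem _ _).2 e]
    exact RingHom.liftOfRightInverse_comp_apply _ _ _ ⟨_, hk⟩ x
  choose f hf using h1
  have h2 : ∀ {k l : ℕ} (hle : k ≤ l), (Ideal.Quotient.factorPow m hle).comp (f l) = f k := by
    intro k l hle
    refine RingHom.ext fun y => ?_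
    obtain ⟨x, hx⟩ := h.surj l y
    rw [RingHom.comp_apply, hf l y x hx, hf k y x (Ideal.pow_le_pow_right hle hx)]
    rfl
  have h3 : ∀ ψ : A' →+* C, ψ.comp ι = φ → ∀ k y x, y - ι x ∈ J.map ι ^ k →
      ψ y - φ x ∈ m ^ k := by
    intro ψ e k y x hx
    have h4 := map_mem ψ (m := m) (by rwa [Ideal.map_map, e]) hx
    rwa [map_sub, ← RingHom.comp_apply, e] at h4
  have h4 : (IsAdicComplete.liftRingHom m f h2).comp ι = φ :=
    RingHom.ext fun x => haus hm.toIsHausdorff fun k => by
      rw [← Ideal.Quotient.mk_eq_mk_iff_sub_mem, RingHom.comp_apply,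
        IsAdicComplete.mk_liftRingHom]
      exact hf k _ x (by rw [sub_self]; exact zero_mem _)
  refine ⟨_, h4, fun ψ e => RingHom.ext fun y => haus hm.toIsHausdorff fun k => ?_⟩
  obtain ⟨x, hx⟩ := h.surj k y
  have h5 := sub_mem (h3 ψ e k y x hx) (h3 _ h4 k y x hx)
  rwa [sub_sub_sub_cancel_right] at h5

theorem qrx : QRX := by
  intro A A' _ _ ι N s h hs n P hP he μ
  classical
  rw [← map_span] at he ⊢
  choose a ha using fun μ => h.surj 1 (P.coeff μ)
  simp only [pow_one] at ha
  let Q : MvPolynomial (Fin N) A := ∑ ν ∈ P.support, MvPolynomial.monomial ν (a ν)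
  have hd : ∀ ν ∈ P.support, ν.degree = n := fun ν hν => by
    rw [Finsupp.degree_eq_weight_one]
    exact hP (MvPolynomial.mem_support_iff.1 hν)
  have hQ : Q.IsHomogeneous n :=
    MvPolynomial.IsHomogeneous.sum _ _ _ fun ν hν =>
      MvPolynomial.isHomogeneous_monomial _ (hd ν hν)
  have h1 : MvPolynomial.eval (fun i => ι (s i)) P - ι (MvPolynomial.eval s Q) ∈
      (Ideal.span (Set.range s)).map ι ^ (n + 1) := by
    rw [MvPolynomial.eval_eq', map_sum, map_sum, ← Finset.sum_sub_distrib]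
    refine Ideal.sum_mem _ fun ν hν => ?_
    rw [MvPolynomial.eval_monomial, Finsupp.prod_fintype _ _ fun _ => pow_zero _, map_mul,
      map_prod, pow_succ']
    simp only [map_pow]
    rw [← sub_mul]
    refine Ideal.mul_mem_mul (ha ν) ?_
    rw [← hd ν hν, Finsupp.degree_eq_sum, ← Finset.prod_pow_eq_pow_sum]
    exact Ideal.prod_mem_prod fun i _ =>
      Ideal.pow_mem_pow (Ideal.mem_map_of_mem ι (Ideal.subset_span (Set.mem_range_self i))) _
  have h2 := sub_mem he h1
  rw [sub_sub_cancel] at h2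
  have h3 := hs n Q hQ (h.inj _ _ h2) μ
  by_cases hμ : μ ∈ P.support
  · have h4 : Q.coeff μ = a μ := by
      rw [MvPolynomial.coeff_sum, Finset.sum_eq_single μ (fun ν _ e => by
        rw [MvPolynomial.coeff_monomial, if_neg e]) (fun e => absurd hμ e),
        MvPolynomial.coeff_monomial, if_pos rfl]
    have h5 := add_mem (ha μ) (Ideal.mem_map_of_mem ι (h4 ▸ h3))
    rwa [sub_add_cancel] at h5
  · rw [MvPolynomial.notMem_support_iff.1 hμ]
    exact zero_mem _

theorem ker_eps : RingHom.ker eps = mL := by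
  have h3 : (3 : Lam) ∈ mL := Ideal.subset_span ⟨0, rfl⟩
  have hX : ∀ i, (MvPolynomial.X i : Lam) ∈ mL := fun i => Ideal.subset_span ⟨i.succ, rfl⟩
  refine le_antisymm (fun p hp => ?_) (Ideal.span_le.2 ?_)
  · have h1 : ∀ q : Lam, q - MvPolynomial.C (MvPolynomial.constantCoeff q) ∈ mL := fun q => by
      induction q using MvPolynomial.induction_on with
      | C a => rw [MvPolynomial.constantCoeff_C, sub_self]; exact zero_mem _
      | add p q hp hq => rw [map_add, map_add, add_sub_add_comm]; exact add_mem hp hq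
      | mul_X p i _ =>
        rw [map_mul, MvPolynomial.constantCoeff_X, mul_zero, map_zero, sub_zero]
        exact Ideal.mul_mem_left _ _ (hX i)
    obtain ⟨t, ht⟩ := (ZMod.intCast_zmod_eq_zero_iff_dvd _ 3).1 hp
    have h2 := h1 p
    rw [ht, map_mul, map_natCast] at h2
    have h4 := add_mem h2 (Ideal.mul_mem_right (MvPolynomial.C t) _ h3)
    rwa [Nat.cast_ofNat, sub_add_cancel] at h4
  · rintro _ ⟨i, rfl⟩
    refine Fin.cases ?_ (fun j => ?_) i
    · show eps 3 = 0
      rw [map_ofNat]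
      rfl
    · show eps (MvPolynomial.X j) = 0
      rw [eps, RingHom.comp_apply, MvPolynomial.constantCoeff_X, map_zero]

theorem mL_fg : mL.FG := Submodule.fg_span (Set.finite_range _)

theorem mL_max : mL.IsMaximal := by
  have : Fact (Nat.Prime 3) := ⟨Nat.prime_three⟩
  exact ker_eps ▸ RingHom.ker_isMaximal_of_surjective eps (ZMod.ringHom_surjective eps)

theorem e0x : E0X := by
  have := mL_max
  have h1 := AdicCompletion.isMaximal_map_of_le mL mL le_rfl mL_fg
  have h2 := cpl_adic mL_fg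
  have h3 := h2.cpl
  have h4 : IsLocalRing (AdicCompletion mL Lam) :=
    isLocalRing_of_isAdicComplete_maximal (mL.map (algebraMap Lam (AdicCompletion mL Lam)))
  exact ⟨AdicCompletion mL Lam, inferInstance, h4, _, noeth (s := s0) h2, h2, eq_maximalIdeal h1⟩

end Vale.Agent.P236Z.E
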