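import Vale.Agent.P236Z.E.AlgD
import Vale.Agent.P236Z.E.Cpl
import Vale.Agent.P236Z.E.Cmp
import Vale.Agent.P251.F.Deform

/-!
# P236, block E: the assembly of the algebra
-/

namespace Vale.Agent.P236Z.E

open Vale.Agent.P251.F Vale.Agent.P251.S IsLocalRing

namespace ActH

variable {A B C R : Type} [CommRing A] [CommRing B] [CommRing C] [CommRing R]

theorem neg_map (φ : A →+* B) : InvSeries.map φ (neg A) = neg B := by
  rw [InvSeries.map_lin]
  exact congrArg _ (Units.ext (by simp))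

theorem odd_map (φ : A →+* B) {F : Law A} (h : neg A • F = F) : neg B • F.map φ = F.map φ := by
  rw [← neg_map φ, ← InvSeries.map_smul, h]

theorem cpl_of_nil {J : Ideal A} (h : IsNilpotent J) : IsAdicComplete J A := by
  obtain ⟨N, hN⟩ := h
  have a : ∀ x y : A, x ≡ y [SMOD (J ^ N • ⊤ : Submodule A A)] → x = y := fun x y k => by
    rw [hN] at k
    simpa using k
  refine { haus' := fun x hx => a _ _ (hx N), prec' := fun f hf => ⟨f N, fun n => ?_⟩ }
  rcases le_total n N with k | k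
  · exact hf k
  · rw [a _ _ (hf k)]

theorem c_zero_pow (f : InvSeries A) (n : ℕ) : (f ^ n).c 0 = f.c 0 ^ n := by
  induction n with
  | zero => simp
  | succ n ih => rw [pow_succ, InvSeries.c_zero_mul, ih, pow_succ]

theorem tf {N : ℕ} {s : Fin N → A} (hq : QReg s) (hh : IsHausdorff (Ideal.span (Set.range s)) A)
    (i : Fin N) {r : A} (h : s i * r = 0) : r = 0 := by
  refine CplH.haus hh fun k => ?_
  rw [sub_zero]
  induction k with
  | zero => simp
  | succ k ih =>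
    obtain ⟨P, h1, rfl⟩ := (Ideal.mem_span_pow_iff_exists_isHomogeneous _ _).1 ih
    refine CmpH.eval_mem s h1 fun μ => ?_
    rw [← MvPolynomial.coeff_X_mul μ i P]
    refine hq _ _ ((MvPolynomial.isHomogeneous_X A i).mul h1) ?_ _
    rw [map_mul, MvPolynomial.eval_X, h]
    exact zero_mem _

/-- the series of the third power -/
noncomputable def s3 (φ : R →+* R) (f : InvSeries R) : InvSeries R :=
  InvSeries.map φ (InvSeries.map φ f) * InvSeries.map φ f * f

theorem map_s3 {φ : R →+* R} {ρ : R →+* A} (h : ρ.comp φ = ρ) (f : InvSeries R) :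
    InvSeries.map ρ (s3 φ f) = InvSeries.map ρ f ^ 3 := by
  simp only [s3, map_mul, InvSeries.map_map, ← RingHom.comp_assoc, h, pow_succ, pow_zero, one_mul]

theorem act_s3 {φ : R →+* R} {f : InvSeries R} {F : Law R} (h : f • F = F.map φ) :
    s3 φ f • F = F.map (φ.comp (φ.comp φ)) := by
  rw [s3, mul_smul, mul_smul, h, ← InvSeries.map_smul, h, ← InvSeries.map_smul,
    ← InvSeries.map_smul, h, Law.map_map, Law.map_map, RingHom.comp_assoc]

theorem comp3 {φ : R →+* R} {ρ : R →+* A} (h : ρ.comp φ = ρ) : ρ.comp (φ.comp (φ.comp φ)) = ρ := by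
  simp only [← RingHom.comp_assoc, h]

/-- the setting -/
structure Su (Γ : Law (ZMod 3)) (F : Law Lam) (ι : Lam →+* R) (res : R →+* ZMod 3) : Prop where
  et : ETC
  ex : EXTN
  ht : Ht6 Γ
  df : Def Γ F
  cpl : Cpl ι mL
  res : res.comp ι = eps

variable {Γ : Law (ZMod 3)} {F : Law Lam} {ι : Lam →+* R} {res : R →+* ZMod 3}
  (S : Su Γ F ι res) {π : C →+* ZMod 3} (hc : IsAdicComplete (RingHom.ker π) C) {G : Law C}

theorem eps_mem {x : Lam} (h : x ∈ mL) : eps x = 0 := (ker_eps ▸ h : x ∈ RingHom.ker eps)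

include S

theorem Su.red : (F.map ι).map res = Γ := by rw [Law.map_map, S.res, S.df.red]

include hc

theorem Su.uq {φ φ' : R →+* C} {h h' : InvSeries C} (a : π.comp φ = res) (a' : π.comp φ' = res)
    (b : h • (F.map ι).map φ = G) (b' : h' • (F.map ι).map φ' = G)
    (e : InvSeries.map π h' = InvSeries.map π h) : φ = φ' ∧ h = h' := by
  have k : ∀ ψ : R →+* C, π.comp ψ = res → ∀ x ∈ mL, π (ψ.comp ι x) = 0 := fun ψ a x hx =>
    (RingHom.congr_fun a _).trans ((RingHom.congr_fun S.res x).trans (eps_mem hx))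
  obtain ⟨e1, e2⟩ := Prod.ext_iff.1 ((S.et Γ F S.ht S.df C _ π (ZMod.ringHom_surjective π) hc
    (RingHom.id _) G (InvSeries.map π h) (by
      rw [← b, InvSeries.map_smul, Law.map_map φ π, a, S.red, Law.map_id])).unique
    (y₁ := (φ.comp ι, h)) (y₂ := (φ'.comp ι, h'))
    ⟨fun i => k φ a _ (CmpH.X_mem i), rfl, by rw [← b, Law.map_map]⟩
    ⟨fun i => k φ' a' _ (CmpH.X_mem i), e, by rw [← b', Law.map_map]⟩)
  exact ⟨(S.ex _ _ _ ι mL S.cpl _ hc (φ.comp ι) (k φ a)).unique rfl e1.symm, e2⟩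

theorem Su.exi {gb : InvSeries (ZMod 3)} (h : gb • Γ = G.map π) : ∃ (φ : R →+* C) (g : InvSeries C),
    π.comp φ = res ∧ g • (F.map ι).map φ = G ∧ InvSeries.map π g = gb := by
  obtain ⟨⟨x, g⟩, k⟩ := (S.et Γ F S.ht S.df C _ π (ZMod.ringHom_surjective π) hc
    (RingHom.id _) G gb (by rw [Law.map_id, h])).exists
  have e : π.comp x = eps := MvPolynomial.ringHom_ext' (RingHom.ext_int _ _) fun i =>
    (k.mem i).trans (eps_mem (CmpH.X_mem i)).symm
  obtain ⟨φ, hφ⟩ := (S.ex _ _ _ ι mL S.cpl _ hc x fun y hy =>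
    (RingHom.congr_fun e y).trans (eps_mem hy)).exists
  refine ⟨φ, g, (S.ex _ _ _ ι mL S.cpl ⊥ inferInstance eps fun y hy => eps_mem hy).unique
    (by rw [RingHom.comp_assoc, hφ, e]) S.res, ?_, k.red⟩
  rw [Law.map_map, hφ]
  exact k.act

omit hc

theorem Su.uq' (hc : IsAdicComplete (RingHom.ker res) R) {φ φ' : R →+* R} {h h' : InvSeries R}
    (a : res.comp φ = res) (a' : res.comp φ' = res) (b : h • F.map ι = (F.map ι).map φ)
    (b' : h' • F.map ι = (F.map ι).map φ') (e : InvSeries.map res h' = InvSeries.map res h) :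
    φ = φ' ∧ h = h' :=
  (S.uq hc a a' (inv_smul_eq_iff.2 b.symm) (inv_smul_eq_iff.2 b'.symm)
    (by rw [map_inv, map_inv, e])).imp id fun k => inv_injective k

/-- the automorphism of order nine -/
theorem Su.gam (hc : IsAdicComplete (RingHom.ker res) R) {z : InvSeries (ZMod 3)} (h1 : z • Γ = Γ)
    (h2 : z ^ 9 = 1) (h3 : z * neg _ = neg _ * z) : ∃ (γ : R ≃+* R) (f : InvSeries R),
      res.comp γ = res ∧ f • F.map ι = (F.map ι).map γ ∧ InvSeries.map res f = z ∧
      (∀ r, (γ ^ 9) r = r) ∧ Tate.ser3 (γ.trans (γ.trans γ)) (Tate.ser3 γ f) = 1 ∧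
      f * neg R = neg R * f := by
  obtain ⟨φ, g, a, b, c⟩ := S.exi hc (G := F.map ι) (gb := z⁻¹) (by rw [S.red, inv_smul_eq_iff, h1])
  have b' : g⁻¹ • F.map ι = (F.map ι).map φ := inv_smul_eq_iff.2 b.symm
  have c' : InvSeries.map res g⁻¹ = z := by rw [map_inv, c, inv_inv]
  obtain ⟨e1, e2⟩ := S.uq' hc (comp3 (comp3 a)) (res.comp_id) (act_s3 (act_s3 b'))
    (h' := 1) (by rw [one_smul, Law.map_id])
    (by rw [map_s3 (comp3 a), map_s3 a, c', ← pow_mul, map_one, h2])
  have e3 : ∀ r, φ^[9] r = r := RingHom.congr_fun e1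
  have o := odd_map ι S.df.odd
  refine ⟨.ofBijective φ ⟨fun x y k => (e3 x).symm.trans ((congrArg φ^[8] k).trans (e3 y)),
    fun r => ⟨φ^[8] r, e3 r⟩⟩, g⁻¹, a, b', c', fun r => ?_, e2, (S.uq' hc a a ?_ ?_ ?_).2⟩
  · rw [RingAut.coe_pow]
    exact e3 r
  · rw [mul_smul, o, b']
  · rw [mul_smul, b', odd_map φ o]
  · rw [map_mul, map_mul, c', neg_map, h3]

end ActH

open ActH

theorem act : ACT := by
  rintro ⟨c⟩ hFL hET hCP hEX hQX hQ0 ⟨R, _, _, ι, hN, hι, hm⟩ hCB
  obtain ⟨F, hF⟩ := hFL _ c.ht (odd_map c.π c.odd)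
  obtain ⟨res, hr⟩ := (hEX _ _ _ ι mL hι ⊥ inferInstance eps fun y hy => eps_mem hy).exists
  have S : Su (c.F.map c.π) F ι res := ⟨hET, hEX, c.ht, hF, hι, hr⟩
  have hk : RingHom.ker res = maximalIdeal R := ((maximalIdeal.isMaximal R).eq_of_le
    (RingHom.ker_ne_top res) (hm ▸ Ideal.map_le_iff_le_comap.2 fun x hx =>
      (RingHom.congr_fun hr x).trans (eps_mem hx))).symm
  have hc : IsAdicComplete (maximalIdeal R) R := hm ▸ hι.cpl
  have mem : ∀ r, res r = 0 → r ∈ maximalIdeal R := fun r h => hk ▸ h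
  have un : ∀ r, res r ≠ 0 → IsUnit r := fun r h =>
    notMem_maximalIdeal.1 fun k => h (hk ▸ k : r ∈ RingHom.ker res)
  have hs : Ideal.span (Set.range fun i => ι (s0 i)) = maximalIdeal R :=
    (CplH.map_span ι s0).symm.trans hm
  have hq := hQX _ _ ι 6 s0 hι hQ0.1
  obtain ⟨γ, f, g1, g2, g3, g4, g5, g6⟩ := S.gam (hk ▸ hc) (z := InvSeries.map c.π c.z)
    (by rw [← InvSeries.map_smul, c.act]) (by rw [← map_pow, c.ord, map_one])
    (by rw [← neg_map c.π, ← map_mul, c.comm, map_mul])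
  have hA : IsAdicComplete (RingHom.ker c.π) c.A := cpl_of_nil (c.ker ▸ c.nil)
  obtain ⟨pt, g, p1, p2, p3⟩ := S.exi hA (G := c.F) (gb := 1) (one_smul _ _)
  have p4 : pt.comp γ = pt := (S.uq hA (h := c.z * g * (InvSeries.map pt f)⁻¹)
    (by rw [← RingHom.comp_assoc, p1, g1]) p1
    (by rw [← Law.map_map _ pt, ← g2, InvSeries.map_smul, mul_smul, inv_smul_smul, mul_smul, p2, c.act])
    p2 (by rw [map_mul, map_mul, map_inv, InvSeries.map_map, p1, g3, p3, mul_one, mul_inv_cancel])).1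
  obtain ⟨B, _, κ, hκ⟩ := hCP (OInv Lam) (mL.map (OInv.inc Lam)) (mL_fg.map _)
  obtain ⟨inc, i1⟩ := (hEX _ _ _ ι mL hι _ hκ.cpl (κ.comp (OInv.inc Lam)) fun x hx =>
    Ideal.mem_map_of_mem _ (Ideal.mem_map_of_mem _ hx)).exists
  obtain ⟨r, r1⟩ := (hEX _ _ _ κ _ hκ _ hc (OInv.lift ι 1) fun x hx => by
    rw [← hm, ← OInv.lift_comp_inc ι 1, ← Ideal.map_map, OInv.lift_comp_inc]
    exact Ideal.mem_map_of_mem _ hx).exists
  have r2 : r.comp inc = RingHom.id R := (hEX _ _ _ ι mL hι _ hc ι fun x hx =>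
    hm ▸ Ideal.mem_map_of_mem _ hx).unique
      (by rw [RingHom.comp_assoc, i1, ← RingHom.comp_assoc, r1, OInv.lift_comp_inc]) ι.id_comp
  obtain ⟨J, β, hβ⟩ := hCB _ F c.ht hF B κ hκ
  have o := odd_map ι hF.odd
  have cf : ∀ n, res (f.c n) = c.π (c.z.c n) := fun n => by
    rw [← InvSeries.c_map, g3, InvSeries.c_map]
  exact ⟨{
    R := R
    base := ⟨hN, hc, mem _ (by rw [map_ofNat]; rfl), fun x => ⟨x, mem _ (by
      rw [map_sub, map_pow, ZMod.pow_card, sub_self])⟩, _, hs, hs ▸ hq⟩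
    tf := fun x hx => tf hq (hs ▸ hc.toIsHausdorff) 0 ((congrArg (· * x) (map_ofNat ι 3)).trans hx)
    F := F.map ι
    γ := γ
    f := f
    lt := ⟨g2, by
        rw [← hm, ← CmpH.Ih_def hF, ← Ih_map]
        exact congrArg Ideal.span (Set.ext fun x => exists_congr fun i => and_congr_right' eq_comm),
      coeff_eq_zero_of_lin_smul (n := 1) (i := 1) (j := 1) o rfl (un _ (by simp; decide)),
      fun x => mem _ (by rw [map_sub, sub_eq_zero]; exact RingHom.congr_fun g1 x),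
      mem _ (by rw [map_sub, map_one, sub_eq_zero]; exact (cf 0).trans c.strict),
      un _ (fun k => c.unit ((cf 2).symm.trans k)), g4, g5⟩
    odd := o
    comm := g6
    res := res
    ker := hk
    ht := S.red ▸ c.ht
    A := c.A
    h27 := c.h27
    h9 := c.h9
    pt := pt
    pt_loc := fun x hx => c.ker ▸ (RingHom.congr_fun p1 x).trans (hk ▸ hx : x ∈ RingHom.ker res)
    pt_γ := RingHom.congr_fun p4
    pt_f := by
      have := congrArg (InvSeries.map pt) g5
      rw [show Tate.ser3 (γ.trans (γ.trans γ)) (Tate.ser3 γ f) =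
        s3 ((γ : R →+* R).comp ((γ : R →+* R).comp γ)) (s3 γ f) from rfl, map_s3 (comp3 p4), map_s3 p4,
        ← pow_mul, map_one] at this
      rw [← InvSeries.c_map, ← c_zero_pow, this, InvSeries.c_zero_one]
    B := B
    inc := inc
    r := r
    g := InvSeries.map κ (OInv.f Lam)
    r_inc := RingHom.congr_fun r2
    r_g := by rw [InvSeries.map_map, r1, OInv.map_lift_f]
    J := J
    β := β
    cmp := by rwa [Law.map_map, i1, ← Law.map_map, ← InvSeries.map_smul] }⟩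

end Vale.Agent.P236Z.E
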