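import Vale.Agent.P236Z.Tate.Defs
import Vale.Agent.P251.F.OInv
import Vale.Agent.P251.F.Inv
import Vale.Agent.P251.S.CompCond

/-!
# P236, block E (the Lubin-Tate spectrum of height six at `p = 3`): the algebra, definitions and rows
-/

namespace Vale.Agent.P236Z.E

open Vale.Agent.P251.F Vale.Agent.P251.S IsLocalRing

/-- the polynomial ring on `u₁, …, u₅` -/
abbrev Lam : Type := MvPolynomial (Fin 5) ℤ

/-- the sequence `3, u₁, …, u₅` -/
noncomputable def s0 : Fin 6 → Lam := Fin.cons 3 MvPolynomial.X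

/-- the ideal `(3, u₁, …, u₅)` -/
noncomputable def mL : Ideal Lam := Ideal.span (Set.range s0)

/-- the residue map -/
noncomputable def eps : Lam →+* ZMod 3 :=
  (Int.castRingHom (ZMod 3)).comp MvPolynomial.constantCoeff

/-- the series `-x` -/
noncomputable abbrev neg (B : Type*) [CommRing B] : InvSeries B := InvSeries.lin (-1)

/-- a law of height exactly six -/
structure Ht6 (Γ : Law (ZMod 3)) : Prop where
  low : ∀ i < 6, vv 3 i Γ = 0
  top : IsUnit (vv 3 6 Γ)

/-- a deformation of `Γ` over `Lam` with `v_i = u_i` modulo three -/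
structure Def (Γ : Law (ZMod 3)) (F : Law Lam) : Prop where
  red : F.map eps = Γ
  vv : ∀ i : Fin 5, vv 3 (i + 1) F - MvPolynomial.X i ∈ Ideal.span {(3 : Lam)}
  odd : neg Lam • F = F

/-- The point with complex multiplication by the ninth roots of unity, modulo `27`. -/
structure CM where
  A : Type
  [ring : CommRing A]
  [loc : IsLocalRing A]
  π : A →+* ZMod 3
  ker : RingHom.ker π = maximalIdeal A
  nil : IsNilpotent (maximalIdeal A)
  h27 : (27 : A) = 0
  h9 : (9 : A) ≠ 0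
  F : Law A
  z : InvSeries A
  act : z • F = F
  ord : z ^ 9 = 1
  odd : neg A • F = F
  comm : z * neg A = neg A * z
  ht : Ht6 (F.map π)
  strict : π (z.c 0) = 1
  unit : π (z.c 2) ≠ 0

attribute [instance] CM.ring CM.loc

/-- `ι : A → A'` is a completion at `J` -/
structure Cpl {A A' : Type} [CommRing A] [CommRing A'] (ι : A →+* A') (J : Ideal A) : Prop where
  cpl : IsAdicComplete (J.map ι) A'
  surj : ∀ (k : ℕ) (y : A'), ∃ x, y - ι x ∈ J.map ι ^ k
  inj : ∀ (k : ℕ) (x : A), ι x ∈ J.map ι ^ k → x ∈ J ^ k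

/-- the sequence `s` is quasi-regular -/
def QReg {A : Type} [CommRing A] {N : ℕ} (s : Fin N → A) : Prop :=
  ∀ (n : ℕ) (P : MvPolynomial (Fin N) A), P.IsHomogeneous n →
    MvPolynomial.eval s P ∈ Ideal.span (Set.range s) ^ (n + 1) →
      ∀ μ, P.coeff μ ∈ Ideal.span (Set.range s)

/-- `B` is the completed free `Laz`-module on the `β j` -/
def Cmp {B : Type} [CommRing B] (lam : Laz →+* B) {J : Type} (β : J → B) : Prop :=
  letI := lam.toAlgebra
  CompCond (Laz.I 3 6) (Laz.v 3 6) (Finsupp.linearCombination Laz β)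

/-! ### the rows -/

/-- the Lubin-Tate lemma for the series `π x + x ^ 3` -/
def LTL : Prop :=
  ∀ (O : Type) [CommRing O] (π : O), (∀ a, π * a = 0 → a = 0) →
    (∀ k, 1 ≤ k → IsUnit (1 - π ^ k)) → (∀ a : O, π ∣ a ^ 3 - a) → π ∣ 3 →
    ∀ (σ : Type) [Fintype σ] (c : σ → O),
      ∃! Φ : MvPowerSeries σ O, MvPowerSeries.constantCoeff Φ = 0 ∧
        (∀ i, MvPowerSeries.coeff (Finsupp.single i 1) Φ = c i) ∧
        MvPowerSeries.C π * Φ + Φ ^ 3 = MvPowerSeries.subst
          (fun i => (MvPowerSeries.C π * MvPowerSeries.X i + MvPowerSeries.X i ^ 3 :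
            MvPowerSeries σ O)) Φ

/-- the point with complex multiplication -/
def GAM : Prop := LTL → Nonempty CM

/-- existence of the deformation -/
def FL : Prop :=
  ∀ Γ : Law (ZMod 3), Ht6 Γ → neg (ZMod 3) • Γ = Γ → ∃ F : Law Lam, Def Γ F

/-- isomorphisms with `Γ` lift uniquely along square zero ideals, in height six -/
def RIG : Prop :=
  ∀ Γ : Law (ZMod 3), Ht6 Γ → ∀ (C C' : Type) [CommRing C] [CommRing C'] (κ : ZMod 3 →+* C)
    (π : C →+* C'), RingHom.ker π * RingHom.ker π = ⊥ → ∀ (G : Law C), (∀ i < 6, vv 3 i G = 0) →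
    ∀ g0 : InvSeries C, (g0 • Γ.map κ).map π = G.map π →
    ∃! g : InvSeries C, InvSeries.map π g = InvSeries.map π g0 ∧ g • Γ.map κ = G

/-- `(x, g)` classifies the deformation `G` -/
structure Cls (F : Law Lam) {C k : Type} [CommRing C] [CommRing k] (π : C →+* k) (G : Law C)
    (gb : InvSeries k) (x : Lam →+* C) (g : InvSeries C) : Prop where
  mem : ∀ i, π (x (MvPolynomial.X i)) = 0
  red : InvSeries.map π g = gb
  act : g • F.map x = G

/-- the theorem of Lubin and Tate, nilpotent ideals -/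
def ETN : Prop :=
  ∀ (Γ : Law (ZMod 3)) (F : Law Lam), Ht6 Γ → Def Γ F →
    ∀ (C k : Type) [CommRing C] [CommRing k] (π : C →+* k), Function.Surjective π →
      IsNilpotent (RingHom.ker π) → ∀ (κ : ZMod 3 →+* k) (G : Law C) (gb : InvSeries k),
      gb • Γ.map κ = G.map π →
      ∃! xg : (Lam →+* C) × InvSeries C, Cls F π G gb xg.1 xg.2

/-- the theorem of Lubin and Tate, complete rings -/
def ETC : Prop :=
  ∀ (Γ : Law (ZMod 3)) (F : Law Lam), Ht6 Γ → Def Γ F →
    ∀ (C k : Type) [CommRing C] [CommRing k] (π : C →+* k), Function.Surjective π →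
      IsAdicComplete (RingHom.ker π) C → ∀ (κ : ZMod 3 →+* k) (G : Law C) (gb : InvSeries k),
      gb • Γ.map κ = G.map π →
      ∃! xg : (Lam →+* C) × InvSeries C, Cls F π G gb xg.1 xg.2

def ET1 : Prop := RIG → ETN

def ET2 : Prop := ETN → ETC

/-- existence of completions -/
def CPX : Prop :=
  ∀ (A : Type) [CommRing A] (J : Ideal A), J.FG →
    ∃ (A' : Type) (_ : CommRing A') (ι : A →+* A'), Cpl ι J

/-- extension of homomorphisms to completions -/
def EXTN : Prop :=
  ∀ (A A' C : Type) [CommRing A] [CommRing A'] [CommRing C] (ι : A →+* A') (J : Ideal A),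
    Cpl ι J → ∀ (m : Ideal C), IsAdicComplete m C → ∀ φ : A →+* C, (∀ x ∈ J, φ x ∈ m) →
    ∃! φ' : A' →+* C, φ'.comp ι = φ

/-- quasi-regularity passes to completions -/
def QRX : Prop :=
  ∀ (A A' : Type) [CommRing A] [CommRing A'] (ι : A →+* A') (N : ℕ) (s : Fin N → A),
    Cpl ι (Ideal.span (Set.range s)) → QReg s → QReg fun i => ι (s i)

/-- `3, u₁, …, u₅` is quasi-regular, also on the ring of invertible series -/
def QR0 : Prop := QReg s0 ∧ QReg fun i => OInv.inc Lam (s0 i)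

/-- the complete local ring -/
def E0X : Prop :=
  ∃ (R : Type) (_ : CommRing R) (_ : IsLocalRing R) (ι : Lam →+* R),
    IsNoetherianRing R ∧ Cpl ι mL ∧ mL.map ι = maximalIdeal R

/-- freeness modulo `I₆` -/
def FREE : Prop :=
  ∀ Γ : Law (ZMod 3), Ht6 Γ → ∃ (J : Type) (β : J → OInv (ZMod 3)),
    (∀ y : OInv (ZMod 3), ∃ (n : ℕ) (x : J →₀ Laz),
      Laz.lift (OInv.f (ZMod 3) • Γ.map (OInv.inc (ZMod 3))) (Laz.v 3 6) ^ n * y =
        x.sum fun j z => Laz.lift (OInv.f (ZMod 3) • Γ.map (OInv.inc (ZMod 3))) z * β j) ∧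
    ∀ x : J →₀ Laz,
      (x.sum fun j z => Laz.lift (OInv.f (ZMod 3) • Γ.map (OInv.inc (ZMod 3))) z * β j) = 0 →
      ∀ j, x j ∈ Laz.I 3 6

/-- a complete ring on which `v₀, …, v₅` is quasi-regular and which is free modulo `I₆` is
completed free -/
def CMP1 : Prop :=
  ∀ (B : Type) [CommRing B] (G : Law B), IsAdicComplete (Ih 3 6 G) B →
    QReg (fun i : Fin 6 => vv 3 i G) → IsUnit (vv 3 6 G) → ∀ (J : Type) (β : J → B),
    (∀ y : B, ∃ (n : ℕ) (x : J →₀ Laz),
      vv 3 6 G ^ n * y - (x.sum fun j z => Laz.lift G z * β j) ∈ Ih 3 6 G) →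
    (∀ x : J →₀ Laz, (x.sum fun j z => Laz.lift G z * β j) ∈ Ih 3 6 G → ∀ j, x j ∈ Laz.I 3 6) →
    Cmp (Laz.lift G) β

/-- quasi-regularity does not depend on the generators -/
def QRG : Prop :=
  ∀ (A : Type) [CommRing A] (N : ℕ) (s s' : Fin N → A),
    Ideal.span (Set.range s) ≤ Ideal.jacobson ⊥ →
    Ideal.span (Set.range s') = Ideal.span (Set.range s) → QReg s → QReg s'

/-- the completed ring of invertible series is completed free -/
def CMPB : Prop :=
  ∀ (Γ : Law (ZMod 3)) (F : Law Lam), Ht6 Γ → Def Γ F →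
    ∀ (B : Type) [CommRing B] (ι : OInv Lam →+* B), Cpl ι (mL.map (OInv.inc Lam)) →
    ∃ (J : Type) (β : J → B),
      Cmp (Laz.lift ((OInv.f Lam • F.map (OInv.inc Lam)).map ι)) β

def CMP2 : Prop := FREE → QR0 → QRX → QRG → CMP1 → CMPB

end Vale.Agent.P236Z.E
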