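import Vale.Agent.P236Z.E.Alg

/-!
# P236, block E: the output of the algebra
-/

namespace Vale.Agent.P236Z.E

open Vale.Agent.P251.F Vale.Agent.P251.S IsLocalRing

/-- The algebra of the block. -/
structure AlgD where
  /-- the Lubin-Tate ring -/
  R : Type
  [ring : CommRing R]
  [loc : IsLocalRing R]
  base : Tate.Base R
  tf : ∀ r : R, 3 * r = 0 → r = 0
  /-- the universal deformation -/
  F : Law R
  /-- the action of the generator -/
  γ : R ≃+* R
  /-- the isomorphism `F → γ F` -/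
  f : InvSeries R
  lt : Tate.LT F γ f
  odd : neg R • F = F
  comm : f * neg R = neg R * f
  /-- the residue field is the prime field -/
  res : R →+* ZMod 3
  ker : RingHom.ker res = maximalIdeal R
  ht : Ht6 (F.map res)
  /-- the values of the fixed point -/
  A : Type
  [ringA : CommRing A]
  [locA : IsLocalRing A]
  h27 : (27 : A) = 0
  h9 : (9 : A) ≠ 0
  /-- the fixed point -/
  pt : R →+* A
  pt_loc : ∀ x ∈ maximalIdeal R, pt x ∈ maximalIdeal A
  pt_γ : ∀ x, pt (γ x) = pt x
  pt_f : pt (f.c 0) ^ 9 = 1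
  /-- the ring of pairs (deformation, change of coordinate) -/
  B : Type
  [ringB : CommRing B]
  /-- the deformation -/
  inc : R →+* B
  /-- the retraction -/
  r : B →+* R
  /-- the change of coordinate -/
  g : InvSeries B
  r_inc : ∀ x, r (inc x) = x
  r_g : InvSeries.map r g = 1
  /-- the index set of the basis -/
  J : Type
  /-- the basis -/
  β : J → B
  cmp : Cmp (Laz.lift (g • F.map inc)) β

attribute [instance] AlgD.ring AlgD.loc AlgD.ringA AlgD.locA AlgD.ringB

/-- the assembly of the algebra -/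
def ACT : Prop :=
  Nonempty CM → FL → ETC → CPX → EXTN → QRX → QR0 → E0X → CMPB → Nonempty AlgD

/-- `M` is `I₆`-adically separated and `v₆` is injective -/
structure Sep (M : Type) [AddCommGroup M] [Module Laz M] : Prop where
  haus : ∀ e : M, (∀ k, e ∈ (Laz.I 3 6 ^ k • ⊤ : Submodule Laz M)) → e = 0
  inj : ∀ e : M, Laz.v 3 6 • e = 0 → e = 0

/-- the universal property of completions -/
def UNQ : Prop :=
  ∀ (F E M : Type) [AddCommGroup F] [Module Laz F] [AddCommGroup E] [Module Laz E]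
    [AddCommGroup M] [Module Laz M] (φ : F →ₗ[Laz] E), CompCond (Laz.I 3 6) (Laz.v 3 6) φ →
    Sep M → (∀ ψ ψ' : E →ₗ[Laz] M, ψ ∘ₗ φ = ψ' ∘ₗ φ → ψ = ψ') ∧
      (CauchyComplete (Laz.I 3 6) M → (∀ e : M, ∃ e' : M, Laz.v 3 6 • e' = e) →
        ∀ ψ₀ : F →ₗ[Laz] M, ∃ ψ : E →ₗ[Laz] M, ψ ∘ₗ φ = ψ₀)

end Vale.Agent.P236Z.E
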