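import Vale.Agent.P236Z.E.Alg
import Mathlib.RingTheory.AdicCompletion.RingHom

/-!
# P236, block E: the theorem of Lubin and Tate from rigidity (rows ET1 and ET2)
-/

namespace Vale.Agent.P236Z.E

open Vale.Agent.P251.F

namespace Et

variable {A B B' C C' k : Type} [CommRing A] [CommRing B] [CommRing B'] [CommRing C] [CommRing C']
  [CommRing k]

theorem law_ext (φ : A →+* B) (ψ : A →+* B') (h : ∀ a, φ a = 0 → ψ a = 0 → a = 0) {G G' : Law A}
    (h1 : G.map φ = G'.map φ) (h2 : G.map ψ = G'.map ψ) : G = G' := by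
  refine Law.ext_ps (MvPowerSeries.ext fun d => sub_eq_zero.1 (h _ ?_ ?_))
  · simpa [Law.map_ps, sub_eq_zero] using congrArg (fun H : Law B => H.ps.coeff d) h1
  · simpa [Law.map_ps, sub_eq_zero] using congrArg (fun H : Law B' => H.ps.coeff d) h2

theorem ser_of {φ : A →+* B} (hφ : Function.Surjective φ) (hn : ∀ a, φ a = 0 → IsNilpotent a)
    (g : InvSeries B) (c : ℕ → A) (h : ∀ n, φ (c n) = g.c n) : ∃ g' : InvSeries A, g'.c = c := by
  obtain ⟨b, hb⟩ := (show IsUnit (g.c 0) from g.isUnit).exists_right_inv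
  obtain ⟨b, rfl⟩ := hφ b
  have := (hn (c 0 * b - 1) (by rw [map_sub, map_mul, h, hb, map_one, sub_self])).isUnit_add_one
  rw [sub_add_cancel] at this
  exact ⟨.ofCoeff c (isUnit_of_mul_isUnit_left this), funext fun n => InvSeries.c_ofCoeff _ _ n⟩

/-- a small extension -/
structure Sm (π : C →+* k) (q : C →+* C') : Prop where
  surj : Function.Surjective π
  le : ∀ a, q a = 0 → π a = 0
  mul : ∀ a b, π a = 0 → q b = 0 → a * b = 0

/-- the fibre square `C ×_{C'} C = C ×_k D` -/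
structure Tw (π : C →+* k) (q : C →+* C') {P D : Type} [CommRing P] [CommRing D]
    (p₁ p₂ : P →+* C) (δ : C →+* P) (ρ : P →+* D) (ε : D →+* k) (s : k →+* D) : Prop where
  d1 : p₁.comp δ = RingHom.id C
  d2 : p₂.comp δ = RingHom.id C
  q12 : q.comp p₁ = q.comp p₂
  pair : ∀ a b, q a = q b → ∃ z, p₁ z = a ∧ p₂ z = b
  pairH : ∀ a b : Laz →+* C, q.comp a = q.comp b → ∃ c : Laz →+* P, p₁.comp c = a ∧ p₂.comp c = b
  inj : ∀ z, p₁ z = 0 → p₂ z = 0 → z = 0
  ker : ∀ z, ρ z = 0 ↔ π (p₁ z) = 0 ∧ p₁ z = p₂ z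
  surj : Function.Surjective ρ
  ερ : ε.comp ρ = π.comp p₁
  sπ : s.comp π = ρ.comp δ

variable {π : C →+* k} {q : C →+* C'}

theorem Sm.tw (h : Sm π q) : ∃ (P D : Type) (_ : CommRing P) (_ : CommRing D) (p₁ p₂ : P →+* C)
    (δ : C →+* P) (ρ : P →+* D) (ε : D →+* k) (s : k →+* D), Tw π q p₁ p₂ δ ρ ε s := by
  let P := RingHom.eqLocus (q.comp (RingHom.fst C C)) (q.comp (RingHom.snd C C))
  let p₁ : P →+* C := (RingHom.fst C C).comp P.subtype
  let p₂ : P →+* C := (RingHom.snd C C).comp P.subtype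
  have hq : ∀ z : P, q (p₁ z - p₂ z) = 0 := fun z => by rw [map_sub, sub_eq_zero]; exact z.2
  let δ : C →+* P := ((RingHom.id C).prod (RingHom.id C)).codRestrict P fun _ => rfl
  let I : Ideal P :=
    { carrier := {z | π (p₁ z) = 0 ∧ p₁ z = p₂ z}
      add_mem' := fun {a b} ha hb => ⟨by rw [map_add, map_add, ha.1, hb.1, add_zero],
        by rw [map_add, map_add, ha.2, hb.2]⟩
      zero_mem' := ⟨by rw [map_zero, map_zero], by rw [map_zero, map_zero]⟩
      smul_mem' := fun c z hz => ⟨by rw [smul_eq_mul, map_mul, map_mul, hz.1, mul_zero], by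
        rw [smul_eq_mul, map_mul, map_mul, ← hz.2, ← sub_eq_zero, ← sub_mul, mul_comm]
        exact h.mul _ _ hz.1 (hq c)⟩ }
  exact ⟨P, P ⧸ I, inferInstance, inferInstance, p₁, p₂, δ, Ideal.Quotient.mk I,
    Ideal.Quotient.lift I (π.comp p₁) fun _ hz => hz.1,
    π.liftOfSurjective h.surj ⟨(Ideal.Quotient.mk I).comp δ, fun a ha =>
      Ideal.Quotient.eq_zero_iff_mem.2 ⟨ha, rfl⟩⟩, rfl, rfl,
    RingHom.ext fun z => z.2, fun a b e => ⟨⟨(a, b), e⟩, rfl, rfl⟩,
    fun a b e => ⟨(a.prod b).codRestrict P fun x => RingHom.congr_fun e x, rfl, rfl⟩,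
    fun z h1 h2 => Subtype.ext (Prod.ext h1 h2), fun z => Ideal.Quotient.eq_zero_iff_mem,
    Ideal.Quotient.mk_surjective, rfl, RingHom.liftOfSurjective_comp _ _ _⟩

section tw

variable {P D : Type} [CommRing P] [CommRing D] {p₁ p₂ : P →+* C} {δ : C →+* P} {ρ : P →+* D}
  {ε : D →+* k} {s : k →+* D} (h : Sm π q) (t : Tw π q p₁ p₂ δ ρ ε s)

include t

theorem Tw.sub (z : P) : q (p₁ z - p₂ z) = 0 := by
  rw [map_sub, sub_eq_zero]; exact RingHom.congr_fun t.q12 z

include h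

theorem Tw.εs : ε.comp s = RingHom.id k := RingHom.ext fun a => by
  obtain ⟨a, rfl⟩ := h.surj a
  have h1 : s (π a) = ρ (δ a) := RingHom.congr_fun t.sπ a
  have h2 : ε (ρ (δ a)) = π (p₁ (δ a)) := RingHom.congr_fun t.ερ _
  have h3 : p₁ (δ a) = a := RingHom.congr_fun t.d1 a
  rw [RingHom.comp_apply, h1, h2, h3, RingHom.id_apply]

theorem Tw.sq : RingHom.ker ε * RingHom.ker ε = ⊥ := by
  refine eq_bot_iff.2 (Ideal.mul_le.2 fun a ha b hb => ?_)
  obtain ⟨z, rfl⟩ := t.surj a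
  obtain ⟨w, rfl⟩ := t.surj b
  have hz : π (p₁ z) = 0 := (RingHom.congr_fun t.ερ z).symm.trans ha
  have hw : π (p₁ w) = 0 := (RingHom.congr_fun t.ερ w).symm.trans hb
  have hz' : π (p₂ z) = 0 := by
    have := h.le _ (t.sub z)
    rwa [map_sub, hz, zero_sub, neg_eq_zero] at this
  rw [Ideal.mem_bot, ← map_mul, t.ker, map_mul, map_mul, hz, zero_mul, map_mul]
  refine ⟨rfl, ?_⟩
  linear_combination h.mul _ _ hw (t.sub z) + h.mul _ _ hz' (t.sub w)

theorem Tw.ser (c : ℕ → P) (hc : ∀ n, p₁ (c n) = (1 : InvSeries C).c n) :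
    ∃ g : InvSeries P, g.c = c ∧ InvSeries.map p₁ g = 1 := by
  obtain ⟨g, rfl⟩ := ser_of (φ := p₁) (fun a => ⟨δ a, RingHom.congr_fun t.d1 a⟩) (fun z hz => by
    have := t.sub z
    rw [hz, zero_sub, map_neg, neg_eq_zero] at this
    exact ⟨2, t.inj _ (by rw [map_pow, hz, zero_pow two_ne_zero])
      (by rw [map_pow, pow_two, h.mul _ _ (h.le _ this) this])⟩) 1 c hc
  exact ⟨g, rfl, InvSeries.ext_c fun n => by rw [InvSeries.c_map, hc]⟩

theorem Tw.ser2 {f : InvSeries C} (hf : InvSeries.map q f = 1) :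
    ∃ g : InvSeries P, InvSeries.map p₁ g = 1 ∧ InvSeries.map p₂ g = f := by
  choose c h1 h2 using fun n => t.pair ((1 : InvSeries C).c n) (f.c n) (by
    rw [← InvSeries.c_map, ← InvSeries.c_map, hf, map_one])
  obtain ⟨g, rfl, hg⟩ := t.ser h c h1
  exact ⟨g, hg, InvSeries.ext_c fun n => by rw [InvSeries.c_map, h2]⟩

end tw

variable {Γ : Law (ZMod 3)} {κ : ZMod 3 →+* k} {G G' : Law C}

theorem low (hΓ : Ht6 Γ) (hG : G'.map π = Γ.map κ) {i : ℕ} (hi : i < 6) : π (vv 3 i G') = 0 := by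
  rw [← vv_map, hG, vv_map, hΓ.low i hi, map_zero]

/-- the `v_i` do not change under infinitesimal coordinate changes -/
theorem Sm.vv_eq (h : Sm π q) (hΓ : Ht6 Γ) (hG : G'.map π = Γ.map κ) {f : InvSeries C}
    (hf : InvSeries.map q f = 1) {i : ℕ} (hi : i < 6) : vv 3 i (f • G') = vv 3 i G' := by
  obtain ⟨P, D, _, _, p₁, p₂, δ, ρ, ε, s, t⟩ := h.tw
  obtain ⟨g, h1, h2⟩ := t.ser2 h hf
  have := (vv_smul_of_zero 3 6 ((G'.map δ).map ρ) (InvSeries.map ρ g) fun j hj => by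
    rw [Law.map_map, ← t.sπ, vv_map, RingHom.comp_apply, low hΓ hG hj, map_zero]).1 i hi
  rw [← InvSeries.map_smul, vv_map, t.ker] at this
  have e := this.2
  rw [← vv_map, ← vv_map, InvSeries.map_smul, InvSeries.map_smul, Law.map_map, Law.map_map, h1, h2,
    t.d1, t.d2, Law.map_id, one_smul] at e
  exact e.symm

/-- no infinitesimal automorphisms -/
theorem Sm.eq_one (hR : RIG) (h : Sm π q) (hΓ : Ht6 Γ) (hG : G'.map π = Γ.map κ)
    {f : InvSeries C} (hf : InvSeries.map q f = 1) (e : f • G' = G') : f = 1 := by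
  obtain ⟨P, D, _, _, p₁, p₂, δ, ρ, ε, s, t⟩ := h.tw
  obtain ⟨g, h1, h2⟩ := t.ser2 h hf
  have e1 : g • G'.map δ = G'.map δ := law_ext p₁ p₂ t.inj
    (by rw [InvSeries.map_smul, h1, one_smul])
    (by rw [InvSeries.map_smul, h2, Law.map_map, t.d2, Law.map_id, e])
  have e2 : (G'.map δ).map ρ = Γ.map (s.comp κ) := by
    rw [Law.map_map, ← t.sπ, ← Law.map_map, hG, Law.map_map]
  have e3 : InvSeries.map ρ g = 1 := (hR Γ hΓ D k (s.comp κ) ε (t.sq h) (Γ.map (s.comp κ))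
    (fun i hi => by rw [vv_map, hΓ.low i hi, map_zero]) 1 (by rw [one_smul])).unique
    ⟨by rw [InvSeries.map_map, t.ερ, ← InvSeries.map_map, h1, map_one, map_one],
      by rw [← e2, ← InvSeries.map_smul, e1]⟩ ⟨rfl, one_smul _ _⟩
  refine InvSeries.ext_c fun n => ?_
  have := ((t.ker (g.c n - (1 : InvSeries P).c n)).1 (by
    rw [map_sub, ← InvSeries.c_map, ← InvSeries.c_map, e3, map_one, sub_self])).2
  simp only [map_sub, ← InvSeries.c_map, h1, h2, map_one, sub_self] at this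
  exact (sub_eq_zero.1 this.symm)

/-- infinitesimally close laws with the same `v_i` are isomorphic -/
theorem Sm.iso (hR : RIG) (h : Sm π q) (hΓ : Ht6 Γ) (hG : G'.map π = Γ.map κ)
    (hq : G'.map q = G.map q) (hv : ∀ i < 6, vv 3 i G' = vv 3 i G) :
    ∃ f : InvSeries C, InvSeries.map q f = 1 ∧ f • G' = G := by
  obtain ⟨P, D, _, _, p₁, p₂, δ, ρ, ε, s, t⟩ := h.tw
  obtain ⟨c, c1, c2⟩ := t.pairH (Laz.lift G') (Laz.lift G) (by rw [Laz.comp_lift, Laz.comp_lift, hq])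
  obtain ⟨H, H1, H2⟩ : ∃ H : Law P, H.map p₁ = G' ∧ H.map p₂ = G := ⟨Laz.univ.map c,
    by rw [Law.map_map, c1, Laz.univ_map_lift], by rw [Law.map_map, c2, Laz.univ_map_lift]⟩
  have e2 : (G'.map δ).map ρ = Γ.map (s.comp κ) := by
    rw [Law.map_map, ← t.sπ, ← Law.map_map, hG, Law.map_map]
  obtain ⟨g, g1, g2⟩ := (hR Γ hΓ D k (s.comp κ) ε (t.sq h) (H.map ρ) (fun i hi => by
      rw [vv_map, t.ker, ← vv_map, ← vv_map 3 i p₂, H1, H2]
      exact ⟨low hΓ hG hi, hv i hi⟩) 1 (by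
      rw [one_smul, Law.map_map, Law.map_map, ← RingHom.comp_assoc, t.εs h, t.ερ,
        ← Law.map_map p₁, H1, hG, RingHom.id_comp])).exists
  have : ∀ n, ∃ z, p₁ z = (1 : InvSeries C).c n ∧ ρ z = g.c n := fun n => by
    obtain ⟨w, hw⟩ := t.surj (g.c n)
    have d1 : ∀ a, p₁ (δ a) = a := RingHom.congr_fun t.d1
    have d2 : ∀ a, ρ (δ a) = s (π a) := fun a => (RingHom.congr_fun t.sπ a).symm
    have d3 : π (p₁ w) = ε (ρ w) := (RingHom.congr_fun t.ερ w).symm
    refine ⟨w + δ ((1 : InvSeries C).c n - p₁ w), by rw [map_add, d1, add_sub_cancel], ?_⟩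
    rw [map_add, d2, map_sub, d3, hw, ← InvSeries.c_map, ← InvSeries.c_map, g1, map_one, map_one,
      sub_self, map_zero, add_zero]
  choose z z1 z2 using this
  obtain ⟨f, rfl, f1⟩ := t.ser h z z1
  have f2 : InvSeries.map ρ f = g := InvSeries.ext_c fun n => by rw [InvSeries.c_map, z2]
  have e : f • G'.map δ = H := law_ext p₁ ρ
    (fun a h1 h2 => t.inj a h1 (((t.ker a).1 h2).2.symm.trans h1))
    (by rw [InvSeries.map_smul, f1, one_smul, Law.map_map, t.d1, Law.map_id, H1])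
    (by rw [InvSeries.map_smul, f2, e2, g2])
  refine ⟨InvSeries.map p₂ f, ?_, ?_⟩
  · rw [InvSeries.map_map, ← t.q12, ← InvSeries.map_map, f1, map_one]
  · rw [← H2, ← e, InvSeries.map_smul, Law.map_map, t.d2, Law.map_id]

/-- the map `C / m ^ (n + 1) → k` -/
def pk (π : C →+* k) (n : ℕ) : C ⧸ RingHom.ker π ^ (n + 1) →+* k :=
  Ideal.Quotient.lift _ π fun _ ha => Ideal.pow_le_self n.succ_ne_zero ha

theorem pk_mk (π : C →+* k) (n : ℕ) : (pk π n).comp (Ideal.Quotient.mk _) = π := rfl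

theorem pk_surj (h : Function.Surjective π) (n : ℕ) : Function.Surjective (pk π n) := fun a => by
  obtain ⟨a, rfl⟩ := h a
  exact ⟨Ideal.Quotient.mk _ a, rfl⟩

theorem pk_nil (π : C →+* k) (n : ℕ) : RingHom.ker (pk π n) ^ (n + 1) = ⊥ := by
  rw [pk, Ideal.ker_quotient_lift, ← Ideal.map_pow, Ideal.map_quotient_self]

theorem sm_pk (h : Function.Surjective π) {n : ℕ} (hn : RingHom.ker π ^ (n + 2) = ⊥) :
    Sm π (Ideal.Quotient.mk (RingHom.ker π ^ (n + 1))) :=
  ⟨h, fun a ha => by rw [← pk_mk π n, RingHom.comp_apply, ha, map_zero], fun a b ha hb => by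
    rw [← Ideal.mem_bot, ← hn, pow_succ']
    exact Ideal.mul_mem_mul ha (Ideal.Quotient.eq_zero_iff_mem.1 hb)⟩

variable {F : Law Lam} {gb : InvSeries k} {x x' : Lam →+* C} {g g' : InvSeries C}

theorem cls_map (h : Cls F π G gb x g) (q : C →+* C') {π' : C' →+* k} (e : π'.comp q = π) :
    Cls F π' (G.map q) gb (q.comp x) (InvSeries.map q g) :=
  ⟨fun i => by rw [← h.mem i, ← e]; rfl, by rw [InvSeries.map_map, e, h.red],
    by rw [← Law.map_map, ← InvSeries.map_smul, h.act]⟩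

theorem lam_ext {x x' : Lam →+* C} (h : ∀ i, x (MvPolynomial.X i) = x' (MvPolynomial.X i)) :
    x = x' := MvPolynomial.ringHom_ext (fun r => by simp) h

theorem red (hF : Def Γ F) (κ : ZMod 3 →+* k) (h : ∀ i, π (x (MvPolynomial.X i)) = 0) :
    (F.map x).map π = Γ.map κ := by
  rw [Law.map_map, ← hF.red, Law.map_map, lam_ext (x := π.comp x) (x' := κ.comp eps) fun i => by
    simp [eps, h i]]

theorem vv_sub (h : Sm π q) (hF : Def Γ F) (κ : ZMod 3 →+* k) (e : q.comp x = q.comp x')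
    (i : Fin 5) : vv 3 (i + 1) (F.map x) - vv 3 (i + 1) (F.map x') =
      x (MvPolynomial.X i) - x' (MvPolynomial.X i) := by
  obtain ⟨w, hw⟩ := Ideal.mem_span_singleton'.1 (hF.vv i)
  have h3 : π 3 = 0 := by
    rw [map_ofNat, ← map_ofNat κ, show (OfNat.ofNat 3 : ZMod 3) = 0 from rfl, map_zero]
  have := h.mul 3 (x w - x' w) h3 (by rw [map_sub, sub_eq_zero]; exact RingHom.congr_fun e w)
  rw [vv_map, vv_map, ← sub_add_cancel (vv 3 (i + 1) F) (MvPolynomial.X i), ← hw]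
  simp only [map_add, map_mul, map_ofNat]
  linear_combination this

theorem uniq (hR : RIG) (hΓ : Ht6 Γ) (hF : Def Γ F) (κ : ZMod 3 →+* k) (n : ℕ) :
    ∀ (C : Type) [CommRing C] (π : C →+* k), Function.Surjective π →
      RingHom.ker π ^ (n + 1) = ⊥ → ∀ G x g x' g', Cls F π G gb x g → Cls F π G gb x' g' →
      x = x' ∧ g = g' := by
  induction n with
  | zero =>
    intro C _ π _ hn G x g x' g' h h'
    have hi := (RingHom.injective_iff_ker_eq_bot π).2 (by simpa using hn)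
    exact ⟨lam_ext fun i => hi (by rw [h.mem, h'.mem]), InvSeries.ext_c fun n => hi (by
      rw [← InvSeries.c_map, ← InvSeries.c_map, h.red, h'.red])⟩
  | succ n ih =>
    intro C _ π hπ hn G x g x' g' h h'
    have sm := sm_pk hπ hn
    obtain ⟨e1, e2⟩ := ih _ (pk π n) (pk_surj hπ n) (pk_nil π n) _ _ _ _ _
      (cls_map h _ (pk_mk π n)) (cls_map h' _ (pk_mk π n))
    have f1 : InvSeries.map (Ideal.Quotient.mk (RingHom.ker π ^ (n + 1))) (g'⁻¹ * g) = 1 := by
      rw [map_mul, map_inv, e2, inv_mul_cancel]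
    have f2 : (g'⁻¹ * g) • F.map x = F.map x' := by
      rw [mul_smul, h.act, inv_smul_eq_iff, h'.act]
    obtain rfl : x = x' := lam_ext fun i => by
      rw [← sub_eq_zero, ← vv_sub sm hF κ e1, ← f2,
        sm.vv_eq hΓ (red hF κ h.mem) f1 (by omega), sub_self]
    exact ⟨rfl, (inv_mul_eq_one.1 (sm.eq_one hR hΓ (red hF κ h.mem) f1 f2)).symm⟩

theorem exis (hR : RIG) (hΓ : Ht6 Γ) (hF : Def Γ F) (κ : ZMod 3 →+* k) (n : ℕ) :
    ∀ (C : Type) [CommRing C] (π : C →+* k), Function.Surjective π →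
      RingHom.ker π ^ (n + 1) = ⊥ → ∀ G, gb • Γ.map κ = G.map π → ∃ x g, Cls F π G gb x g := by
  induction n with
  | zero =>
    intro C _ π hπ hn G hG
    let e := RingEquiv.ofBijective π ⟨(RingHom.injective_iff_ker_eq_bot π).2 (by simpa using hn), hπ⟩
    have e1 : π.comp (e.symm : k →+* C) = RingHom.id k := RingHom.ext e.apply_symm_apply
    have e2 : (e.symm : k →+* C).comp π = RingHom.id C := RingHom.ext e.symm_apply_apply
    refine ⟨(e.symm : k →+* C).comp (κ.comp eps), InvSeries.map (e.symm : k →+* C) gb,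
      fun i => by simp [eps], by rw [InvSeries.map_map, e1, InvSeries.map_id], ?_⟩
    rw [← Law.map_map, ← InvSeries.map_smul, ← Law.map_map, hF.red, hG, Law.map_map, e2, Law.map_id]
  | succ n ih =>
    intro C _ π hπ hn G hG
    have sm := sm_pk hπ hn
    have hq := @Ideal.Quotient.mk_surjective _ _ (RingHom.ker π ^ (n + 1)) _
    have e := pk_mk π n
    obtain ⟨x', g', h⟩ := ih _ (pk π n) (pk_surj hπ n) (pk_nil π n)
      (G.map (Ideal.Quotient.mk _)) (by rw [Law.map_map, e, hG])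
    generalize Ideal.Quotient.mk (RingHom.ker π ^ (n + 1)) = q at sm hq e h
    generalize pk π n = π' at e h
    choose c hc using fun j => hq (g'.c j)
    obtain ⟨g, rfl⟩ := ser_of hq (fun a ha => ⟨2, by
      rw [pow_two, sm.mul _ _ (sm.le _ ha) ha]⟩) g' c hc
    obtain rfl : InvSeries.map q g = g' := InvSeries.ext_c fun j => by rw [InvSeries.c_map, hc]
    choose u hu using fun i => hq (x' (MvPolynomial.X i))
    have lf : ∀ d : Fin 5 → C, (∀ i, q (d i) = 0) → ∃ x : Lam →+* C, q.comp x = x' ∧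
        ∀ i, x (MvPolynomial.X i) = u i + d i := fun d hd =>
      ⟨MvPolynomial.eval₂Hom (Int.castRingHom C) fun i => u i + d i,
        lam_ext fun i => by simp [hu, hd], fun i => by simp⟩
    have a1 : ∀ x : Lam →+* C, q.comp x = x' → (F.map x).map q = (g⁻¹ • G).map q := fun x hx => by
      rw [Law.map_map, hx, InvSeries.map_smul, map_inv, eq_inv_smul_iff, h.act]
    obtain ⟨x₀, b1, b2⟩ := lf 0 fun _ => map_zero q
    obtain ⟨x, b3, b4⟩ := lf (fun i => vv 3 (i + 1) (g⁻¹ • G) - vv 3 (i + 1) (F.map x₀)) fun i => by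
      rw [map_sub, ← vv_map, ← vv_map 3 _ q, a1 x₀ b1, sub_self]
    have mem : ∀ i, π (x (MvPolynomial.X i)) = 0 := fun i => by
      rw [← h.mem i, ← b3]; exact (RingHom.congr_fun e _).symm
    obtain ⟨f, f1, f2⟩ := sm.iso hR hΓ (red hF κ mem) (a1 x b3) fun i hi => by
      rcases i with _ | i
      · rw [vv_zero, vv_zero]
      · have := vv_sub sm hF κ (b3.trans b1.symm) ⟨i, by omega⟩
        rw [b4, b2] at this
        simp only [Pi.zero_apply] at this
        linear_combination this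
    refine ⟨x, g * f, mem, ?_, by rw [mul_smul, f2, smul_inv_smul]⟩
    rw [← h.red, ← mul_one (InvSeries.map q g), ← f1, ← map_mul, InvSeries.map_map, e]

end Et

open Et

theorem et1 : ET1 := by
  intro hR Γ F hΓ hF C k _ _ π hπ ⟨n, hn⟩ κ G gb hG
  have hn' : RingHom.ker π ^ (n + 1) = ⊥ := by rw [pow_succ, hn, zero_mul]; rfl
  obtain ⟨x, g, h⟩ := exis hR hΓ hF κ n C π hπ hn' G hG
  refine ⟨(x, g), h, fun y hy => ?_⟩
  obtain ⟨h1, h2⟩ := uniq hR hΓ hF κ n C π hπ hn' G _ _ _ _ hy h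
  exact Prod.ext h1 h2

theorem et2 : ET2 := by
  intro hE Γ F hΓ hF C k _ _ π hπ hc κ G gb hG
  have key := fun n => hE Γ F hΓ hF _ k (pk π n) (pk_surj hπ n) ⟨n + 1, pk_nil π n⟩ κ
    (G.map (Ideal.Quotient.mk _)) gb (by rw [Law.map_map, pk_mk, hG])
  have ha : StrictMono fun n : ℕ => n + 1 := fun _ _ h => Nat.succ_lt_succ h
  have hs : ∀ a b : C, (∀ n, Ideal.Quotient.mk (RingHom.ker π ^ (n + 1)) a =
      Ideal.Quotient.mk _ b) → a = b := fun a b h => congrFun
    (IsHausdorff.StrictMono.funext' (RingHom.ker π) (f := fun _ : Unit => a) (g := fun _ => b) ha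
      fun n _ => h n) ()
  choose y hy using fun n => (key n).exists
  have uq : ∀ n x g, Cls F (pk π n) (G.map (Ideal.Quotient.mk _)) gb x g →
      x = (y n).1 ∧ g = (y n).2 := fun n x g h =>
    Prod.ext_iff.1 ((key n).unique (y₁ := (x, g)) h (hy n))
  have hf : ∀ {m}, (Ideal.Quotient.factorPow (RingHom.ker π) (ha.monotone m.le_succ)).comp
      (OInv.lift (y (m + 1)).1 (y (m + 1)).2) = OInv.lift (y m).1 (y m).2 := fun {m} => by
    have h1 := cls_map (hy (m + 1)) (Ideal.Quotient.factorPow _ (ha.monotone m.le_succ))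
      (π' := pk π m) (Ideal.Quotient.ringHom_ext (by
        rw [RingHom.comp_assoc, Ideal.Quotient.factor_comp_mk, pk_mk, pk_mk]))
    rw [Law.map_map, Ideal.Quotient.factor_comp_mk] at h1
    rw [OInv.comp_lift, (uq _ _ _ h1).1, (uq _ _ _ h1).2]
  obtain ⟨φ, hφ⟩ : ∃ φ : OInv Lam →+* C, ∀ n, (Ideal.Quotient.mk _).comp φ =
      OInv.lift (y n).1 (y n).2 :=
    ⟨_, fun _ => IsAdicComplete.StrictMono.mk_comp_liftRingHom _ ha
      (fun n => OInv.lift (y n).1 (y n).2) hf⟩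
  have h1 : ∀ n, (Ideal.Quotient.mk _).comp (φ.comp (OInv.inc Lam)) = (y n).1 := fun n => by
    rw [← RingHom.comp_assoc, hφ, OInv.lift_comp_inc]
  have h2 : ∀ n, InvSeries.map (Ideal.Quotient.mk _) (InvSeries.map φ (OInv.f Lam)) = (y n).2 :=
    fun n => by rw [InvSeries.map_map, hφ, OInv.map_lift_f]
  refine ⟨(φ.comp (OInv.inc Lam), InvSeries.map φ (OInv.f Lam)), ⟨fun i => ?_, ?_, ?_⟩,
    fun z hz => Prod.ext (RingHom.ext fun a => hs _ _ fun n => ?_)
      (InvSeries.ext_c fun j => hs _ _ fun n => ?_)⟩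
  · rw [← (hy 0).mem i, ← h1]; rfl
  · rw [← (hy 0).red, ← h2, InvSeries.map_map _ (pk π 0), pk_mk]
  · refine Law.ext_ps (MvPowerSeries.ext fun d => hs _ _ fun n => ?_)
    have := (hy n).act
    rw [← h1, ← h2, ← Law.map_map, ← InvSeries.map_smul] at this
    simpa [Law.map_ps] using congrArg (fun H : Law _ => H.ps.coeff d) this
  · exact RingHom.congr_fun ((uq _ _ _ (cls_map hz _ (pk_mk π n))).1.trans (h1 n).symm) a
  · rw [← InvSeries.c_map, ← InvSeries.c_map, h2, (uq _ _ _ (cls_map hz _ (pk_mk π n))).2]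

end Vale.Agent.P236Z.E
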