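import Vale.Agent.P236Z.E.Alg
import Vale.Agent.P251.X.FreeMod
import Vale.Agent.P251.F.LazWt

/-!
# P236, block E: the ring of invertible series over `𝔽₃` is free modulo `I₆`
-/

namespace Vale.Agent.P236Z.E

open Vale.Agent.P217 Vale.Agent.P251.F Vale.Agent.P251.Z Vale.Agent.P251.X

namespace Fr

section Sp

variable {L B J : Type*} [CommRing L] [CommRing B] (lam : L →+* B) (β : J → B)

/-- a linear combination of the `β j` -/
noncomputable def cmb (x : J →₀ L) : B := x.sum fun j z => lam z * β j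

theorem cmb_add (x x' : J →₀ L) : cmb lam β (x + x') = cmb lam β x + cmb lam β x' :=
  Finsupp.sum_add_index' (fun _ => by rw [map_zero, zero_mul])
    (fun _ _ _ => by rw [map_add, add_mul])

theorem cmb_smul (z : L) (x : J →₀ L) : cmb lam β (z • x) = lam z * cmb lam β x := by
  rw [cmb, Finsupp.sum_smul_index' (fun _ => by rw [map_zero, zero_mul]), cmb, Finsupp.mul_sum]
  refine Finsupp.sum_congr fun j _ => ?_
  rw [smul_eq_mul, map_mul, mul_assoc]

theorem cmb_single (j : J) : cmb lam β (Finsupp.single j 1) = β j := by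
  rw [cmb, Finsupp.sum_single_index (by rw [map_zero, zero_mul]), map_one, one_mul]

/-- `y` is a linear combination after multiplication by a power of `v` -/
def Sp (v : L) (y : B) : Prop := ∃ (n : ℕ) (x : J →₀ L), lam v ^ n * y = cmb lam β x

variable {lam β} {v : L}

theorem Sp.zero : Sp lam β v 0 := ⟨0, 0, by rw [mul_zero, cmb, Finsupp.sum_zero_index]⟩

theorem Sp.gen (j : J) : Sp lam β v (β j) :=
  ⟨0, Finsupp.single j 1, by rw [pow_zero, one_mul, cmb_single]⟩

theorem Sp.add {y y' : B} (h : Sp lam β v y) (h' : Sp lam β v y') : Sp lam β v (y + y') := by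
  obtain ⟨n, x, hx⟩ := h
  obtain ⟨m, x', hx'⟩ := h'
  refine ⟨n + m, v ^ m • x + v ^ n • x', ?_⟩
  rw [cmb_add, cmb_smul, cmb_smul, ← hx, ← hx', map_pow, map_pow]
  ring

theorem Sp.mul {y : B} (z : L) (h : Sp lam β v y) : Sp lam β v (lam z * y) := by
  obtain ⟨n, x, hx⟩ := h
  refine ⟨n, z • x, ?_⟩
  rw [cmb_smul, ← hx]
  ring

theorem Sp.of_mul {y : B} (k : ℕ) (h : Sp lam β v (lam v ^ k * y)) : Sp lam β v y := by
  obtain ⟨n, x, hx⟩ := h
  exact ⟨n + k, x, by rw [← hx, pow_add, mul_assoc]⟩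

theorem Sp.sum {ι : Type*} (s : Finset ι) {f : ι → B} (h : ∀ i ∈ s, Sp lam β v (f i)) :
    Sp lam β v (∑ i ∈ s, f i) :=
  Finset.sum_induction f _ (fun _ _ => Sp.add) Sp.zero h

end Sp

variable {p n : ℕ} [hp : Fact p.Prime]

/-- evaluation at `v_n` and at the generators `kgen` -/
noncomputable def ev (p n : ℕ) {B : Type*} [CommRing B] (F : Law B) :
    MvPolynomial ℕ (Polynomial ℤ) →+* B :=
  MvPolynomial.eval₂Hom (Polynomial.eval₂RingHom (Int.castRingHom B) (vv p n F)) (kgen p n F)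

omit hp in
theorem comp_ev {B C : Type*} [CommRing B] [CommRing C] (φ : B →+* C) (F : Law B) :
    φ.comp (ev p n F) = ev p n (F.map φ) := by
  apply MvPolynomial.ringHom_ext'
  · refine Polynomial.ringHom_ext' (RingHom.ext_int _ _) ?_
    simp [ev, vv_map]
  · intro j
    simp [ev, map_kgen]

/-- `Laz/I_n` is generated by `v_n` and the `kgen` -/
theorem exists_ev (hn : n ≠ 0) (z : Laz) : ∃ P, z - ev p n Laz.univ P ∈ Laz.I p n := by
  set q : Laz →+* Laz ⧸ Laz.I p n := Ideal.Quotient.mk _ with hq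
  set U : Law (Laz ⧸ Laz.I p n) := Laz.univ.map q with hU
  have hUv : ∀ i < n, vv p i U = 0 := fun i hi => by
    rw [hU, vv_map]
    exact Ideal.Quotient.eq_zero_iff_mem.2 (vv_mem_Ih hi _)
  have hL : (p : Laz ⧸ Laz.I p n) = 0 := by
    rw [← vv_zero p U]
    exact hUv 0 (Nat.pos_of_ne_zero hn)
  have hkr : ∀ j, kgen p n U j ∈ (ev p n U).range := fun j => ⟨MvPolynomial.X j, by
    rw [ev, MvPolynomial.eval₂Hom_X']⟩
  have hvr : ∀ i, vv p i U ∈ (ev p n U).range := by
    intro i
    rcases lt_trichotomy i n with hi | rfl | hi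
    · rw [hUv i hi]
      exact Subring.zero_mem _
    · exact ⟨MvPolynomial.C Polynomial.X, by
        rw [ev, MvPolynomial.eval₂Hom_C, Polynomial.coe_eval₂RingHom, Polynomial.eval₂_X]⟩
    · have h1 := hkr (p ^ (i - n) - 2)
      rwa [kgen_of_pow hp.out n _ (by omega), Nat.add_sub_cancel' hi.le] at h1
  have hyr : ∀ m, yF p U m ∈ (ev p n U).range := by
    intro m
    by_cases hm : ∃ i, m + 2 = p ^ i
    · obtain ⟨i, hi⟩ := hm
      rw [yF_eq_vv U hi]
      exact hvr i
    · rw [yF_eq_xC U hm, ← kgen_of_not n U hm]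
      exact hkr m
  have hqr : q z ∈ (ev p n U).range := by
    rcases subsingleton_or_nontrivial (Laz ⧸ Laz.I p n) with h1 | h1
    · rw [Subsingleton.elim (q z) 0]
      exact Subring.zero_mem _
    have hc : CharP (Laz ⧸ Laz.I p n) p := (CharP.charP_iff_prime_eq_zero hp.out).2 hL
    have h2 : q z = MvPolynomial.eval₂Hom (ZMod.castHom dvd_rfl _) (yF p U) (toY p z) := by
      rw [← RingHom.comp_apply, ← lift_eq_comp_toY p U, hU, Laz.lift_map_univ]
    rw [h2]
    generalize toY p z = P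
    induction P using MvPolynomial.induction_on with
    | C r =>
      rw [MvPolynomial.eval₂Hom_C, ← ZMod.natCast_zmod_val r, map_natCast]
      exact natCast_mem _ _
    | add P Q hP hQ => rw [map_add]; exact Subring.add_mem _ hP hQ
    | mul_X P n hP =>
      rw [map_mul, MvPolynomial.eval₂Hom_X']
      exact Subring.mul_mem _ hP (hyr n)
  obtain ⟨P, hP⟩ := hqr
  refine ⟨P, ?_⟩
  rw [← Ideal.Quotient.eq_zero_iff_mem]
  change q (z - _) = 0
  rw [map_sub, ← hP, hU, ← comp_ev, RingHom.comp_apply, sub_self]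

/-- the substitution `t ↦ v X ^ N` -/
noncomputable def sb (v : ZMod p) (N : ℕ) : Polynomial ℤ →+* Polynomial (ZMod p) :=
  Polynomial.eval₂RingHom (Int.castRingHom _) (Polynomial.C v * Polynomial.X ^ N)

theorem sb_eq (v : ZMod p) (N : ℕ) (q : Polynomial ℤ) : sb v N q = Polynomial.expand (ZMod p) N
    ((q.map (Int.castRingHom (ZMod p))).comp (Polynomial.C v * Polynomial.X)) := by
  have h : sb v N = (((Polynomial.expand (ZMod p) N : _ →ₐ[ZMod p] _) :
      Polynomial (ZMod p) →+* Polynomial (ZMod p)).comp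
      (Polynomial.compRingHom (Polynomial.C v * Polynomial.X))).comp
      (Polynomial.mapRingHom (Int.castRingHom (ZMod p))) := by
    refine Polynomial.ringHom_ext' (RingHom.ext_int _ _) ?_
    simp [sb]
  rw [h]
  rfl

theorem dvd_of_sum {v : ZMod p} (hv : IsUnit v) {N : ℕ} (q : Fin N → Polynomial ℤ)
    (h : ∑ i : Fin N, Polynomial.X ^ (i : ℕ) * sb v N (q i) = 0) (i : Fin N) :
    (p : Polynomial ℤ) ∣ q i := by
  have hN : 0 < N := Fin.pos i
  rw [← map_natCast (Polynomial.C (R := ℤ)), Polynomial.C_dvd_iff_dvd_coeff]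
  intro m
  have h1 := congrArg (fun r => Polynomial.coeff r ((i : ℕ) + N * m)) h
  simp only [Polynomial.finsetSum_coeff, Polynomial.coeff_zero] at h1
  rw [Finset.sum_eq_single i] at h1
  · rw [Polynomial.coeff_X_pow_mul', if_pos (Nat.le_add_right _ _), Nat.add_sub_cancel_left, sb_eq,
      Polynomial.coeff_expand_mul' hN, Polynomial.comp_C_mul_X_coeff, Polynomial.coeff_map,
      (hv.pow m).mul_left_eq_zero] at h1
    exact (ZMod.intCast_zmod_eq_zero_iff_dvd _ p).1 h1
  · intro j _ hj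
    rw [Polynomial.coeff_X_pow_mul']
    split_ifs with h2
    · rw [sb_eq, Polynomial.coeff_expand hN, if_neg]
      intro h3
      have h4 : (j : ℕ) % N = ((i : ℕ) + N * m) % N := (Nat.modEq_iff_dvd' h2).2 h3
      rw [Nat.add_mul_mod_self_left, Nat.mod_eq_of_lt i.2, Nat.mod_eq_of_lt j.2] at h4
      exact hj (Fin.ext h4)
    · rfl
  · intro h2
    exact absurd (Finset.mem_univ i) h2

section Loc

variable {A : Type*} [CommRing A] [Algebra (Polynomial (ZMod p)) A]
  [IsLocalization.Away (Polynomial.X : Polynomial (ZMod p)) A]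

/-- the basis -/
noncomputable def bas (p n N : ℕ) (A : Type*) [CommRing A] [Algebra (Polynomial (ZMod p)) A]
    (j : Fin N × Small (kdeg p n)) : MvPolynomial ℕ A :=
  MvPolynomial.C (algebraMap (Polynomial (ZMod p)) A (Polynomial.X ^ (j.1 : ℕ))) *
    MvPolynomial.monomial (j.2 : ℕ →₀ ℕ) 1

variable {G : Law A} {v : ZMod p} {N : ℕ} (hn : n ≠ 0) (hG : ∀ i < n, vv p i G = 0)
  (hv : IsUnit v) (hN : 0 < N)
  (hw : vv p n G = algebraMap (Polynomial (ZMod p)) A (Polynomial.C v * Polynomial.X ^ N))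

include hn hG hv hw in
theorem freeMap_bij : Function.Bijective
    (freeMap (kdeg p n) (kgen p n (bL G)) : (Small (kdeg p n) →₀ MvPolynomial ℕ A) →
      MvPolynomial ℕ A) := by
  have hA : (p : A) = 0 := natCast_eq_zero_of_loc p
  choose r hr hkr using fun j => kgen_bL hA hn hG j
  have hu : IsUnit (vv p n G) := by
    rw [hw, map_mul, map_pow]
    exact ((hv.map Polynomial.C).map _).mul ((IsLocalization.Away.algebraMap_isUnit _).pow _)
  have hfree := freeMap_bijective_nat (kdeg p n) (kdeg_pos hp.out.ne_zero n)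
    (klead p (vv p n G)) (isUnit_klead hA hu) r hr
  have hy : (fun j => MvPolynomial.C (klead p (vv p n G) j) * MvPolynomial.X j ^ kdeg p n j +
      r j) = kgen p n (bL G) := funext fun j => (hkr j).symm
  rw [hy] at hfree
  exact hfree

omit [IsLocalization.Away (Polynomial.X : Polynomial (ZMod p)) A] in
include hG hw in
theorem lift_vn : Laz.lift (bL G) (Laz.v p n) =
    MvPolynomial.C (algebraMap (Polynomial (ZMod p)) A (Polynomial.C v * Polynomial.X ^ N)) := by
  rw [Laz.lift_v, vv_bL_self hG, hw]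

omit [IsLocalization.Away (Polynomial.X : Polynomial (ZMod p)) A] in
include hG hv hN hw in
theorem sp_poly (e : Small (kdeg p n)) (r : Polynomial (ZMod p)) :
    Sp (Laz.lift (bL G)) (bas p n N A) (Laz.v p n)
      (MvPolynomial.C (algebraMap (Polynomial (ZMod p)) A r) *
        MvPolynomial.monomial (e : ℕ →₀ ℕ) 1) := by
  induction r using Polynomial.induction_on' with
  | add r s hr hs =>
    rw [map_add, map_add, add_mul]
    exact hr.add hs
  | monomial k c =>
    obtain ⟨u, hu⟩ := hv.exists_left_inv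
    have h1 := (Sp.gen (lam := Laz.lift (bL G)) (β := bas p n N A) (v := Laz.v p n)
      (⟨k % N, Nat.mod_lt _ hN⟩, e)).mul ((c.val : Laz) * ((u.val : Laz) * Laz.v p n) ^ (k / N))
    have h2 : ∀ a : ZMod p, Laz.lift (bL G) (a.val : Laz) =
        MvPolynomial.C (algebraMap (Polynomial (ZMod p)) A (Polynomial.C a)) := by
      intro a
      conv_rhs => rw [← ZMod.natCast_zmod_val a]
      rw [map_natCast, map_natCast, map_natCast, map_natCast]
    rw [map_mul, map_pow, map_mul, h2, h2, lift_vn hG hw, bas, ← mul_assoc] at h1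
    simp only [← map_mul, ← map_pow] at h1
    have h3 : Polynomial.C c * (Polynomial.C u * (Polynomial.C v * Polynomial.X ^ N)) ^ (k / N) *
        Polynomial.X ^ (k % N) = Polynomial.monomial k c := by
      rw [← mul_assoc (Polynomial.C u), ← map_mul, hu, map_one, one_mul, ← pow_mul, mul_assoc,
        ← pow_add, Nat.div_add_mod, Polynomial.C_mul_X_pow_eq_monomial]
    rwa [h3] at h1

include hG hv hN hw in
theorem sp_C (e : Small (kdeg p n)) (a : A) :
    Sp (Laz.lift (bL G)) (bas p n N A) (Laz.v p n)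
      (MvPolynomial.C a * MvPolynomial.monomial (e : ℕ →₀ ℕ) 1) := by
  obtain ⟨m, r, hr⟩ := IsLocalization.Away.surj (S := A) (Polynomial.X : Polynomial (ZMod p)) a
  refine Sp.of_mul m ?_
  have h1 := sp_poly hG hv hN hw e ((Polynomial.C v * Polynomial.X ^ (N - 1)) ^ m * r)
  obtain ⟨M, rfl⟩ := Nat.exists_eq_succ_of_ne_zero hN.ne'
  rw [lift_vn hG hw, ← mul_assoc, ← map_pow, ← map_mul]
  have h2 : algebraMap (Polynomial (ZMod p)) A (Polynomial.C v * Polynomial.X ^ M.succ) ^ m * a =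
      algebraMap (Polynomial (ZMod p)) A
        ((Polynomial.C v * Polynomial.X ^ (M.succ - 1)) ^ m * r) := by
    rw [map_mul _ _ r, ← hr, Nat.succ_sub_one, pow_succ, ← mul_assoc, map_mul _ _ Polynomial.X,
      map_pow]
    ring
  rw [h2]
  exact h1

include hn hG hv hN hw in
theorem span (y : MvPolynomial ℕ A) : Sp (Laz.lift (bL G)) (bas p n N A) (Laz.v p n) y := by
  obtain ⟨q, rfl⟩ := (freeMap_bij hn hG hv hw).2 y
  rw [freeMap_apply, Finsupp.sum]
  refine Sp.sum _ fun e _ => ?_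
  generalize q e = P
  induction P using MvPolynomial.induction_on with
  | C a =>
    rw [MvPolynomial.aeval_C, MvPolynomial.algebraMap_eq]
    exact sp_C hG hv hN hw e a
  | add P Q hP hQ =>
    rw [map_add, add_mul]
    exact hP.add hQ
  | mul_X P j hP =>
    have h1 := hP.mul (kgen p n Laz.univ j)
    rw [map_kgen, Laz.univ_map_lift] at h1
    rw [map_mul, MvPolynomial.aeval_X, mul_comm _ (kgen p n (bL G) j), mul_assoc]
    exact h1

omit [Algebra (Polynomial (ZMod p)) A]
  [IsLocalization.Away (Polynomial.X : Polynomial (ZMod p)) A] in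
include hG in
theorem lift_of_mem {z : Laz} (hz : z ∈ Laz.I p n) : Laz.lift (bL G) z = 0 := by
  have h1 : Laz.I p n ≤ RingHom.ker (Laz.lift (bL G)) := by
    rw [Laz.I, Ih, Ideal.span_le]
    rintro _ ⟨i, hi, rfl⟩
    change Laz.lift (bL G) (Laz.v p i) = 0
    rw [Laz.lift_v]
    exact vv_bL_lt hG hi
  exact h1 hz

omit [IsLocalization.Away (Polynomial.X : Polynomial (ZMod p)) A] in
include hG hw in
theorem lift_ev (P : MvPolynomial ℕ (Polynomial ℤ)) : Laz.lift (bL G) (ev p n Laz.univ P) =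
    MvPolynomial.aeval (kgen p n (bL G))
      (MvPolynomial.map ((algebraMap (Polynomial (ZMod p)) A).comp (sb v N)) P) := by
  have h3 : ev p n (bL G) =
      ((MvPolynomial.aeval (kgen p n (bL G)) : MvPolynomial ℕ A →ₐ[A] _) :
        MvPolynomial ℕ A →+* MvPolynomial ℕ A).comp
        (MvPolynomial.map ((algebraMap (Polynomial (ZMod p)) A).comp (sb v N))) := by
    apply MvPolynomial.ringHom_ext'
    · refine Polynomial.ringHom_ext' (RingHom.ext_int _ _) ?_
      simp [ev, sb, vv_bL_self hG, hw]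
    · intro j
      simp [ev]
  rw [← RingHom.comp_apply, comp_ev, Laz.univ_map_lift, h3]
  rfl

include hn hG hv hw in
theorem ind (x : Fin N × Small (kdeg p n) →₀ Laz)
    (hx : cmb (Laz.lift (bL G)) (bas p n N A) x = 0) (j : Fin N × Small (kdeg p n)) :
    x j ∈ Laz.I p n := by
  classical
  have hg0 : ∀ z : Laz, ∃ P, z - ev p n Laz.univ P ∈ Laz.I p n ∧ (z = 0 → P = 0) := by
    intro z
    by_cases hz : z = 0
    · exact ⟨0, by rw [hz, map_zero, sub_zero]; exact zero_mem _, fun _ => rfl⟩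
    · obtain ⟨P, hP⟩ := exists_ev (p := p) hn z
      exact ⟨P, hP, fun h => absurd h hz⟩
  choose g hg hg' using hg0
  set φ : Polynomial ℤ →+* A := (algebraMap (Polynomial (ZMod p)) A).comp (sb v N) with hφ
  have h1 : ∀ z, Laz.lift (bL G) z =
      MvPolynomial.aeval (kgen p n (bL G)) (MvPolynomial.map φ (g z)) := by
    intro z
    rw [hφ, ← lift_ev hG hw, ← sub_eq_zero, ← map_sub]
    exact lift_of_mem hG (hg z)
  set y : Small (kdeg p n) →₀ MvPolynomial ℕ A :=
    Finsupp.onFinset (x.support.image Prod.snd) (fun e => ∑ i : Fin N,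
      MvPolynomial.C (algebraMap (Polynomial (ZMod p)) A (Polynomial.X ^ (i : ℕ))) *
        MvPolynomial.map φ (g (x (i, e)))) (by
        intro e he
        by_contra h2
        refine he (Finset.sum_eq_zero fun i _ => ?_)
        have h3 : x (i, e) = 0 := by
          by_contra h4
          exact h2 (Finset.mem_image.2 ⟨(i, e), Finsupp.mem_support_iff.2 h4, rfl⟩)
        rw [hg' _ h3, map_zero, mul_zero]) with hy
  have h2 : y = 0 := by
    apply (freeMap_bij hn hG hv hw).1
    rw [map_zero, freeMap_apply, hy, Finsupp.onFinset_sum _ (by simp), ← hx, cmb,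
      Finsupp.sum_of_support_subset x (s := Finset.univ ×ˢ x.support.image Prod.snd)
        (fun a ha => Finset.mem_product.2 ⟨Finset.mem_univ _, Finset.mem_image_of_mem _ ha⟩) _
        (fun _ _ => by rw [map_zero, zero_mul]), Finset.sum_product_right]
    refine Finset.sum_congr rfl fun e _ => ?_
    rw [map_sum, Finset.sum_mul]
    refine Finset.sum_congr rfl fun i _ => ?_
    rw [map_mul, MvPolynomial.aeval_C, MvPolynomial.algebraMap_eq, ← h1, bas]
    ring
  obtain ⟨i, e⟩ := j
  have h3 := DFunLike.congr_fun h2 e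
  rw [hy, Finsupp.onFinset_apply, Finsupp.zero_apply] at h3
  have hinj : Function.Injective (algebraMap (Polynomial (ZMod p)) A) :=
    IsLocalization.injective A (M := Submonoid.powers (Polynomial.X : Polynomial (ZMod p)))
      (powers_le_nonZeroDivisors_of_noZeroDivisors Polynomial.X_ne_zero)
  have h4 : MvPolynomial.C (p : Polynomial ℤ) ∣ g (x (i, e)) := by
    rw [MvPolynomial.C_dvd_iff_dvd_coeff]
    intro μ
    refine dvd_of_sum hv (fun i => (g (x (i, e))).coeff μ) (hinj ?_) i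
    have h5 := congrArg (MvPolynomial.coeff μ) h3
    rw [MvPolynomial.coeff_sum, MvPolynomial.coeff_zero] at h5
    rw [map_zero, map_sum, ← h5]
    refine Finset.sum_congr rfl fun i _ => ?_
    rw [MvPolynomial.coeff_C_mul, MvPolynomial.coeff_map, map_mul, hφ, RingHom.comp_apply]
  obtain ⟨Q, hQ⟩ := h4
  have h7 := hg (x (i, e))
  have h8 : ev p n Laz.univ (g (x (i, e))) ∈ Laz.I p n := by
    rw [hQ, map_mul, map_natCast, map_natCast]
    refine Ideal.mul_mem_right _ _ ?_
    have := vv_mem_Ih (p := p) (Nat.pos_of_ne_zero hn) Laz.univ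
    rwa [vv_zero] at this
  have h9 := add_mem h7 h8
  rwa [sub_add_cancel] at h9

/-- `OInv 𝔽_p` is a polynomial ring over `𝔽_p[d, d⁻¹]` -/
theorem exists_iso (ι : ZMod p →+* A) (d : Aˣ)
    (hd : (d : A) = algebraMap (Polynomial (ZMod p)) A Polynomial.X) :
    ∃ (Φ : OInv (ZMod p) →+* MvPolynomial ℕ A) (Ψ : MvPolynomial ℕ A →+* OInv (ZMod p)),
      Ψ.comp Φ = RingHom.id _ ∧ Φ.comp Ψ = RingHom.id _ ∧ ∀ Γ : Law (ZMod p),
        (OInv.f (ZMod p) • Γ.map (OInv.inc (ZMod p))).map Φ =
          bL ((InvSeries.lin d)⁻¹ • Γ.map ι) := by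
  set Φ : OInv (ZMod p) →+* MvPolynomial ℕ A := OInv.lift (MvPolynomial.C.comp ι)
    (strictMk MvPolynomial.X * InvSeries.map MvPolynomial.C (InvSeries.lin d)⁻¹) with hΦ
  have hΦf : InvSeries.map Φ (OInv.f (ZMod p)) =
      strictMk MvPolynomial.X * InvSeries.map MvPolynomial.C (InvSeries.lin d)⁻¹ :=
    OInv.map_lift_f _ _
  set u : (OInv (ZMod p))ˣ := (OInv.isUnit_cc (E := ZMod p)).unit⁻¹ with hu
  have hu1 : OInv.cc (ZMod p) 0 * u = 1 := IsUnit.mul_val_inv _
  have hL : ((p : ℕ) : OInv (ZMod p)) = 0 := by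
    rw [← map_natCast (OInv.inc (ZMod p)), CharP.cast_eq_zero, map_zero]
  obtain ⟨ψ, hψ⟩ := exists_hom_of_unit (A := A) p hL u.isUnit
  set g : InvSeries (OInv (ZMod p)) := OInv.f (ZMod p) * InvSeries.lin u with hg
  have hgs : g ∈ strict (OInv (ZMod p)) := by
    rw [mem_strict, hg, InvSeries.c_zero_mul, OInv.c_f, InvSeries.c_zero_lin, hu1]
  set Ψ : MvPolynomial ℕ A →+* OInv (ZMod p) :=
    MvPolynomial.eval₂Hom ψ fun k => g.c (k + 1) with hΨ
  have hΨC : Ψ.comp MvPolynomial.C = ψ := RingHom.ext fun a => by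
    rw [RingHom.comp_apply, hΨ, MvPolynomial.eval₂Hom_C]
  have hΦu : Φ u = MvPolynomial.C (d : A) := by
    have h1 := congrArg (fun s => InvSeries.c s 0) hΦf
    simp only [InvSeries.c_map, OInv.c_f, InvSeries.c_zero_mul, c_zero_strictMk, one_mul,
      ← map_inv, InvSeries.c_zero_lin] at h1
    have h2 := congrArg Φ hu1
    rw [map_mul, h1, map_one] at h2
    rw [← mul_one (MvPolynomial.C (d : A)), ← h2, ← mul_assoc, ← map_mul, Units.mul_inv, map_one,
      one_mul]
  refine ⟨Φ, Ψ, ?_, ?_, fun Γ => ?_⟩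
  · refine OInv.hom_ext (RingHom.ext_zmod _ _) ?_
    rw [← InvSeries.map_map, hΦf, map_mul, InvSeries.map_map, hΨC, map_strictMk, map_inv,
      InvSeries.map_lin, InvSeries.map_id]
    have h1 : Units.map (ψ : A →* OInv (ZMod p)) d = u := Units.ext (by
      rw [Units.coe_map, MonoidHom.coe_coe, hd, hψ])
    have h2 : (fun k => Ψ (MvPolynomial.X k)) = fun k => g.c (k + 1) := funext fun k => by
      rw [hΨ, MvPolynomial.eval₂Hom_X']
    rw [h1, h2, strictMk_c hgs, hg, mul_inv_cancel_right]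
  · apply MvPolynomial.ringHom_ext
    · intro a
      have h1 : Φ.comp ψ = (MvPolynomial.C : A →+* MvPolynomial ℕ A) := by
        apply hom_ext_of_loc p
        rw [RingHom.comp_apply, hψ, hΦu, hd]
      rw [RingHom.comp_apply, ← RingHom.comp_apply Ψ, hΨC, ← RingHom.comp_apply, h1,
        RingHom.id_apply]
    · intro k
      have h1 : InvSeries.map Φ (InvSeries.lin u) =
          InvSeries.map MvPolynomial.C (InvSeries.lin d) := by
        rw [InvSeries.map_lin, InvSeries.map_lin]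
        exact congrArg _ (Units.ext hΦu)
      rw [RingHom.comp_apply, hΨ, MvPolynomial.eval₂Hom_X', ← InvSeries.c_map, hg, map_mul, hΦf,
        h1, map_inv, inv_mul_cancel_right, c_succ_strictMk, RingHom.id_apply]
  · rw [InvSeries.map_smul, hΦf, Law.map_map, hΦ, OInv.lift_comp_inc, bL, mul_smul,
      InvSeries.map_smul, Law.map_map]

end Loc

theorem free' (hn : n ≠ 0) (Γ : Law (ZMod p)) (h0 : ∀ i < n, vv p i Γ = 0)
    (h1 : IsUnit (vv p n Γ)) : ∃ (J : Type) (β : J → OInv (ZMod p)),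
    (∀ y, Sp (Laz.lift (OInv.f (ZMod p) • Γ.map (OInv.inc (ZMod p)))) β (Laz.v p n) y) ∧
    ∀ x, cmb (Laz.lift (OInv.f (ZMod p) • Γ.map (OInv.inc (ZMod p)))) β x = 0 →
      ∀ j, x j ∈ Laz.I p n := by
  let A := Localization.Away (Polynomial.X : Polynomial (ZMod p))
  let ι : ZMod p →+* A := (algebraMap (Polynomial (ZMod p)) A).comp Polynomial.C
  obtain ⟨d, hd⟩ : IsUnit (algebraMap (Polynomial (ZMod p)) A Polynomial.X) :=
    IsLocalization.Away.algebraMap_isUnit _
  obtain ⟨Φ, Ψ, hΨΦ, hΦΨ, hl⟩ := exists_iso ι d hd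
  set G : Law A := (InvSeries.lin d)⁻¹ • Γ.map ι with hGd
  have hG : ∀ i < n, vv p i G = 0 := fun i hi => by
    rw [hGd, vv_lin_inv_smul hp.out.ne_zero, vv_map, h0 i hi, map_zero, mul_zero]
  have hw : vv p n G = algebraMap (Polynomial (ZMod p)) A
      (Polynomial.C (vv p n Γ) * Polynomial.X ^ (p ^ n - 1)) := by
    rw [hGd, vv_lin_inv_smul hp.out.ne_zero, vv_map, hd, map_mul, map_pow, mul_comm]
    rfl
  have hN : 0 < p ^ n - 1 := by
    have := two_le_pow hp.out hn
    omega
  have hlam : Ψ.comp (Laz.lift (bL G)) =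
      Laz.lift (OInv.f (ZMod p) • Γ.map (OInv.inc (ZMod p))) := by
    rw [hGd, ← hl, ← Laz.comp_lift, ← RingHom.comp_assoc, hΨΦ, RingHom.id_comp]
  have hc : ∀ x, cmb (Laz.lift (OInv.f (ZMod p) • Γ.map (OInv.inc (ZMod p))))
      (fun j => Ψ (bas p n (p ^ n - 1) A j)) x =
      Ψ (cmb (Laz.lift (bL G)) (bas p n (p ^ n - 1) A) x) := fun x => by
    rw [cmb, cmb, map_finsuppSum, ← hlam]
    refine Finsupp.sum_congr fun j _ => ?_
    rw [map_mul, RingHom.comp_apply]
  refine ⟨Fin (p ^ n - 1) × Small (kdeg p n), fun j => Ψ (bas p n (p ^ n - 1) A j), fun y => ?_,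
    fun x hx => ?_⟩
  · obtain ⟨k, x, hx⟩ := span hn hG h1 hN hw (Φ y)
    refine ⟨k, x, ?_⟩
    rw [hc, ← hx, map_mul, map_pow, ← hlam, RingHom.comp_apply, ← RingHom.comp_apply Ψ Φ, hΨΦ,
      RingHom.id_apply]
  · refine ind hn hG h1 hw x ?_
    have h2 := congrArg Φ hx
    rwa [hc, map_zero, ← RingHom.comp_apply, hΦΨ, RingHom.id_apply] at h2

end Fr

/-- **freeness modulo `I₆`** -/
theorem free : FREE := fun Γ h =>
  haveI : Fact (Nat.Prime 3) := ⟨Nat.prime_three⟩
  Fr.free' (by norm_num) Γ h.low h.top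

end Vale.Agent.P236Z.E
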