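import Vale.Agent.P236Z.E.Alg
import Mathlib.NumberTheory.Padics.RingHoms
import Mathlib.RingTheory.AdjoinRoot

/-!
# P236, block E: the Lubin-Tate formal module of the ninth cyclotomic field, modulo `27`
-/

namespace Vale.Agent.P236Z.E

open Vale.Agent.P251.F Vale.Agent.P217 IsLocalRing

namespace Gm

section lt

open MvPowerSeries

variable {O : Type} [CommRing O] {π : O} {σ τ : Type}

/-- solutions of the functional equation with the linear part `c` -/
def Sol (π : O) (c : σ → O) (Φ : MvPowerSeries σ O) : Prop :=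
  constantCoeff Φ = 0 ∧ (∀ i, coeff (Finsupp.single i 1) Φ = c i) ∧
    C π * Φ + Φ ^ 3 = subst (fun i => (C π * X i + X i ^ 3 : MvPowerSeries σ O)) Φ

theorem hs [Finite σ] : HasSubst fun i => (C π * X i + X i ^ 3 : MvPowerSeries σ O) :=
  hasSubst_of_constantCoeff_zero fun i => by simp

theorem cc_pderiv (Φ : MvPowerSeries σ O) (i : σ) :
    constantCoeff (pderiv O i Φ) = coeff (Finsupp.single i 1) Φ := by
  rw [← coeff_zero_eq_constantCoeff_apply, coeff_pderiv]
  simp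

theorem Sol.comp [Fintype σ] [Finite τ] {c : σ → O} {Φ : MvPowerSeries σ O} (h : Sol π c Φ)
    {d : σ → τ → O} {Ψ : σ → MvPowerSeries τ O} (k : ∀ i, Sol π (d i) (Ψ i)) :
    Sol π (∑ i, c i • d i) (subst Ψ Φ) := by
  have h0 : HasSubst Ψ := hasSubst_of_constantCoeff_zero fun i => (k i).1
  refine ⟨constantCoeff_subst_eq_zero h0 (fun i => (k i).1) h.1, fun t => ?_, ?_⟩
  · rw [← cc_pderiv, HT_pderiv_subst Ψ fun i => (k i).1, map_sum, Finset.sum_apply]
    refine Finset.sum_congr rfl fun i _ => ?_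
    rw [map_mul, HT_constantCoeff_subst_of_zero fun i => (k i).1, cc_pderiv, cc_pderiv, h.2.1,
      (k i).2.1, Pi.smul_apply, smul_eq_mul]
  · have e := congrArg (subst Ψ) h.2.2
    rw [subst_add h0, subst_mul h0, subst_pow h0, subst_C, subst_comp_subst_apply hs h0] at e
    rw [e, subst_comp_subst_apply h0 hs]
    congr 1
    funext i
    rw [subst_add h0, subst_mul h0, subst_pow h0, subst_C, subst_X h0, (k i).2.2]

theorem sol_X [Finite σ] [DecidableEq σ] (i : σ) : Sol π (Pi.single i 1) (X i) :=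
  ⟨by simp, fun j => by rw [coeff_index_single_X, Pi.single_apply], by rw [subst_X hs]⟩

theorem Sol.add [Finite τ] {Φ : MvPowerSeries (Fin 2) O} (h : Sol π 1 Φ) {d e : τ → O}
    {A B : MvPowerSeries τ O} (hA : Sol π d A) (hB : Sol π e B) :
    Sol π (d + e) (subst ![A, B] Φ) := by
  simpa using h.comp (d := ![d, e]) (Ψ := ![A, B]) (Fin.forall_fin_two.2 ⟨hA, hB⟩)

theorem Sol.smul [Finite τ] {a : O} {φ : PowerSeries O} (h : Sol π (fun _ : Unit => a) φ)
    {d : τ → O} {A : MvPowerSeries τ O} (hA : Sol π d A) :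
    Sol π (a • d) (PowerSeries.subst A φ) := by
  simpa [PowerSeries.subst] using h.comp (d := fun _ => d) (Ψ := fun _ => A) fun _ => hA

/-- the conclusion of the lemma of Lubin and Tate -/
def LT (π : O) : Prop := ∀ (σ : Type) [Fintype σ] (c : σ → O), ∃! Φ, Sol π c Φ

variable (h : LT π)

include h in
theorem LT.eq [Fintype σ] {c c' : σ → O} {Φ Φ' : MvPowerSeries σ O} (a : Sol π c Φ)
    (b : Sol π c' Φ') (e : c = c') : Φ = Φ' := (h σ c).unique a (e ▸ b)

/-- the series with given linear part -/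
noncomputable def LT.s [Fintype σ] (c : σ → O) : MvPowerSeries σ O := (h σ c).exists.choose

theorem LT.sol [Fintype σ] (c : σ → O) : Sol π c (h.s c) := (h σ c).exists.choose_spec

/-- the formal group law -/
noncomputable def LT.law : Law O where
  toFG := ⟨h.s 1, (h.sol 1).1, (h.sol 1).2.1 0, (h.sol 1).2.1 1,
    h.eq ((h.sol 1).add ((h.sol 1).add (sol_X 0) (sol_X 1)) (sol_X 2))
      ((h.sol 1).add (sol_X 0) ((h.sol 1).add (sol_X 1) (sol_X 2))) (add_assoc _ _ _)⟩
  comm := ⟨h.eq (h.sol 1) ((h.sol 1).add (sol_X 1) (sol_X 0))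
    (funext (Fin.forall_fin_two.2 (by simp)))⟩

/-- the endomorphisms -/
noncomputable def LT.e (a : O) : PowerSeries O := h.s fun _ : Unit => a

theorem LT.sol_e (a : O) : Sol π (fun _ : Unit => a) (h.e a) := h.sol _

theorem LT.isHom (a : O) : IsHom h.law.toFG h.law.toFG (h.e a) :=
  ⟨(h.sol_e a).1, h.eq ((h.sol_e a).smul (h.sol 1))
    ((h.sol 1).add ((h.sol_e a).smul (sol_X 0)) ((h.sol_e a).smul (sol_X 1)))
    (funext (Fin.forall_fin_two.2 (by simp)))⟩

theorem LT.e_mul (a b : O) : h.e (a * b) = PowerSeries.subst (h.e b) (h.e a) :=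
  h.eq (h.sol_e _) ((h.sol_e a).smul (h.sol_e b)) rfl

theorem LT.e_one : h.e 1 = PowerSeries.X := h.eq (h.sol_e _) (sol_X ()) (funext fun _ => by simp)

theorem LT.e_neg : h.e (-1) = PowerSeries.C (-1) * PowerSeries.X :=
  h.eq (h.sol_e _) (c' := fun _ => -1) (Φ' := C (-1) * X ()) ⟨by simp, fun _ => by simp, by
    rw [subst_mul hs, subst_C, subst_X hs, map_neg, map_one]
    ring⟩ rfl

theorem LT.e_pi : h.e π = PowerSeries.C π * PowerSeries.X + PowerSeries.X ^ 3 :=
  h.eq (h.sol_e _) (c' := fun _ => π) (Φ' := C π * X () + X () ^ 3) ⟨by simp, fun _ => by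
    change PowerSeries.coeff 1 (PowerSeries.C π * PowerSeries.X + PowerSeries.X ^ 3) = _
    simp [PowerSeries.coeff_X_pow], by
    rw [subst_add hs, subst_mul hs, subst_pow hs, subst_C, subst_X hs]⟩ rfl

theorem LT.mult (m : ℕ) : multSeries h.law.toFG m = h.e m := by
  induction m with
  | zero =>
    exact h.eq (σ := Unit) (c := 0) (Φ := 0) ⟨by simp, fun _ => by simp, by
      rw [← coe_substAlgHom hs, map_zero, mul_zero, zero_add, zero_pow three_ne_zero]⟩ (h.sol_e _)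
      (funext fun _ => by simp)
  | succ m ih =>
    rw [multSeries_succ, ih]
    exact h.eq ((h.sol 1).add (h.sol_e m) (sol_X ())) (h.sol_e _) (funext fun _ => by simp)

/-- the automorphisms -/
noncomputable def LT.u : Oˣ →* InvSeries O where
  toFun a := ⟨h.e a, (h.sol_e _).1, ((h.sol_e (a : O)).2.1 ()).symm ▸ a.isUnit⟩
  map_one' := InvSeries.ext h.e_one
  map_mul' a b := InvSeries.ext (h.e_mul a b)

theorem LT.u_smul (a : Oˣ) : h.u a • h.law = h.law :=
  (InvSeries.smul_eq_iff_isHom _ _ _).2 (h.isHom a)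

theorem LT.u_neg : h.u (-1) = neg O := InvSeries.ext h.e_neg

end lt

open PowerSeries

variable {O : Type} [CommRing O] {π : O} (h : LT π)

theorem LT.map_pow {k : Type} [CommRing k] {r : O →+* k} (hr : r π = 0) (n : ℕ) :
    map r (h.e (π ^ n)) = X ^ 3 ^ n := by
  induction n with
  | zero => simp [h.e_one]
  | succ n ih =>
    have a : HasSubst (h.e (π ^ n)) := hasSubst_of_cc (h.sol_e _).1
    rw [pow_succ', h.e_mul, h.e_pi, subst_add a, subst_mul a, subst_pow a, subst_X a, subst_C]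
    change map r (C π * _ + _) = _
    rw [map_add, map_mul, map_C, hr, map_zero, zero_mul, zero_add, _root_.map_pow, ih, ← pow_mul,
      ← pow_succ]

theorem LT.three (a : O) :
    π * coeff 3 (h.e a) + a ^ 3 = a + π ^ 3 * coeff 3 (h.e a) := by
  obtain ⟨h0, h1, h2⟩ := h.sol_e a
  replace h0 : constantCoeff (h.e a) = 0 := h0
  replace h1 : coeff 1 (h.e a) = a := h1 ()
  replace h2 : C π * h.e a + h.e a ^ 3 = subst (C π * X + X ^ 3 : O⟦X⟧) (h.e a) := h2
  generalize h.e a = φ at h0 h1 h2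
  have g : HasSubst (C π * X + X ^ 3 : O⟦X⟧) := hasSubst_of_cc (by
    change constantCoeff _ = _
    simp)
  obtain ⟨ψ, e1⟩ := X_dvd_iff.2 h0
  obtain ⟨χ, e2⟩ : X ^ 3 ∣ φ - (C a * X + C (coeff 2 φ) * X ^ 2) := X_pow_dvd_iff.2 fun m hm => by
    interval_cases m <;> simp [h0, h1, coeff_X_pow]
  have c1 : constantCoeff ψ = a := by
    rw [← h1, e1, coeff_succ_X_mul, coeff_zero_eq_constantCoeff_apply]
  have c2 : constantCoeff χ = coeff 3 φ := by
    have := congrArg (coeff 3) e2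
    rw [coeff_X_pow_mul', if_pos le_rfl] at this
    simpa [coeff_X_pow, coeff_X] using this.symm
  have c3 : constantCoeff (subst (C π * X + X ^ 3 : O⟦X⟧) χ : O⟦X⟧) = coeff 3 φ :=
    (HT_constantCoeff_subst_of_zero (fun _ => by
      change constantCoeff _ = _
      simp) χ).trans c2
  have e3 := congrArg (subst (C π * X + X ^ 3 : O⟦X⟧)) (sub_eq_iff_eq_add.1 e2)
  simp only [subst_add g, subst_mul g, subst_pow g, subst_X g, subst_C] at e3
  generalize (subst (C π * X + X ^ 3 : O⟦X⟧) χ : O⟦X⟧) = H at e3 c3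
  have e4 : C π * φ + X ^ 3 * ψ ^ 3 = X ^ 3 * ((C π + X ^ 2) ^ 3 * H + C a) +
      (C (a * π) * X + C (coeff 2 φ * π ^ 2) * X ^ 2 +
        X ^ 4 * (C (coeff 2 φ) * (2 * C π + X ^ 2))) := by
    rw [← mul_pow, ← e1, h2, e3, map_mul, map_mul, _root_.map_pow]
    change _ + (C a * _ + C (coeff 2 φ) * _) = _
    ring
  have e5 := congrArg (coeff 3) e4
  simp only [map_add, coeff_C_mul, coeff_X_pow_mul'] at e5
  simpa [c1, c3, coeff_X_pow, coeff_X, add_comm] using e5

/-- the ring `ℤ₃[ζ₉]` -/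
theorem ring : ∃ (O : Type) (_ : CommRing O) (π : O) (r : O →+* ZMod 3),
    (∀ a : O, 3 * a = 0 → a = 0) ∧ (∀ a, r a = 0 ↔ π ∣ a) ∧ (∀ y, IsUnit (1 - π * y)) ∧
    π ^ 6 - 6 * π ^ 5 + 15 * π ^ 4 - 21 * π ^ 3 + 18 * π ^ 2 - 9 * π + 3 = 0 := by
  obtain ⟨P, hP, h0, h1⟩ : ∃ P : Polynomial ℤ_[3], P.Monic ∧ P.eval₂ PadicInt.toZMod 0 = 0 ∧
      ∀ x : AdjoinRoot P, Polynomial.aeval x P =
        x ^ 6 - 6 * x ^ 5 + 15 * x ^ 4 - 21 * x ^ 3 + 18 * x ^ 2 - 9 * x + 3 := by
    refine ⟨Polynomial.X ^ 6 - 6 * Polynomial.X ^ 5 + 15 * Polynomial.X ^ 4 - 21 * Polynomial.X ^ 3 +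
      18 * Polynomial.X ^ 2 - 9 * Polynomial.X + 3, by monicity!, ?_, fun x => ?_⟩
    · simp
      rfl
    · simp only [map_add, map_sub, map_mul, map_pow, Polynomial.aeval_X, map_ofNat]
  replace h1 := (h1 _).symm.trans ((AdjoinRoot.aeval_eq (f := P) P).trans AdjoinRoot.mk_self)
  have := (AdjoinRoot.powerBasis' hP).finite
  have := Module.Free.of_basis (AdjoinRoot.powerBasis' hP).basis
  have h2 : ∀ c : ℤ_[3], c ∈ maximalIdeal ℤ_[3] ↔ (3 : ℤ_[3]) ∣ c := fun c => by
    rw [PadicInt.maximalIdeal_eq_span_p, Ideal.mem_span_singleton]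
    rfl
  refine ⟨AdjoinRoot P, inferInstance, AdjoinRoot.root P, AdjoinRoot.lift _ _ h0, fun a ha => ?_,
    fun a => ⟨fun ha => ?_, ?_⟩, fun y => ?_, h1⟩
  · refine (smul_eq_zero_iff_right (by norm_num : (3 : ℤ_[3]) ≠ 0)).1 ?_
    rwa [Algebra.smul_def, map_ofNat]
  · obtain ⟨p, rfl⟩ := AdjoinRoot.mk_surjective a
    rw [AdjoinRoot.lift_mk, Polynomial.eval₂_at_zero, ← RingHom.mem_ker, PadicInt.ker_toZMod,
      h2] at ha
    obtain ⟨c, hc⟩ := ha
    rw [← p.X_mul_divX_add, hc, map_add, map_mul, map_mul, map_mul, map_ofNat, map_ofNat,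
      AdjoinRoot.mk_X]
    refine dvd_add (dvd_mul_right _ _) (Dvd.dvd.mul_right ?_ _)
    generalize AdjoinRoot.root P = x at h1
    exact ⟨-x ^ 5 + 6 * x ^ 4 - 15 * x ^ 3 + 21 * x ^ 2 - 18 * x + 9, by linear_combination h1⟩
  · rintro ⟨b, rfl⟩
    rw [map_mul, AdjoinRoot.lift_root, zero_mul]
  · by_contra a
    obtain ⟨m, m1, m2⟩ := exists_max_ideal_of_mem_nonunits a
    have m3 : (3 : AdjoinRoot P) ∈ m := by
      have := (h2 3).2 dvd_rfl
      rw [← eq_maximalIdeal (Ideal.isMaximal_comap_of_isIntegral_of_isMaximal m),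
        Ideal.mem_comap, map_ofNat] at this
      exact this
    generalize AdjoinRoot.root P = x at h1 m2
    have m4 : x ∈ m := m1.isPrime.mem_of_pow_mem 6 ((by linear_combination -h1 :
      3 * (2 * x ^ 5 - 5 * x ^ 4 + 7 * x ^ 3 - 6 * x ^ 2 + 3 * x - 1) = x ^ 6) ▸
        m.mul_mem_right _ m3)
    exact m1.ne_top ((Ideal.eq_top_iff_one m).2 (by simpa using add_mem m2 (m.mul_mem_right y m4)))

end Gm

open Gm PowerSeries in
theorem gam : GAM := by
  intro hL
  obtain ⟨O, _, π, r, h1, h2, h3, h4⟩ := Gm.ring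
  have p0 : r π = 0 := (h2 π).2 dvd_rfl
  obtain ⟨w, hw⟩ := h3 (3 - 6 * π + 7 * π ^ 2 - 5 * π ^ 3 + 2 * π ^ 4)
  have p1 : π ^ 6 = 3 * -w := by rw [hw]; linear_combination h4
  have p2 : (3 : O) = (-w⁻¹ : Oˣ) * π ^ 6 := by
    rw [p1, mul_left_comm, ← Units.val_neg, ← Units.val_mul]
    simp
  have p3 : ∀ a, π * a = 0 → a = 0 := fun a ha => h1 a (by
    rw [p2, pow_succ, mul_assoc, mul_assoc, ha, mul_zero, mul_zero])
  have h : LT π := hL O π p3 (fun k hk => by
      obtain ⟨k, rfl⟩ := Nat.exists_eq_add_of_le' hk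
      exact pow_succ' π k ▸ h3 _)
    (fun a => (h2 _).1 (by rw [map_sub, map_pow, ZMod.pow_card, sub_self])) ((h2 _).1 (map_ofNat r 3))
  obtain ⟨ζ, hζ⟩ := h3 1
  rw [mul_one] at hζ
  have z1 : r ζ = 1 := by rw [hζ, map_sub, p0, map_one, sub_zero]
  let J : Ideal O := Ideal.span {27}
  let s : O ⧸ J →+* ZMod 3 := Ideal.Quotient.lift J r fun a ha => by
    obtain ⟨b, rfl⟩ := Ideal.mem_span_singleton.1 ha
    rw [map_mul, map_ofNat]
    exact mul_eq_zero_of_left rfl _
  have s0 : s.comp (Ideal.Quotient.mk J) = r := rfl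
  have := s.domain_nontrivial
  have : IsLocalRing (O ⧸ J) := .of_isUnit_or_isUnit_one_sub_self fun a => by
    obtain ⟨a, rfl⟩ := Ideal.Quotient.mk_surjective a
    by_cases e : r a = 0
    · obtain ⟨b, rfl⟩ := (h2 a).1 e
      exact Or.inr (by simpa using (h3 b).map (Ideal.Quotient.mk J))
    · obtain ⟨b, hb⟩ := (h2 (1 - a * a)).1 (by
        rw [map_sub, map_mul, map_one]
        revert e
        generalize r a = c
        decide +revert)
      have := h3 b
      rw [← hb, sub_sub_cancel] at this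
      exact Or.inl ((isUnit_of_mul_isUnit_left this).map _)
  have k1 : RingHom.ker s = maximalIdeal _ := ker_eq_maximalIdeal s (ZMod.ringHom_surjective s)
  have k2 : map r (multSeries h.law.toFG 3) = subst (X ^ 3 ^ 6 : (ZMod 3)⟦X⟧)
      (map r (h.e (-w⁻¹ : Oˣ))) := by
    rw [h.mult, Nat.cast_ofNat, p2, h.e_mul, ← h.map_pow p0]
    exact map_subst (hasSubst_of_cc (h.sol_e _).1) _
  have k3 : ∀ i, vv 3 i ((h.law.map (Ideal.Quotient.mk J)).map s) =
      if 3 ^ 6 ∣ 3 ^ i then r (coeff (3 ^ i / 3 ^ 6) (h.e (-w⁻¹ : Oˣ))) else 0 := fun i => by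
    rw [Law.map_map, s0, vv_map, vv, ← coeff_map, k2, coeff_subst_X_pow (by norm_num), coeff_map]
    rfl
  have k4 : InvSeries.map (Ideal.Quotient.mk J) (h.u (-1)) = neg _ := by
    rw [h.u_neg, InvSeries.map_lin]
    exact congrArg _ (Units.ext (by simp))
  refine ⟨⟨O ⧸ J, s, k1, ⟨18, le_bot_iff.1 ((Ideal.pow_right_mono (J := Ideal.span
    {Ideal.Quotient.mk J π}) ?_ 18).trans ?_)⟩,
    Ideal.Quotient.eq_zero_iff_mem.2 (Ideal.mem_span_singleton_self _), fun a => ?_,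
    h.law.map (Ideal.Quotient.mk J), InvSeries.map (Ideal.Quotient.mk J) (h.u ζ), ?_, ?_, ?_, ?_,
    ⟨fun i hi => ?_, ?_⟩, ?_, ?_⟩⟩
  · rw [← k1]
    intro a ha
    obtain ⟨a, rfl⟩ := Ideal.Quotient.mk_surjective a
    exact Ideal.mem_span_singleton.2 (map_dvd _ ((h2 a).1 ha))
  · rw [Ideal.span_singleton_pow, le_bot_iff, Ideal.span_singleton_eq_bot, ← map_pow,
      Ideal.Quotient.eq_zero_iff_mem, Ideal.mem_span_singleton]
    exact ⟨(-w) ^ 3, by rw [show π ^ 18 = (π ^ 6) ^ 3 by ring, p1]; ring⟩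
  · obtain ⟨b, hb⟩ := Ideal.mem_span_singleton.1 (Ideal.Quotient.eq_zero_iff_mem.1 a)
    have c := congrArg r (h1 _ (h1 (3 * (1 - 3 * b)) (by linear_combination hb)))
    rw [map_sub, map_mul, map_ofNat, map_one, map_zero, show (3 : ZMod 3) = 0 from rfl, zero_mul,
      sub_zero] at c
    exact one_ne_zero c
  · rw [← InvSeries.map_smul, h.u_smul]
  · rw [← map_pow, ← map_pow, show ζ ^ 9 = 1 from Units.ext (by
      rw [Units.val_pow_eq_pow_val, hζ, Units.val_one]
      linear_combination ((1 - π) ^ 3 - 1) * h4), map_one, map_one]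
  · rw [← k4, ← InvSeries.map_smul, h.u_smul]
  · rw [← k4, ← map_mul, ← map_mul, ← map_mul, ← map_mul, mul_comm]
  · rw [k3, if_neg (Nat.not_dvd_of_pos_of_lt (by positivity) (Nat.pow_lt_pow_right (by norm_num) hi))]
  · rw [k3, if_pos dvd_rfl, Nat.div_self (by norm_num)]
    exact ((h.u (-w⁻¹)).isUnit).map r
  · exact (congrArg r ((h.sol_e (ζ : O)).2.1 ())).trans z1
  · have c := congrArg r (p3 (coeff 3 (h.e ζ) * (1 - π ^ 2) - ζ * (1 + ζ)) (by
      have := h.three ζ
      rw [hζ] at this ⊢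
      linear_combination this))
    rw [map_sub, map_mul, map_mul, map_sub, map_add, map_pow, p0, z1, map_one, map_zero] at c
    intro a
    rw [show r (coeff 3 (h.e ζ)) = 0 from a] at c
    exact absurd c (by decide)

end Vale.Agent.P236Z.E
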