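import Vale.Agent.P236Z.E.Alg

/-!
# P236, block E: the Lubin-Tate lemma for `π x + x ^ 3`
-/

set_option linter.all false

namespace Vale.Agent.P236Z.E

open MvPowerSeries Finsupp

namespace Ltl

variable {O : Type} [CommRing O] {σ : Type} [Fintype σ] (π : O)

/-- the series which are substituted -/
noncomputable abbrev sb : σ → MvPowerSeries σ O := fun i => C π * X i + X i ^ 3

theorem hs : HasSubst (sb π : σ → MvPowerSeries σ O) :=
  hasSubst_of_constantCoeff_zero fun i => by simp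

theorem subst_zero_left : subst (sb π) (0 : MvPowerSeries σ O) = 0 := by
  rw [← substAlgHom_apply (hs π), map_zero]

/-- the error term -/
noncomputable def er (Φ : MvPowerSeries σ O) : MvPowerSeries σ O :=
  C π * Φ + Φ ^ 3 - subst (sb π) Φ

theorem er_dvd (h1 : ∀ a : O, π ∣ a ^ 3 - a) (h2 : π ∣ 3) (Φ : MvPowerSeries σ O) (d : σ →₀ ℕ) :
    π ∣ coeff d (er π Φ) := by
  rw [← Ideal.mem_span_singleton, ← Ideal.Quotient.eq_zero_iff_mem, ← coeff_map]
  rcases subsingleton_or_nontrivial (O ⧸ Ideal.span {π}) with h | h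
  · exact Subsingleton.elim _ _
  have z : ∀ a, π ∣ a → Ideal.Quotient.mk (Ideal.span {π}) a = 0 := fun a ha =>
    Ideal.Quotient.eq_zero_iff_mem.2 (Ideal.mem_span_singleton.2 ha)
  haveI : Fact (Nat.Prime 3) := ⟨Nat.prime_three⟩
  haveI : CharP (O ⧸ Ideal.span {π}) 3 := (CharP.charP_iff_prime_eq_zero Nat.prime_three).2
    ((map_natCast (Ideal.Quotient.mk _) 3).symm.trans (z _ (by simpa using h2)))
  have e : frobenius (O ⧸ Ideal.span {π}) 3 = RingHom.id _ := RingHom.ext fun a => by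
    obtain ⟨a, rfl⟩ := Ideal.Quotient.mk_surjective a
    simpa [sub_eq_zero, frobenius_def] using z _ (h1 a)
  have k := map_frobenius_expand 3 three_ne_zero (f := map (Ideal.Quotient.mk (Ideal.span {π})) Φ)
  rw [e, map_id, expand, substAlgHom_apply] at k
  rw [er, map_sub, map_add, map_mul, map_pow, map_subst (hs π), ← k]
  simp [z π dvd_rfl]

theorem coeff_sb (e : σ →₀ ℕ) (D : MvPowerSeries σ O)
    (h : ∀ d, degree d < degree e → coeff d D = 0) :
    coeff e (subst (sb π) D) = π ^ degree e * coeff e D := by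
  classical
  have k : ∀ d : σ →₀ ℕ, (d.prod fun s k => (sb π s : MvPowerSeries σ O) ^ k) =
      monomial d 1 * d.prod fun s k => (C π + X s ^ 2) ^ k := fun d => by
    rw [monomial_one_eq, ← Finsupp.prod_mul]
    exact Finsupp.prod_congr fun s _ => by rw [← mul_pow]; ring
  rw [coeff_subst (hs π), finsum_eq_single _ e, k, coeff_monomial_mul, if_pos le_rfl, tsub_self]
  · simp [Finsupp.prod, degree_apply, Finset.prod_pow_eq_pow_sum, mul_comm]
  · intro d hd
    by_cases h1 : d ≤ e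
    · obtain ⟨c, rfl⟩ := le_iff_exists_add.1 h1
      rw [h d, zero_smul]
      have : degree c ≠ 0 := fun h0 => hd (by rw [(degree_eq_zero_iff c).1 h0, add_zero])
      rw [map_add]
      omega
    · rw [k, coeff_monomial_mul, if_neg h1, smul_zero]

theorem er_sub {Φ Ψ : MvPowerSeries σ O} (h0 : constantCoeff Φ = 0) (h0' : constantCoeff Ψ = 0)
    (e : σ →₀ ℕ) (h : ∀ d, degree d < degree e → coeff d (Ψ - Φ) = 0) :
    coeff e (er π Ψ) = coeff e (er π Φ) + (π - π ^ degree e) * coeff e (Ψ - Φ) := by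
  have k1 : er π Ψ = er π Φ + C π * (Ψ - Φ) + (Ψ - Φ) * (Ψ ^ 2 + Ψ * Φ + Φ ^ 2) -
      subst (sb π) (Ψ - Φ) := by
    rw [er, er, subst_sub (hs π)]
    ring
  have k2 : coeff e ((Ψ - Φ) * (Ψ ^ 2 + Ψ * Φ + Φ ^ 2)) = 0 :=
    coeff_of_lt_order (lt_of_lt_of_le (by exact_mod_cast Nat.lt_succ_self _)
      ((add_le_add (nat_le_order h) (one_le_order_iff_constCoeff_eq_zero.2 (by simp [h0, h0']))).trans
        le_order_mul))
  rw [k1, map_sub, map_add, map_add, k2, coeff_sb π e _ h, coeff_C_mul]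
  ring

variable (c : σ → O)

/-- a solution in degrees below `n` -/
def Sol (n : ℕ) (Φ : MvPowerSeries σ O) : Prop := constantCoeff Φ = 0 ∧
  (∀ i, coeff (single i 1) Φ = c i) ∧ ∀ d, degree d < n → coeff d (er π Φ) = 0

variable {π c}

theorem uniq (h1 : ∀ a, π * a = 0 → a = 0) (h2 : ∀ k, 1 ≤ k → IsUnit (1 - π ^ k)) {n : ℕ}
    {Φ Ψ : MvPowerSeries σ O} (h : Sol π c n Φ) (h' : Sol π c n Ψ) (e : σ →₀ ℕ)
    (he : degree e < n) : coeff e (Ψ - Φ) = 0 := by
  induction hk : degree e using Nat.strong_induction_on generalizing e with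
  | _ k ih =>
    rcases k with _ | _ | k
    · simp [(degree_eq_zero_iff e).1 hk, h.1, h'.1]
    · obtain ⟨i, rfl⟩ : e ∈ Set.range fun a : σ => single a 1 := range_single_one ▸ hk
      simp [h.2.1, h'.2.1]
    · have := er_sub π h.1 h'.1 e fun d hd => ih _ (hk ▸ hd) d (hd.trans he) rfl
      rw [h.2.2 e he, h'.2.2 e he, zero_add, hk] at this
      exact (h2 (k + 1) (by omega)).mul_right_eq_zero.1 (h1 _ (by linear_combination -this))

theorem step (h2 : ∀ k, 1 ≤ k → IsUnit (1 - π ^ k)) (h3 : ∀ a : O, π ∣ a ^ 3 - a) (h4 : π ∣ 3)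
    {n : ℕ} {Φ : MvPowerSeries σ O} (h : Sol π c (n + 2) Φ) : ∃ Ψ, Sol π c (n + 3) Ψ := by
  choose q hq using er_dvd π h3 h4 Φ
  obtain ⟨u, hu⟩ := (h2 (n + 1) (by omega)).exists_right_inv
  let D : MvPowerSeries σ O := fun d => if degree d = n + 2 then -(u * q d) else 0
  have hD : ∀ d, coeff d D = if degree d = n + 2 then -(u * q d) else 0 := fun _ => rfl
  have h0 : constantCoeff (Φ + D) = 0 := by
    rw [map_add, h.1, ← coeff_zero_eq_constantCoeff_apply, hD]
    simp
  refine ⟨Φ + D, h0, fun i => by simp [h.2.1, hD], fun e he => ?_⟩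
  rw [er_sub π h.1 h0 e fun d hd => by rw [add_sub_cancel_left, hD, if_neg (by omega)],
    add_sub_cancel_left, hD]
  split_ifs with k
  · rw [hq, k]
    linear_combination (-π * q e) * hu
  · rw [h.2.2 e (by omega), mul_zero, add_zero]

theorem base : Sol π c 2 (∑ i, C (c i) * X i) := by
  classical
  have h0 : constantCoeff (∑ i, C (c i) * X i : MvPowerSeries σ O) = 0 := by simp
  refine ⟨h0, fun i => by simp [coeff_X, single_left_inj], fun e he => ?_⟩
  have z : ∀ d, degree d = 0 → coeff d (∑ i, C (c i) * X i - 0 : MvPowerSeries σ O) = 0 :=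
    fun d hd => by rw [(degree_eq_zero_iff d).1 hd, sub_zero]; exact h0
  rw [er_sub π (map_zero _) h0 e fun d hd => z d (by omega), er,
    subst_zero_left]
  rcases (by omega : degree e = 0 ∨ degree e = 1) with k | k
  · simp only [z e k]
    simp
  · simp [k]

end Ltl

open Ltl

theorem ltl : LTL := by
  intro O _ π h1 h2 h3 h4 σ _ c
  have ex : ∀ n, ∃ Φ, Sol π c (n + 2) Φ := fun n => by
    induction n with
    | zero => exact ⟨_, base⟩
    | succ n ih => exact step h2 h3 h4 ih.choose_spec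
  choose P hP using ex
  let Φ : MvPowerSeries σ O := fun d => coeff d (P (degree d))
  have hΦ : ∀ d, coeff d Φ = coeff d (P (degree d)) := fun _ => rfl
  have h0 : constantCoeff Φ = 0 := (hP _).1
  have k : ∀ n, Sol π c n Φ := fun n => ⟨h0, fun i => (hP _).2.1 i, fun e _ => by
    rw [er_sub π (hP (degree e)).1 h0 e fun d hd => ?_, (hP _).2.2 e (by omega), map_sub, hΦ,
      sub_self, mul_zero, add_zero]
    rw [map_sub, hΦ, ← map_sub]
    exact uniq h1 h2 ⟨(hP _).1, (hP _).2.1, fun d' hd' => (hP _).2.2 d' (by omega)⟩ (hP _) d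
      (by omega)⟩
  refine ⟨Φ, ⟨h0, (k 0).2.1, sub_eq_zero.1 (MvPowerSeries.ext fun e => (k _).2.2 e
    (Nat.lt_succ_self _))⟩, fun Ψ h => sub_eq_zero.1 (MvPowerSeries.ext fun e => uniq h1 h2 (k _)
      ⟨h.1, h.2.1, fun d _ => by rw [er, h.2.2, sub_self, map_zero]⟩ e (Nat.lt_succ_self _))⟩

end Vale.Agent.P236Z.E
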