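import Vale.Agent.P236Z.E.Alg
import Vale.Agent.P236Z.Tate.Qr
import Mathlib.RingTheory.Regular.Flat
import Mathlib.FieldTheory.Finite.Polynomial

/-!
# P236, block E: quasi-regularity
-/

namespace Vale.Agent.P236Z.E

open Vale.Agent.P251.F MvPolynomial Vale.Agent.P236Z.Tate.Qr RingTheory.Sequence

namespace Qr

variable {R : Type} [CommRing R] {N : ℕ} {s : Fin N → R}

theorem ofList_take (k : ℕ) (hk : k < N) :
    (Ideal.ofList ((List.ofFn s).take k) • ⊤ : Submodule R R) = II s k := by
  rw [smul_eq_mul, Ideal.mul_top, Ideal.ofList, II]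
  congr 1
  ext z
  simp only [Set.mem_ofPred_eq, List.mem_iff_getElem, List.getElem_take, List.getElem_ofFn,
    List.length_take, List.length_ofFn, Set.mem_image]
  constructor
  · rintro ⟨i, hi, rfl⟩
    exact ⟨⟨i, by omega⟩, by simp only; omega, rfl⟩
  · rintro ⟨i, hi, rfl⟩
    exact ⟨i, by have := i.2; omega, rfl⟩

theorem weak_iff : IsWeaklyRegular R (List.ofFn s) ↔
    ∀ (i : Fin N) (y : R), s i * y ∈ II s i → y ∈ II s i := by
  rw [isWeaklyRegular_iff]
  constructor
  · intro h i y hy
    have h1 := h i (by simp)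
    rw [ofList_take _ i.2, List.getElem_ofFn] at h1
    exact mem_of_isSMulRegular_quotient_of_smul_mem h1 hy
  · intro h i hi
    have hi' : i < N := by simpa using hi
    rw [ofList_take _ hi', List.getElem_ofFn, isSMulRegular_quotient_iff_mem_of_smul_mem]
    exact h ⟨i, hi'⟩

/-- a weakly regular sequence is quasi-regular -/
theorem qreg_of_weak (hr : IsWeaklyRegular R (List.ofFn s)) : QReg s := by
  have key : ∀ k ≤ N, QQ s k := by
    intro k hk
    induction k with
    | zero => exact qq_zero
    | succ k ih => exact QQ.succ (i := ⟨k, hk⟩) (ih (by omega)) (weak_iff.1 hr ⟨k, hk⟩)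
  intro n P hP hz μ
  have := key N le_rfl n P (hs_iff.2 hP) (by rwa [II_top]) μ
  rwa [II_top] at this

/-- the first `k` variables go to zero -/
noncomputable def kill (A : Type) [CommRing A] (k : ℕ) :
    MvPolynomial (Fin 5) A →ₐ[A] MvPolynomial (Fin 5) A :=
  aeval fun j => if j.val < k then 0 else X j

theorem sub_kill (k : ℕ) (y : Lam) : y - kill ℤ k y ∈ II s0 (k + 1) := by
  induction y using MvPolynomial.induction_on with
  | C a => rw [kill, aeval_C, algebraMap_eq, sub_self]; exact zero_mem _
  | add p q hp hq => rw [map_add, add_sub_add_comm]; exact add_mem hp hq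
  | mul_X p j hp =>
    rw [map_mul, show p * X j - kill ℤ k p * kill ℤ k (X j) =
      (p - kill ℤ k p) * X j + kill ℤ k p * (X j - kill ℤ k (X j)) by ring]
    refine add_mem (Ideal.mul_mem_right _ _ hp) (Ideal.mul_mem_left _ _ ?_)
    rw [kill, aeval_X]
    split_ifs with h
    · rw [sub_zero]
      exact Ideal.subset_span ⟨j.succ, by simpa using h, rfl⟩
    · rw [sub_self]; exact zero_mem _

theorem mem_II (k : ℕ) (y : Lam) : y ∈ II s0 (k + 1) ↔
    MvPolynomial.map (Int.castRingHom (ZMod 3)) (kill ℤ k y) = 0 := by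
  constructor
  · intro hy
    have : II s0 (k + 1) ≤ RingHom.ker ((MvPolynomial.map (Int.castRingHom (ZMod 3))).comp
        (kill ℤ k : Lam →+* Lam)) := by
      refine Ideal.span_le.2 ?_
      rintro _ ⟨i, hi, rfl⟩
      rw [SetLike.mem_coe, RingHom.mem_ker]
      induction i using Fin.cases with
      | zero =>
        rw [show s0 0 = 3 from rfl, map_ofNat, ← map_ofNat (C : ZMod 3 →+* _) 3,
          show (3 : ZMod 3) = 0 from rfl, map_zero]
      | succ j =>
        rw [show s0 j.succ = X j from rfl, RingHom.comp_apply, RingHom.coe_coe, kill, aeval_X,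
          if_pos (by simpa using hi), map_zero]
    exact this hy
  · intro hy
    obtain ⟨z, hz⟩ := (C_dvd_iff_zmod 3 _).2 hy
    rw [← sub_add_cancel y (kill ℤ k y)]
    refine add_mem (sub_kill k y) ?_
    rw [hz]
    exact Ideal.mul_mem_right _ _ (Ideal.subset_span ⟨0, Nat.succ_pos k, by
      rw [show s0 0 = 3 from rfl]; simp⟩)

theorem weak_s0 : IsWeaklyRegular Lam (List.ofFn s0) := by
  refine weak_iff.2 fun i => Fin.cases (fun y hy => ?_) (fun j y hy => ?_) i
  · have e : II s0 (0 : Fin 6) = ⊥ := by simp [II]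
    rw [e, Ideal.mem_bot] at hy ⊢
    exact (mul_eq_zero.1 hy).resolve_left (by
      rw [show s0 0 = 3 from rfl, ← map_ofNat (C : ℤ →+* Lam) 3, map_eq_zero_iff _ (C_injective _ _)]
      decide)
  · rw [Fin.val_succ, mem_II] at hy ⊢
    rw [show s0 j.succ = X j from rfl, map_mul, map_mul, kill, aeval_X, if_neg (lt_irrefl _),
      map_X] at hy
    exact (mul_eq_zero.1 hy).resolve_left (X_ne_zero j)

end Qr

open Qr

theorem qr0 : QR0 := by
  refine ⟨qreg_of_weak weak_s0, qreg_of_weak ?_⟩
  have : Module.Flat (MvPolynomial ℕ Lam) (OInv Lam) :=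
    IsLocalization.flat _ (Submonoid.powers (X 0 : MvPolynomial ℕ Lam))
  have : Module.Flat Lam (OInv Lam) := Module.Flat.trans Lam (MvPolynomial ℕ Lam) (OInv Lam)
  have := weak_s0.of_flat (S := OInv Lam)
  rwa [List.map_ofFn] at this

theorem qrg : QRG := by
  intro R _ N s s' _ hs' h n P hP hz μ
  rw [hs'] at hz ⊢
  have hA : ∀ i, ∃ a : Fin N → R, ∑ j, a j * s j = s' i := fun i =>
    (Ideal.mem_span_range_iff_exists_fun).1 (by
      rw [← hs']; exact Ideal.subset_span ⟨i, rfl⟩)
  have hB : ∀ j, ∃ b : Fin N → R, ∑ i, b i * s' i = s j := fun j =>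
    (Ideal.mem_span_range_iff_exists_fun).1 (by
      rw [hs']; exact Ideal.subset_span ⟨j, rfl⟩)
  choose A hA using hA
  choose B hB using hB
  set π := Ideal.Quotient.mk (Ideal.span (Set.range s)) with hπ
  have hz0 : ∀ a, π a = 0 ↔ a ∈ Ideal.span (Set.range s) := fun a => Ideal.Quotient.eq_zero_iff_mem
  have hBA : (Matrix.of B).map π * (Matrix.of A).map π = 1 := by
    rw [← Matrix.map_mul]
    ext j l
    have h1 := h 1 (∑ l, C ((Matrix.of B * Matrix.of A) j l) * X l - X j)
      ((IsHomogeneous.sum _ _ _ fun l _ => (isHomogeneous_X _ l).C_mul _).sub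
        (isHomogeneous_X _ j)) (by
        have : ∑ l, (Matrix.of B * Matrix.of A) j l * s l = s j := by
          simp only [Matrix.mul_apply, Matrix.of_apply, Finset.sum_mul]
          rw [Finset.sum_comm, ← hB j]
          refine Finset.sum_congr rfl fun i _ => ?_
          rw [← hA i, Finset.mul_sum]
          exact Finset.sum_congr rfl fun l _ => mul_assoc _ _ _
        simp only [map_sub, map_sum, map_mul, eval_C, eval_X, this, sub_self]
        exact zero_mem _) (Finsupp.single l 1)
    rw [coeff_sub, coeff_sum] at h1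
    simp only [coeff_C_mul, coeff_X, Finsupp.single_left_inj one_ne_zero, mul_ite, mul_one,
      mul_zero, Finset.sum_ite_eq', Finset.mem_univ, if_true] at h1
    rw [← hz0, map_sub, sub_eq_zero] at h1
    rw [Matrix.map_apply, h1, Matrix.one_apply]
    split_ifs <;> simp
  have hAB := mul_eq_one_comm.1 hBA
  have h2 : map π (Tate.Qr.sub (Matrix.of A) P) = 0 := by
    ext ν
    rw [coeff_map, coeff_zero, hz0]
    refine h n _ ?_ ?_ ν
    · have := hP.aeval (fun i => ∑ j, C (Matrix.of A i j) * X j) (n := 1)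
        fun i => IsHomogeneous.sum _ _ _ fun l _ => (isHomogeneous_X _ l).C_mul _
      rwa [one_mul] at this
    · have : eval s (Tate.Qr.sub (Matrix.of A) P) = eval s' P := by
        clear hP hz
        induction P using MvPolynomial.induction_on with
        | C c => simp [Tate.Qr.sub]
        | add P Q hP hQ => simp only [map_add, hP, hQ]
        | mul_X P i hP => simp only [map_mul, hP]; simp [Tate.Qr.sub, hA]
      rwa [this]
  rw [Tate.Qr.map_sub'] at h2
  have h3 := sub_sub _ _ hAB (map π P)
  rw [h2, map_zero] at h3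
  rw [← hz0, ← coeff_map, ← h3, coeff_zero]

end Vale.Agent.P236Z.E
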