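import Vale.Agent.P236Z.E.Alg
import Vale.Agent.P251.F.Deform
import Mathlib.RingTheory.PowerSeries.Expand

/-!
# P236, block E: rigidity in height six, existence of the deformation
-/

namespace Vale.Agent.P236Z.E

open Vale.Agent.P251.F Vale.Agent.P217

namespace Rig

instance : Fact (Nat.Prime 3) := ⟨by norm_num⟩

variable {C C' : Type} [CommRing C] [CommRing C'] [CharP C 3]

theorem q_ne : (3 : ℕ) ^ 6 ≠ 0 := by norm_num

omit [CharP C 3] in
theorem subst_inj {a b : PowerSeries C}
    (h : (PowerSeries.subst (PowerSeries.X ^ (3 ^ 6) : PowerSeries C) a : PowerSeries C) =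
      PowerSeries.subst (PowerSeries.X ^ (3 ^ 6) : PowerSeries C) b) : a = b := by
  ext n
  have := congrArg (PowerSeries.coeff (3 ^ 6 * n)) h
  rwa [← PowerSeries.expand_apply _ q_ne, ← PowerSeries.expand_apply _ q_ne,
    PowerSeries.coeff_expand_mul, PowerSeries.coeff_expand_mul] at this

theorem exists_V (G : Law C) (h : ∀ i < 6, vv 3 i G = 0) (hu : IsUnit (vv 3 6 G)) :
    ∃ V : InvSeries C, V • G.map (iterateFrobenius C 3 6) = G ∧ multSeries G.toFG 3 =
      PowerSeries.subst (PowerSeries.X ^ (3 ^ 6) : PowerSeries C) V.val := by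
  obtain ⟨V, hV, hVhom⟩ := exists_height' 3 (isHom_multSeries G.toFG 3) 6 h
  have h1 : PowerSeries.coeff 1 V = vv 3 6 G := by
    rw [vv, hV, ← PowerSeries.expand_apply _ q_ne]
    have := PowerSeries.coeff_expand_mul (3 ^ 6) q_ne V 1
    rw [mul_one] at this
    exact this.symm
  exact ⟨⟨V, hVhom.1, h1 ▸ hu⟩, (InvSeries.smul_eq_iff_isHom _ _ _).2 hVhom, hV⟩

theorem pow_q (t : PowerSeries C) :
    t ^ (3 ^ 6) = PowerSeries.subst (PowerSeries.X ^ (3 ^ 6) : PowerSeries C)
      (PowerSeries.map (iterateFrobenius C 3 6) t) := by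
  rw [← PowerSeries.expand_apply _ q_ne, ← PowerSeries.map_expand]
  exact (MvPowerSeries.map_iterateFrobenius_expand 3 (by norm_num) t 6).symm

variable {π : C →+* C'} (hπ : RingHom.ker π * RingHom.ker π = ⊥)
include hπ

theorem frob_eq {a b : C} (h : π a = π b) :
    iterateFrobenius C 3 6 a = iterateFrobenius C 3 6 b := by
  have h1 : a - b ∈ RingHom.ker π := by rw [RingHom.mem_ker, map_sub, h, sub_self]
  have h2 : (a - b) * (a - b) = 0 := by
    have := Ideal.mul_mem_mul h1 h1
    rwa [hπ] at this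
  rw [← sub_eq_zero, ← map_sub, iterateFrobenius_def, show 3 ^ 6 = 2 + 727 by norm_num, pow_add,
    pow_two, h2, zero_mul]

theorem law_eq {F G : Law C} (h : F.map π = G.map π) :
    F.map (iterateFrobenius C 3 6) = G.map (iterateFrobenius C 3 6) := by
  refine Law.ext_ps ?_
  ext d
  have := congrArg (fun L => MvPowerSeries.coeff d (Law.ps L)) h
  simp only [Law.map_ps, MvPowerSeries.coeff_map] at this ⊢
  exact frob_eq hπ this

theorem ser_eq {f g : InvSeries C} (h : InvSeries.map π f = InvSeries.map π g) :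
    InvSeries.map (iterateFrobenius C 3 6) f = InvSeries.map (iterateFrobenius C 3 6) g := by
  refine InvSeries.ext_c fun n => ?_
  have := congrArg (fun L => InvSeries.c L n) h
  simp only [InvSeries.c_map] at this ⊢
  exact frob_eq hπ this

omit [CharP C 3] in
theorem unit_of {a b : C} (h : π a = π b) (hb : IsUnit b) : IsUnit a := by
  have h1 : a - b ∈ RingHom.ker π := by rw [RingHom.mem_ker, map_sub, h, sub_self]
  have h2 : IsNilpotent (a - b) := by
    have := Ideal.mul_mem_mul h1 h1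
    rw [hπ] at this
    exact ⟨2, by rw [pow_two]; exact this⟩
  have := h2.isUnit_add_right_of_commute hb (mul_comm _ _)
  rwa [sub_add_cancel] at this

theorem aut_eq {G : Law C} (h : ∀ i < 6, vv 3 i G = 0) (hu : IsUnit (vv 3 6 G))
    {t : InvSeries C} (ht : t • G = G) (h1 : InvSeries.map π t = 1) : t = 1 := by
  obtain ⟨V, -, hV⟩ := exists_V G h hu
  have h2 : InvSeries.map (iterateFrobenius C 3 6) t = 1 := by
    rw [ser_eq hπ (h1.trans (map_one (InvSeries.map π)).symm), map_one]
  have hX : PowerSeries.HasSubst (PowerSeries.X ^ (3 ^ 6) : PowerSeries C) :=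
    PowerSeries.HasSubst.X_pow q_ne
  have h3 : t.val ^ (3 ^ 6) = PowerSeries.X ^ (3 ^ 6) := by
    rw [pow_q, ← InvSeries.map_val, h2, InvSeries.one_val, PowerSeries.subst_X hX]
  have h4 := smul_multSeries t G 3
  rw [ht, hV, PowerSeries.subst_comp_subst_apply hX t.hs, PowerSeries.subst_pow t.hs,
    PowerSeries.subst_X t.hs, h3, ← PowerSeries.subst_comp_subst_apply V.hs hX] at h4
  have h5 : t * V = V := InvSeries.ext (subst_inj h4)
  exact mul_eq_right.1 h5

theorem main {Γ G : Law C} (hΓ : ∀ i < 6, vv 3 i Γ = 0) (hu : IsUnit (vv 3 6 Γ))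
    (hφ : Γ.map (iterateFrobenius C 3 6) = Γ) (hG : ∀ i < 6, vv 3 i G = 0)
    (h : G.map π = Γ.map π) : ∃ g : InvSeries C, InvSeries.map π g = 1 ∧ g • Γ = G := by
  have hu' : IsUnit (vv 3 6 G) := unit_of hπ (by rw [← vv_map, h, vv_map]) hu
  obtain ⟨V, hV, hV'⟩ := exists_V G hG hu'
  obtain ⟨V₀, hV₀, hV₀'⟩ := exists_V Γ hΓ hu
  rw [law_eq hπ h, hφ] at hV
  rw [hφ] at hV₀
  have h1 : InvSeries.map π V = InvSeries.map π V₀ := by
    refine InvSeries.ext_c fun n => ?_
    have e : PowerSeries.map π (multSeries G.toFG 3) = PowerSeries.map π (multSeries Γ.toFG 3) := by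
      rw [map_multSeries, map_multSeries, ← Law.map_toFG, h, Law.map_toFG]
    have := congrArg (PowerSeries.coeff (3 ^ 6 * (n + 1))) e
    rw [hV', hV₀', ← PowerSeries.expand_apply _ q_ne, ← PowerSeries.expand_apply _ q_ne,
      PowerSeries.coeff_map, PowerSeries.coeff_map, PowerSeries.coeff_expand_mul,
      PowerSeries.coeff_expand_mul] at this
    rw [InvSeries.c_map, InvSeries.c_map]
    exact this
  refine ⟨V * V₀⁻¹, by rw [map_mul, map_inv, h1, mul_inv_cancel], ?_⟩
  rw [mul_smul, inv_smul_eq_iff.2 hV₀.symm, hV]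

end Rig

open Rig in
theorem rig : RIG := by
  intro Γ hΓ C C' _ _ κ π hπ G hG g0 h0
  rcases subsingleton_or_nontrivial C with hC | hC
  · exact ⟨g0, ⟨rfl, Law.ext_ps (MvPowerSeries.ext fun _ => Subsingleton.elim _ _)⟩,
      fun g _ => InvSeries.ext_c fun _ => Subsingleton.elim _ _⟩
  have h3 : ((3 : ℕ) : C) = 0 := by rw [← map_natCast κ]; exact map_zero κ
  have : CharP C 3 := (CharP.charP_iff_prime_eq_zero (by norm_num)).2 h3
  have hl : ∀ i < 6, vv 3 i (Γ.map κ) = 0 := fun i hi => by rw [vv_map, hΓ.low i hi, map_zero]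
  have hu : IsUnit (vv 3 6 (Γ.map κ)) := by rw [vv_map]; exact hΓ.top.map κ
  have hφ : (Γ.map κ).map (iterateFrobenius C 3 6) = Γ.map κ := by
    rw [Law.map_map, RingHom.ext_zmod ((iterateFrobenius C 3 6).comp κ) κ]
  obtain ⟨g, hg, hg'⟩ := main hπ hl hu hφ (vv_smul_of_zero 3 6 G g0⁻¹ hG).1 (by
    rw [InvSeries.map_smul, ← h0, InvSeries.map_smul, map_inv, inv_smul_smul])
  have key : ∀ a b : InvSeries C, InvSeries.map π a = InvSeries.map π g0 ∧ a • Γ.map κ = G →
      InvSeries.map π b = InvSeries.map π g0 ∧ b • Γ.map κ = G → a = b := fun a b ha hb => by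
    have := aut_eq hπ hl hu (t := b⁻¹ * a) (by rw [mul_smul, ha.2, ← hb.2, inv_smul_smul])
      (by rw [map_mul, map_inv, ha.1, hb.1, inv_mul_cancel])
    exact (inv_mul_eq_one.1 this).symm
  have h1 : InvSeries.map π (g0 * g) = InvSeries.map π g0 ∧ (g0 * g) • Γ.map κ = G :=
    ⟨by rw [map_mul, hg, mul_one], by rw [mul_smul, hg', smul_inv_smul]⟩
  exact ⟨g0 * g, h1, fun a ha => key a _ ha h1⟩

open Rig in
theorem fl : FL := by
  intro Γ hΓ hn
  let P := MvPolynomial (Fin 5) (ZMod 3)
  have hP : ((3 : ℕ) : P) = 0 := by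
    rw [← map_natCast (MvPolynomial.C : ZMod 3 →+* P)]; exact map_zero _
  let S : Set ℕ := {i | i < 6}
  let u : ℕ → P := fun i => if hi : i - 1 < 5 then MvPolynomial.X ⟨i - 1, hi⟩ else 0
  have hu : ∀ i : Fin 5, u (i + 1) = MvPolynomial.X i := by
    intro i
    have : (i : ℕ) + 1 - 1 < 5 := by omega
    simp only [u, dif_pos this]
    rfl
  let G : Law P := deform hP Γ S u
  have hred : G.map MvPolynomial.constantCoeff = Γ := by
    rw [deform_map_eq_map hP Γ S u MvPolynomial.constantCoeff]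
    · rw [RingHom.ext_zmod (MvPolynomial.constantCoeff.comp (algebraMap (ZMod 3) P))
        (RingHom.id _), Law.map_id]
    · intro i hi _
      rw [hΓ.low i hi, map_zero, map_zero]
      simp only [u]
      split_ifs
      · exact MvPolynomial.constantCoeff_X _ _
      · exact map_zero _
  have hodd : InvSeries.lin (-1 : Pˣ) • G = G := by
    have := lin_smul_deform hP Γ S u (-1) hn fun i _ _ => by
      have h2 : Even (3 ^ i - 1) := Nat.Odd.sub_odd (Odd.pow (by decide)) odd_one
      rw [Units.val_neg, Units.val_one, map_neg, map_one, h2.neg_one_pow, one_mul]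
    rwa [Units.map_neg_one] at this
  have hx : ∀ n, Odd (n + 1) → xC G n = 0 := fun n hn => by
    have h1 := xC_lin_inv_smul (-1 : Pˣ) G n
    rw [inv_smul_eq_iff.2 hodd.symm, Units.val_neg, Units.val_one, hn.neg_one_pow] at h1
    have h2 : ((3 : ℕ) : P) * xC G n = 0 := by rw [hP, zero_mul]
    push_cast at h2
    linear_combination h2 - h1
  let ρ : Lam →+* P := MvPolynomial.map (Int.castRingHom (ZMod 3))
  have hρ : Function.Surjective ρ := MvPolynomial.map_surjective _ (ZMod.ringHom_surjective _)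
  classical
  let x : ℕ → Lam := fun n => if Odd (n + 1) then 0 else (hρ (xC G n)).choose
  have hxρ : ∀ n, ρ (x n) = xC G n := fun n => by
    simp only [x]
    split_ifs with h
    · rw [map_zero, hx n h]
    · exact (hρ (xC G n)).choose_spec
  have hF : (lawOfX x).map ρ = G := by
    rw [map_lawOfX, funext hxρ, lawOfX_xC]
  refine ⟨lawOfX x, ?_, fun i => ?_, ?_⟩
  · have : eps = MvPolynomial.constantCoeff.comp ρ := by
      refine MvPolynomial.ringHom_ext (fun a => ?_) fun i => ?_
      · simp [eps, ρ]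
      · simp [eps, ρ]
    rw [this, ← Law.map_map, hF, hred]
  · rw [Ideal.mem_span_singleton]
    have h1 : ρ (vv 3 (i + 1) (lawOfX x) - MvPolynomial.X i) = 0 := by
      rw [map_sub, ← vv_map, hF, vv_deform_of_mem hP Γ S u (i := (i : ℕ) + 1)
        (show (i : ℕ) + 1 < 6 by omega) (Nat.succ_ne_zero _), hu, MvPolynomial.map_X, sub_self]
    exact (MvPolynomial.C_dvd_iff_map_hom_eq_zero (Int.castRingHom (ZMod 3)) 3
      (fun r => ZMod.intCast_zmod_eq_zero_iff_dvd r 3) _).2 h1
  · have h1 : (InvSeries.lin (-1 : Lamˣ))⁻¹ • lawOfX x = lawOfX x := law_ext_xC fun n => by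
      rw [xC_lin_inv_smul, xC_lawOfX, Units.val_neg, Units.val_one]
      rcases Nat.even_or_odd (n + 1) with h | h
      · rw [h.neg_one_pow, one_mul]
      · simp only [x, if_pos h, mul_zero]
    exact (inv_smul_eq_iff.1 h1).symm

end Vale.Agent.P236Z.E
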