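import Vale.Agent.P236Z.E.Act
import Vale.Agent.P236Z.E.Gam
import Vale.Agent.P236Z.E.Ltl
import Vale.Agent.P236Z.E.Rig
import Vale.Agent.P236Z.E.Et
import Vale.Agent.P236Z.E.Cpl
import Vale.Agent.P236Z.E.Qr
import Vale.Agent.P236Z.E.Free
import Vale.Agent.P236Z.E.Cmp

/-!
# P236, block E: the algebra exists
-/

namespace Vale.Agent.P236Z.E

/-- The Lubin-Tate ring of height six with its action of the group of order nine. -/
theorem algD : Nonempty AlgD :=
  act (gam ltl) fl (et2 (et1 rig)) cpx extn qrx qr0 e0x (cmp2 free qr0 qrx qrg cmp1)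

end Vale.Agent.P236Z.E
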