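import Vale.Agent.P236Z.E.Top
import Vale.Agent.P251.X.RetMon
import Vale.Agent.P251.X.Split

/-!
# P236, block E: the Lubin-Tate spectrum as a retract
-/

open CategoryTheory MonoidalCategory Limits Pretriangulated MonObj IsLocalRing
open Vale.Agent.P251 Vale.Agent.P251.T Vale.Agent.P251.M Vale.Agent.P251.S Vale.Agent.P251.F
  Vale.Agent.P251.I Vale.Agent.P251.X Vale.Agent.P236Z.Mod

set_option linter.unusedSectionVars false

noncomputable section

namespace Vale.Agent.P236Z.E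

namespace EeH

section alg

variable {B C : Type} [CommRing B] [CommRing C]

/-- separated, `I₆` in the radical, `v₆` a unit -/
structure Gd (G : Law B) : Prop where
  haus : ∀ x : B, (∀ k, x ∈ Ih 3 6 G ^ k) → x = 0
  jac : ∀ x ∈ Ih 3 6 G, IsUnit (x + 1)
  unit : IsUnit (vv 3 6 G)

theorem Gd.smul {G : Law B} (h : Gd G) (f : InvSeries B) : Gd (f • G) := by
  have : Fact (Nat.Prime 3) := ⟨Nat.prime_three⟩
  refine ⟨by rw [Ih_smul]; exact h.haus, by rw [Ih_smul]; exact h.jac, ?_⟩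
  obtain ⟨u, hu⟩ := (show IsUnit (f.c 0) from f.isUnit).mul h.unit
  have h1 := (h.jac _ (Ideal.mul_mem_left _ (↑u⁻¹ : B) (vv_smul_sub_mem 3 6 G f))).mul u.isUnit
  rw [← hu, add_mul, mul_comm (↑u⁻¹ : B), Units.inv_mul_cancel_right, _root_.one_mul,
    sub_add_cancel] at h1
  exact isUnit_of_mul_isUnit_left h1

theorem Gd.map {G : Law B} (h : Gd G) (θ : B ≃+* C) : Gd (G.map (θ : B →+* C)) := by
  refine ⟨fun x hx => ?_, fun x hx => ?_, by rw [vv_map]; exact h.unit.map _⟩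
  · obtain ⟨y, rfl⟩ := θ.surjective x
    rw [h.haus y fun k => ?_, map_zero]
    have := hx k
    rw [Ih_map, ← Ideal.map_pow] at this
    obtain ⟨z, h1, h2⟩ := (Ideal.mem_map_iff_of_surjective (θ : B →+* C) θ.surjective).1 this
    exact θ.injective h2 ▸ h1
  · rw [Ih_map] at hx
    obtain ⟨z, h1, rfl⟩ := (Ideal.mem_map_iff_of_surjective (θ : B →+* C) θ.surjective).1 hx
    simpa using (h.jac z h1).map θ

theorem gd_of_cpl {G : Law B} (h : IsAdicComplete (Ih 3 6 G) B) (u : IsUnit (vv 3 6 G)) : Gd G :=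
  ⟨fun x hx => h.toIsHausdorff.haus x fun k => by simpa [SModEq.zero] using hx k,
    fun x hx => by
      simpa using Ideal.mem_jacobson_bot.1 (IsAdicComplete.le_jacobson_bot _ hx) 1, u⟩

theorem gd_of_cmp {G : Law B} {J : Type} {β : J → B} (h : Cmp (Laz.lift G) β) : Gd G := by
  let _ := (Laz.lift G).toAlgebra
  have e : ∀ k (x : B), x ∈ (Laz.I 3 6 ^ k • ⊤ : Submodule Laz B) ↔
      x ∈ (Ih 3 6 G ^ k • ⊤ : Submodule B B) := fun k x => by
    rw [Ideal.smul_top_eq_map, Submodule.restrictScalars_mem, Ideal.map_pow, smul_eq_mul,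
      Ideal.mul_top, show algebraMap Laz B = Laz.lift G from rfl, Laz.I_map, Laz.univ_map_lift]
  refine gd_of_cpl { haus' := fun x hx => h.haus x fun k => (e k x).2 (SModEq.zero.1 (hx k))
                     prec' := fun f hf => ?_ } ?_
  · obtain ⟨l, hl⟩ := h.complete f fun k => (e k _).2 (SModEq.sub_mem.1 (hf k.le_succ).symm)
    exact ⟨l, fun k => (SModEq.sub_mem.2 ((e k _).1 (hl k))).symm⟩
  · obtain ⟨x, hx⟩ := h.surj 1
    exact .of_mul_eq_one x (by rw [← Laz.lift_v]; exact hx)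

theorem gd_R (a : AlgD) : Gd a.F := by
  have e : Ih 3 6 a.F = maximalIdeal a.R := by
    rw [← a.lt.gen, Ih, IF]
    exact congrArg _ (Set.ext fun x => exists_congr fun i => and_congr_right fun _ => eq_comm)
  refine gd_of_cpl (e ▸ a.base.cpl) (notMem_maximalIdeal.1 fun k => a.ht.top.ne_zero ?_)
  rw [vv_map]
  exact (RingHom.mem_ker).1 (a.ker ▸ k)

theorem map_r (a : AlgD) (χ : a.R →+* C) :
    (a.g • a.F.map a.inc).map (χ.comp a.r) = a.F.map χ := by
  rw [InvSeries.map_smul, ← InvSeries.map_map, a.r_g, map_one, one_smul, Law.map_map]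
  exact congrArg (fun φ => a.F.map φ) (RingHom.ext fun x => congrArg χ (a.r_inc x))

theorem map_neg (φ : B →+* C) : InvSeries.map φ (neg B) = neg C := by
  rw [InvSeries.map_lin]
  exact congrArg _ (Units.ext (by simp))

end alg

variable {T : Type 1} [Category.{0} T] [Preadditive T] [HasZeroObject T]
    [HasShift T ℤ] [∀ n : ℤ, (shiftFunctor T n).Additive] [Pretriangulated T] [IsTriangulated T]
    [MonoidalCategory T] [SymmetricCategory T] [TensorTriangulated T] [MonoidalClosed T]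
    [HasCoproducts.{0} T] [HasProducts.{0} T] [StableCat T] {D : MUData T}

section gen

variable {N N' N'' : T} [MonObj N] [IsCommMonObj N] [MonObj N'] [IsCommMonObj N'] [MonObj N'']
  [IsCommMonObj N'']

theorem sc_comp (f : N ⟶ N') [IsMonHom f] (g : N' ⟶ N'') [IsMonHom g] (x : Sc N) :
    Sc.map (f ≫ g) x = Sc.map g (Sc.map f x) := (Category.assoc _ _ _).symm

theorem sc_congr {f g : N ⟶ N'} [IsMonHom f] [IsMonHom g] (h : f = g) (x : Sc N) :
    Sc.map f x = Sc.map g x := by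
  subst h
  rfl

theorem law_comp (q : D.P ⟶ N) [IsMonHom q] (f : N ⟶ N') [IsMonHom f] :
    lawP (q ≫ f) = (lawP q).map (Sc.map f) := by
  rw [lawP, lawP, Law.map_map]
  exact congrArg (fun φ => Laz.univ.map φ) (RingHom.ext fun x => sc_comp q f _)

theorem Gd.sep {q : D.P ⟶ N} [IsMonHom q] (h : Gd (lawP q)) : SepQ q :=
  ⟨h.haus, fun _ => h.unit.mul_right_eq_zero.1⟩

theorem gens_comp (q : D.P ⟶ N) (f : N ⟶ N') [IsMonHom f] {J : Type} (b : J → Sc N) :
    gens q b ≫ f = gens (q ≫ f) fun j => Sc.map f (b j) := by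
  rw [gens, gens, Category.assoc, IsMonHom.mul_hom, ← Category.assoc, tensorHom_comp_tensorHom]
  congr 2
  exact Sigma.hom_ext _ _ fun j => by rw [Sigma.ι_desc_assoc, Sigma.ι_desc]; rfl

theorem ser_congr (O : OriApi D) (q : D.P ⟶ N) [IsMonHom q] {q' q'' : D.P ⟶ N} [IsMonHom q']
    [IsMonHom q''] (h : q' = q'') : O.ser q q' = O.ser q q'' := by
  subst h
  rfl

end gen

variable {Dk : Kos D} (O : OriApi D) {a : AlgD}

include O in
/-- the splitting of the idempotent -/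
theorem core (Y : YD Dk (a.g • a.F.map a.inc)) : ∃ (E : T) (_ : MonObj E) (_ : IsCommMonObj E)
    (q : D.P ⟶ E) (_ : IsMonHom q) (θ : a.R ≃+* Sc E), lawP q = a.F.map (θ : a.R →+* Sc E) ∧
    IsLocal Dk.K E ∧ Odd0 E ∧ Gens Dk q ∧
    (∀ (q' : D.P ⟶ E) [IsMonHom q'] (χ : a.R →+* Sc E), SepQ q' → a.F.map χ = lawP q' →
      ∃ (f : E ⟶ E) (_ : IsMonHom f), q ≫ f = q' ∧ ∀ x, Sc.map f (θ x) = χ x) ∧
    ∀ (f f' : E ⟶ E) [IsMonHom f] [IsMonHom f'], q ≫ f = q ≫ f' →
      (∀ x, Sc.map f (θ x) = Sc.map f' (θ x)) → f = f' := by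
  obtain ⟨q₁, _, h1⟩ := O.surj Y.p (InvSeries.map (Y.θ : a.B →+* Sc Y.Y) a.g)⁻¹
  have h2 : lawP q₁ = a.F.map ((Y.θ : a.B →+* Sc Y.Y).comp a.inc) := by
    rw [← O.smul Y.p q₁, h1, Y.law, InvSeries.map_smul, inv_smul_smul, Law.map_map]
  obtain ⟨e, _, e1, e2⟩ := Y.desc Y.Y Y.loc q₁ (Gd.sep (by
    rw [← O.smul Y.p q₁, Y.law]
    exact ((gd_of_cmp a.cmp).map Y.θ).smul _)) _ ((map_r a _).trans h2.symm)
  have h3 : ∀ (N : T) [MonObj N] [IsCommMonObj N], IsLocal Dk.K N → ∀ (φ : Y.Y ⟶ N) [IsMonHom φ]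
      (χ : a.R →+* Sc N), (∀ x, Sc.map φ (Y.θ x) = χ.comp a.r x) → e ≫ φ = φ := by
    intro N _ _ hN φ _ χ h
    refine Y.uniq N hN _ _ ?_ fun x => ?_
    · rw [← Category.assoc, e1]
      refine O.inj (Y.p ≫ φ) _ _ ?_
      rw [O.comp, O.self, h1, map_inv, InvSeries.map_map,
        show (Sc.map φ).comp (Y.θ : a.B →+* Sc Y.Y) = χ.comp a.r from RingHom.ext h,
        ← InvSeries.map_map, a.r_g, map_one, inv_one]
    · rw [sc_comp, e2, h]
      exact (h _).trans (congrArg χ (a.r_inc _))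
  obtain ⟨E, s, t, hst, hts⟩ := exists_split e (h3 _ Y.loc e _ e2)
  have hR : IsRetMon s t := ⟨hst, by rw [hts]; infer_instance⟩
  let _ : MonObj E := hR.monObj
  have _ : IsCommMonObj E := hR.isCommMonObj
  have _ : IsMonHom s := hR.isMonHom_s
  have _ : IsMonHom t := hR.isMonHom_r
  have h4 : ∀ x, Sc.map s (Sc.map t (Y.θ x)) = Y.θ (a.inc (a.r x)) := fun x =>
    (sc_comp t s _).symm.trans ((sc_congr hts _).trans (e2 x))
  have h5 : ∀ y : Sc E, Sc.map t (Sc.map s y) = y := fun y =>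
    (sc_comp s t _).symm.trans ((sc_congr hst _).trans (Category.comp_id _))
  have h6 : ∀ x, Sc.map t (Y.θ (a.inc (a.r x))) = Sc.map t (Y.θ x) := fun x => by rw [← h4, h5]
  let θ : a.R ≃+* Sc E := RingEquiv.ofBijective
    ((Sc.map t).comp ((Y.θ : a.B →+* Sc Y.Y).comp a.inc)) ⟨fun x y h => by
      have := congrArg a.r (Y.θ.injective ((h4 _).symm.trans ((congrArg (Sc.map s) h).trans (h4 _))))
      simpa only [a.r_inc] using this, fun y => ⟨a.r (Y.θ.symm (Sc.map s y)),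
        (h6 _).trans (by rw [RingEquiv.apply_symm_apply, h5])⟩⟩
  have h7 : IsLocal Dk.K E := fun W hW f => hR.cancel (by rw [Y.loc hW (f ≫ s), zero_comp])
  refine ⟨E, inferInstance, inferInstance, Y.p ≫ t, inferInstance, θ, ?_, h7,
    fun l f => hR.cancel (by rw [Y.odd l (f ≫ s), zero_comp]), ?_, fun q' _ χ k1 k2 => ?_,
    fun f f' _ _ k1 k2 => ?_⟩
  · rw [law_comp, Y.law, Law.map_map, ← map_r a (θ : a.R →+* Sc E)]
    exact congrArg (fun φ => Law.map φ _) (RingHom.ext fun x => (h6 x).symm)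
  · obtain ⟨J, b, Z, m, π, σ, k1, k2, k3⟩ := Y.gens
    exact ⟨J, _, Z, m, π ≫ t, s ≫ σ, k1, by rw [Category.assoc, reassoc_of% k2, hst],
      by rw [reassoc_of% k3, gens_comp]⟩
  · obtain ⟨φ, _, k3, k4⟩ := Y.desc E h7 q' k1 _ ((map_r a χ).trans k2)
    have k5 : t ≫ s ≫ φ = φ := by rw [reassoc_of% hts, h3 E h7 φ χ k4]
    refine ⟨s ≫ φ, inferInstance, by rw [Category.assoc, k5, k3], fun x => ?_⟩
    exact (sc_comp t _ _).symm.trans ((sc_congr k5 _).trans
      ((k4 _).trans (congrArg χ (a.r_inc x))))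
  · have k3 : t ≫ f = t ≫ f' := Y.uniq E h7 _ _ (by simpa only [Category.assoc] using k1)
      fun x => by rw [sc_comp, sc_comp, ← h6]; exact k2 _
    rw [← Category.id_comp f, ← Category.id_comp f', ← hst, Category.assoc, k3, Category.assoc]

variable {E : T} [MonObj E] [IsCommMonObj E] (q : D.P ⟶ E) [IsMonHom q] (θ : a.R ≃+* Sc E)

/-- `f` realises the pair `(h, γ)` -/
structure Has (f : E ⟶ E) [IsMonHom f] (h : InvSeries a.R) (γ : a.R ≃+* a.R) : Prop where
  ser : O.ser q (q ≫ f) = InvSeries.map (θ : a.R →+* Sc E) h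
  act : ∀ x, Sc.map f (θ x) = θ (γ x)

variable {O q θ} {f f' : E ⟶ E} [IsMonHom f] [IsMonHom f'] {h h' : InvSeries a.R}
  {γ γ' : a.R ≃+* a.R}

theorem Has.comp (k : Has O q θ f h γ) (k' : Has O q θ f' h' γ') :
    Has O q θ (f ≫ f') (InvSeries.map (γ' : a.R →+* a.R) h * h') (γ.trans γ') := by
  refine ⟨?_, fun x => by rw [sc_comp, k.act, k'.act]; rfl⟩
  rw [ser_congr O q (Category.assoc _ _ _).symm, ← O.trans q (q ≫ f'), O.comp, k.ser, k'.ser,
    map_mul, InvSeries.map_map, InvSeries.map_map]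
  exact congrArg (fun φ => InvSeries.map φ h * _) (RingHom.ext k'.act)

theorem Has.cube (k : Has O q θ f h γ) :
    Has O q θ (f ≫ f ≫ f) (Tate.ser3 γ h) (γ.trans (γ.trans γ)) := by
  have := k.comp (k.comp k)
  rw [Tate.ser3, _root_.mul_assoc, InvSeries.map_map]
  exact this

theorem has_id : Has O q θ (𝟙 E) 1 (RingEquiv.refl _) :=
  ⟨by rw [ser_congr O q (Category.comp_id q), O.self, map_one], fun _ => Category.comp_id _⟩

end EeH

open EeH

variable {T : Type 1} [Category.{0} T] [Preadditive T] [HasZeroObject T]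
    [HasShift T ℤ] [∀ n : ℤ, (shiftFunctor T n).Additive] [Pretriangulated T] [IsTriangulated T]
    [MonoidalCategory T] [SymmetricCategory T] [TensorTriangulated T] [MonoidalClosed T]
    [HasCoproducts.{0} T] [HasProducts.{0} T] [StableCat T] (D : MUData T)

/-- **EE** -/
theorem ee : EE D := by
  intro Dk O a Y
  obtain ⟨E, _, _, q, _, θ, h1, h2, h3, h4, h5, h6⟩ := core O Y
  have ex : ∀ (h : InvSeries a.R) (γ : a.R ≃+* a.R), h • a.F = a.F.map (γ : a.R →+* a.R) →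
      ∃ (f : E ⟶ E) (_ : IsMonHom f), Has O q θ f h γ := fun h γ k => by
    obtain ⟨q', _, k1⟩ := O.surj q (InvSeries.map (θ : a.R →+* Sc E) h)
    obtain ⟨f, _, rfl, k2⟩ := h5 q' ((θ : a.R →+* Sc E).comp (γ : a.R →+* a.R)) (Gd.sep (by
      rw [← O.smul q q', h1]
      exact ((gd_R a).map θ).smul _)) (by
        rw [← O.smul q q', k1, h1, ← InvSeries.map_smul, k, Law.map_map])
    exact ⟨f, inferInstance, k1, k2⟩
  have un : ∀ {f f' : E ⟶ E} [IsMonHom f] [IsMonHom f'] {h h' : InvSeries a.R}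
      {γ γ' : a.R ≃+* a.R}, Has O q θ f h γ → Has O q θ f' h' γ' → h = h' → (∀ x, γ x = γ' x) →
      f = f' := fun k k' e e' => h6 _ _ (O.inj q _ _ (by rw [k.ser, k'.ser, e]))
        fun x => by rw [k.act, k'.act, e']
  obtain ⟨ρ, _, r⟩ := ex a.f a.γ a.lt.act
  obtain ⟨sg, _, s⟩ := ex (neg a.R) (RingEquiv.refl _) (a.odd.trans (Law.map_id _).symm)
  exact ⟨{
    E := E, q := q, θ := θ, law := h1, loc := h2, odd := h3, gens := h4, ρ := ρ, sg := sg
    ρ_θ := r.act, ρ_ser := r.ser, sg_θ := s.act, sg_ser := s.ser.trans (map_neg _)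
    ρ9 := un r.cube.cube has_id a.lt.ordf fun x => by simpa [pow_succ] using a.lt.ord x
    ρ3_ser := r.cube.ser
    ρ_sg := un (r.comp s) (s.comp r) (by
      rw [EeH.map_neg, ← a.comm]
      exact congrArg (· * _) (InvSeries.map_id _)) fun _ => rfl
    sg_sg := un (s.comp s) has_id (by rw [EeH.map_neg, ← map_mul]; simp) fun _ => rfl }⟩

end Vale.Agent.P236Z.E
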