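import Vale.Agent.P236Z.E.Top
import Vale.Agent.P251.H.BLoc

/-!
# P236, block E: the free local commutative `P`-algebra on a commutative monoid
-/

open CategoryTheory MonoidalCategory Limits Pretriangulated MonObj
open Vale.Agent.P251 Vale.Agent.P251.T Vale.Agent.P251.M Vale.Agent.P251.S Vale.Agent.P251.F
  Vale.Agent.P251.I Vale.Agent.P251.X Vale.Agent.P236Z.Mod

set_option linter.unusedSectionVars false

noncomputable section

universe v u

namespace Vale.Agent.P236Z.E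

namespace Fz

section Push

variable {C : Type u} [Category.{v} C] [MonoidalCategory C] [SymmetricCategory C]

/-- A multiplication compatible with a map `u` out of a monoid, `u` being cancellable. -/
structure Push {A Z : C} [MonObj A] (u : A ⟶ Z) where
  /-- the multiplication -/
  mul : Z ⊗ Z ⟶ Z
  hmul : (u ⊗ₘ u) ≫ mul = μ[A] ≫ u
  c1 : ∀ g h : 𝟙_ C ⊗ Z ⟶ Z, (𝟙_ C ◁ u) ≫ g = (𝟙_ C ◁ u) ≫ h → g = h
  c2 : ∀ g h : Z ⊗ 𝟙_ C ⟶ Z, (u ▷ 𝟙_ C) ≫ g = (u ▷ 𝟙_ C) ≫ h → g = h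
  c3 : ∀ g h : Z ⊗ Z ⟶ Z, (u ⊗ₘ u) ≫ g = (u ⊗ₘ u) ≫ h → g = h
  c4 : ∀ g h : (Z ⊗ Z) ⊗ Z ⟶ Z, ((u ⊗ₘ u) ⊗ₘ u) ≫ g = ((u ⊗ₘ u) ⊗ₘ u) ≫ h → g = h

variable {A Z : C} [MonObj A] {u : A ⟶ Z}

lemma Push.one_mul (P : Push u) : ((η[A] ≫ u) ▷ Z) ≫ P.mul = (λ_ Z).hom := by
  apply P.c1
  have h : (𝟙_ C ◁ u) ≫ ((η[A] ≫ u) ▷ Z) = (η[A] ▷ A) ≫ (u ⊗ₘ u) := by
    rw [← MonoidalCategory.tensorHom_def', ← tensorHom_id, tensorHom_comp_tensorHom,
      Category.id_comp]
  rw [reassoc_of% h, P.hmul, MonObj.one_mul_assoc, leftUnitor_naturality]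

lemma Push.mul_one (P : Push u) : (Z ◁ (η[A] ≫ u)) ≫ P.mul = (ρ_ Z).hom := by
  apply P.c2
  have h : (u ▷ 𝟙_ C) ≫ (Z ◁ (η[A] ≫ u)) = (A ◁ η[A]) ≫ (u ⊗ₘ u) := by
    rw [← MonoidalCategory.tensorHom_def, ← id_tensorHom, tensorHom_comp_tensorHom,
      Category.id_comp]
  rw [reassoc_of% h, P.hmul, MonObj.mul_one_assoc, rightUnitor_naturality]

lemma Push.mul_assoc (P : Push u) :
    (P.mul ▷ Z) ≫ P.mul = (α_ Z Z Z).hom ≫ (Z ◁ P.mul) ≫ P.mul := by
  apply P.c4
  have h1 : ((u ⊗ₘ u) ⊗ₘ u) ≫ (P.mul ▷ Z) = (μ[A] ▷ A) ≫ (u ⊗ₘ u) := by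
    rw [← tensorHom_id, ← tensorHom_id, tensorHom_comp_tensorHom, tensorHom_comp_tensorHom,
      P.hmul, Category.comp_id, Category.id_comp]
  have h2 : (u ⊗ₘ (u ⊗ₘ u)) ≫ (Z ◁ P.mul) = (A ◁ μ[A]) ≫ (u ⊗ₘ u) := by
    rw [← id_tensorHom, ← id_tensorHom, tensorHom_comp_tensorHom, tensorHom_comp_tensorHom,
      P.hmul, Category.comp_id, Category.id_comp]
  rw [reassoc_of% h1, associator_naturality_assoc, reassoc_of% h2, P.hmul,
    MonObj.mul_assoc_assoc]

/-- the monoid structure -/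
@[instance_reducible] def Push.mon (P : Push u) : MonObj Z where
  one := η[A] ≫ u
  mul := P.mul
  one_mul := P.one_mul
  mul_one := P.mul_one
  mul_assoc := P.mul_assoc

theorem Push.exists_mon [IsCommMonObj A] (P : Push u) :
    ∃ (_ : MonObj Z) (_ : IsCommMonObj Z), IsMonHom u := by
  letI := P.mon
  have hc : (β_ Z Z).hom ≫ P.mul = P.mul := by
    apply P.c3
    rw [BraidedCategory.braiding_naturality_assoc, P.hmul, IsCommMonObj.mul_comm_assoc]
  exact ⟨P.mon, ⟨hc⟩, ⟨rfl, P.hmul.symm⟩⟩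

theorem isMonHom_of_comp [MonObj Z] [IsMonHom u] {N : C} [MonObj N] (f : Z ⟶ N) (g : A ⟶ N)
    [IsMonHom g] (hg : u ≫ f = g)
    (c : ∀ g h : Z ⊗ Z ⟶ N, (u ⊗ₘ u) ≫ g = (u ⊗ₘ u) ≫ h → g = h) : IsMonHom f where
  one_hom := by rw [← IsMonHom.one_hom u, Category.assoc, hg, IsMonHom.one_hom]
  mul_hom := by
    apply c
    rw [← IsMonHom.mul_hom_assoc, hg, IsMonHom.mul_hom, tensorHom_comp_tensorHom_assoc, hg]

@[reassoc]
lemma descM_comp {X Y N N' : C} [MonObj N] [MonObj N'] (p : X ⟶ N) (g : Y ⟶ N) (f : N ⟶ N')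
    [IsMonHom f] : descM p g ≫ f = descM (p ≫ f) (g ≫ f) := by
  rw [descM, descM, Category.assoc, IsMonHom.mul_hom, tensorHom_comp_tensorHom_assoc]

end Push

section Free

variable (C : Type u) [Category.{v} C] [MonoidalCategory C] [SymmetricCategory C]
  [MonoidalClosed C] [HasCoproducts.{0} C] (B : Type)

/-- the sum of units -/
def SB : C := ∐ (fun _ : B => 𝟙_ C)

variable {B}

/-- the summands -/
def inS (x : B) : 𝟙_ C ⟶ SB C B := Sigma.ι (fun _ : B => 𝟙_ C) x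

variable {C}

/-- maps out of the sum -/
def descS {N : C} (c : B → (𝟙_ C ⟶ N)) : SB C B ⟶ N := Sigma.desc c

@[reassoc]
lemma inS_descS {N : C} (c : B → (𝟙_ C ⟶ N)) (x : B) : inS C x ≫ descS c = c x :=
  Sigma.ι_desc _ _

lemma jEpi_inS : JEpi (inS C : B → _) := fun _ _ _ h => Sigma.hom_ext _ _ h

lemma descS_comp {N N' : C} (c : B → (𝟙_ C ⟶ N)) (f : N ⟶ N') :
    descS c ≫ f = descS fun x => c x ≫ f :=
  jEpi_inS _ _ fun x => by rw [inS_descS_assoc, inS_descS]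

lemma descS_inS {N : C} (f : SB C B ⟶ N) : (descS fun x => inS C x ≫ f) = f :=
  jEpi_inS _ _ fun x => by rw [inS_descS]

variable [CommMonoid B]

variable (C B) in
/-- the multiplication -/
def mulS : SB C B ⊗ SB C B ⟶ SB C B :=
  desc2 fun x y : B => (λ_ (𝟙_ C)).hom ≫ inS C (x * y)

@[reassoc]
lemma in_mulS (x y : B) :
    (inS C x ⊗ₘ inS C y) ≫ mulS C B = (λ_ (𝟙_ C)).hom ≫ inS C (x * y) :=
  ι_desc2 _ x y

instance : MonObj (SB C B) where
  one := inS C 1
  mul := mulS C B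
  one_mul := by
    refine jEpi_inS.whiskerLeft (𝟙_ C) _ _ fun y => ?_
    rw [← MonoidalCategory.tensorHom_def'_assoc, in_mulS, _root_.one_mul, leftUnitor_naturality]
  mul_one := by
    refine jEpi_inS.whiskerRight (𝟙_ C) _ _ fun y => ?_
    rw [← MonoidalCategory.tensorHom_def_assoc, in_mulS, _root_.mul_one, rightUnitor_naturality,
      unitors_equal]
  mul_assoc := by
    refine (jEpi_inS.tensor jEpi_inS).tensor jEpi_inS _ _ fun i => ?_
    obtain ⟨⟨x, y⟩, z⟩ := i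
    dsimp only
    have h1 : ((inS C x ⊗ₘ inS C y) ⊗ₘ inS C z) ≫ (mulS C B ▷ SB C B) =
        ((λ_ (𝟙_ C)).hom ▷ 𝟙_ C) ≫ (inS C (x * y) ⊗ₘ inS C z) := by
      rw [← tensorHom_id, ← tensorHom_id, tensorHom_comp_tensorHom, tensorHom_comp_tensorHom,
        in_mulS, Category.comp_id, Category.id_comp]
    have h2 : (inS C x ⊗ₘ (inS C y ⊗ₘ inS C z)) ≫ (SB C B ◁ mulS C B) =
        (𝟙_ C ◁ (λ_ (𝟙_ C)).hom) ≫ (inS C x ⊗ₘ inS C (y * z)) := by
      rw [← id_tensorHom, ← id_tensorHom, tensorHom_comp_tensorHom, tensorHom_comp_tensorHom,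
        in_mulS, Category.comp_id, Category.id_comp]
    rw [reassoc_of% h1, associator_naturality_assoc, reassoc_of% h2, in_mulS, in_mulS,
      _root_.mul_assoc, triangle_assoc, ← unitors_equal]

lemma SB_one : η[SB C B] = inS C 1 := rfl

@[reassoc]
lemma in_mul (x y : B) :
    (inS C x ⊗ₘ inS C y) ≫ μ[SB C B] = (λ_ (𝟙_ C)).hom ≫ inS C (x * y) := in_mulS x y

instance : IsCommMonObj (SB C B) where
  mul_comm := by
    refine jEpi_inS.tensor jEpi_inS _ _ fun i => ?_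
    obtain ⟨x, y⟩ := i
    dsimp only
    rw [BraidedCategory.braiding_naturality_assoc, in_mul, in_mul, braiding_leftUnitor_assoc,
      _root_.mul_comm, unitors_equal]

lemma tensor_mul_eq {N : C} [MonObj N] (a b : 𝟙_ C ⟶ N) :
    (a ⊗ₘ b) ≫ μ[N] = (λ_ (𝟙_ C)).hom ≫ scMul a b := by
  rw [scMul, Iso.hom_inv_id_assoc]

lemma scMul_inS (x y : B) : scMul (inS C x) (inS C y) = inS C (x * y) := by
  rw [scMul, in_mul, Iso.inv_hom_id_assoc]

lemma isMonHom_descS {N : C} [MonObj N] (c : B → (𝟙_ C ⟶ N)) (h1 : c 1 = η[N])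
    (h2 : ∀ x y, c (x * y) = scMul (c x) (c y)) : IsMonHom (descS c) where
  one_hom := by rw [SB_one, inS_descS, h1]
  mul_hom := by
    refine jEpi_inS.tensor jEpi_inS _ _ fun i => ?_
    obtain ⟨x, y⟩ := i
    dsimp only
    rw [in_mul_assoc, inS_descS, tensorHom_comp_tensorHom_assoc, inS_descS, inS_descS,
      tensor_mul_eq, h2]

end Free

end Fz

open Fz

section T0

variable {T : Type 1} [Category.{0} T] [Preadditive T] [HasZeroObject T]
    [HasShift T ℤ] [∀ n : ℤ, (shiftFunctor T n).Additive] [Pretriangulated T] [IsTriangulated T]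
    [MonoidalCategory T] [SymmetricCategory T] [TensorTriangulated T] [MonoidalClosed T]
    [HasCoproducts.{0} T] [HasProducts.{0} T] [StableCat T] {D : MUData T}

lemma Fz.keq_tensor {K X X' Y Y' : T} {f : X ⟶ X'} {g : Y ⟶ Y'} (hf : KEq K f) (hg : KEq K g) :
    KEq K (f ⊗ₘ g) := by
  rw [MonoidalCategory.tensorHom_def]
  exact (hf.whiskerRight Y).comp (hg.whiskerLeft X')

lemma gens_eq {N : T} [MonObj N] [IsCommMonObj N] (q : D.P ⟶ N) {J : Type} (b : J → Sc N) :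
    gens q b = (descM q (descS fun j => (b j).hom) : D.P ⊗ SB T J ⟶ N) := rfl

lemma gens_comp {N N' : T} [MonObj N] [IsCommMonObj N] [MonObj N'] [IsCommMonObj N']
    (q : D.P ⟶ N) {J : Type} (b : J → Sc N) (f : N ⟶ N') [IsMonHom f] :
    gens q b ≫ f = gens (q ≫ f) (fun j => Sc.map f (b j)) := by
  have h := descM_comp q (descS fun j => (b j).hom) f
  rw [descS_comp] at h
  exact h

variable (D) in
/-- **The free local algebra.** -/
theorem fz : FZ D := by
  intro Dk B _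
  obtain ⟨L⟩ := H.nonempty_bLoc_of_stableCat Dk.K (D.P ⊗ SB T B)
  have hu : KEq Dk.K L.toLoc := L.isIso
  have hL := L.isLocal
  let P : Push L.toLoc :=
    { mul := (keq_tensor hu hu).ext hL (μ[D.P ⊗ SB T B] ≫ L.toLoc)
      hmul := KEq.comp_ext _ _ _
      c1 := fun _ _ h => (hu.whiskerLeft _).hom_ext hL h
      c2 := fun _ _ h => (hu.whiskerRight _).hom_ext hL h
      c3 := fun _ _ h => (keq_tensor hu hu).hom_ext hL h
      c4 := fun _ _ h => (keq_tensor (keq_tensor hu hu) hu).hom_ext hL h }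
  obtain ⟨mZ, cZ, hZ⟩ := P.exists_mon
  let r : SB T B ⟶ L.obj := inrM D.P (SB T B) ≫ L.toLoc
  have hr : IsMonHom r := inferInstanceAs (IsMonHom (inrM D.P (SB T B) ≫ L.toLoc))
  let b : B →* Sc L.obj :=
    { toFun := fun x => Sc.of (inS T x ≫ r)
      map_one' := IsMonHom.one_hom r
      map_mul' := fun x y => by
        have h := scMul_comp r (inS T x) (inS T y)
        rw [scMul_inS] at h
        exact h }
  have hg : gens (inlM D.P (SB T B) ≫ L.toLoc) b = L.toLoc := by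
    have h := eq_descM L.toLoc
    have h2 : (descS fun x => (b x).hom) = r := descS_inS r
    rw [gens_eq, h2]
    exact h.symm
  refine ⟨{ Z := L.obj
            p := inlM D.P (SB T B) ≫ L.toLoc
            b := b
            loc := hL
            keq := by rw [hg]; exact hu
            desc := fun N _ _ hN q _ χ => ?_ }⟩
  have hχ : IsMonHom (descS fun x => (χ x).hom) :=
    isMonHom_descS _ (map_one χ) fun x y => map_mul χ x y
  have hf := hu.comp_ext hN (descM q (descS fun x => (χ x).hom))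
  have hm : IsMonHom (hu.ext hN (descM q (descS fun x => (χ x).hom))) :=
    isMonHom_of_comp _ _ hf fun _ _ h => (keq_tensor hu hu).hom_ext hN h
  refine ⟨_, hm, ?_, fun x => ?_⟩
  · rw [Category.assoc, hf, inlM_descM]
  · have h : (inS T x ≫ inrM D.P (SB T B) ≫ L.toLoc) ≫
        hu.ext hN (descM q (descS fun x => (χ x).hom)) = (χ x).hom := by
      rw [Category.assoc, Category.assoc, hf, inrM_descM, inS_descS]
    exact h

end T0

end Vale.Agent.P236Z.E
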