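import Vale.Agent.P236Z.E.Top
import Vale.Agent.P236Z.Mod.Gen
import Vale.Agent.P261Z.T3.KRev
import Vale.Agent.P251.Z.KMU

/-!
# P236, block E: `K`-locality, and generators of the homotopy of `A ⊗ E`
-/

open CategoryTheory MonoidalCategory Limits Pretriangulated MonObj
open Vale.Agent.P251 Vale.Agent.P251.T Vale.Agent.P251.M Vale.Agent.P251.S Vale.Agent.P251.F
  Vale.Agent.P251.I Vale.Agent.P251.X Vale.Agent.P236Z.Mod

set_option linter.unusedSectionVars false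

noncomputable section

namespace Vale.Agent.P236Z.E

section T0

variable {T : Type 1} [Category.{0} T] [Preadditive T] [HasZeroObject T]
    [HasShift T ℤ] [∀ n : ℤ, (shiftFunctor T n).Additive] [Pretriangulated T] [IsTriangulated T]
    [MonoidalCategory T] [SymmetricCategory T] [TensorTriangulated T] [MonoidalClosed T]
    [HasCoproducts.{0} T] [HasProducts.{0} T] [StableCat T] (D : MUData T)

namespace Gene

open Vale.Agent.P251.M.EvenSpheres Vale.Agent.P261Z.T3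

section unit

variable {V : EvenSpheres T} {K : T} [MonObj K]

theorem cmp_mul_of {m : ℤ} (b : V.S m ⟶ K) (y : HRing V K) :
    cmpM V K 0 (y * HRing.of V K m b) = (cmpM V K (-m) y : HRing V K) * HRing.of V K m b := by
  induction y using DirectSum.induction_on with
  | zero => rw [zero_mul, map_zero, map_zero, zero_mul]
  | of k a =>
    by_cases h : k = -m
    · subst h
      rw [cmpM_same, of_mul_of (neg_add_cancel m), cmpM_same]
    · rw [cmpM_ne _ _ h, zero_mul, of_mul_of (p := k + m) rfl, cmpM_ne _ _ (by omega)]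
  | add x y hx hy => rw [_root_.add_mul, map_add, map_add, hx, hy, _root_.add_mul]

theorem exists_inv {m : ℤ} (b : V.S m ⟶ K) (h : IsUnit (HRing.of V K m b)) :
    ∃ a : V.S (-m) ⟶ K, gmul (neg_add_cancel m) a b = V.zero.inv ≫ η[K] := by
  obtain ⟨y, hy⟩ := h.exists_left_inv
  obtain ⟨a, ha⟩ := cmpM_eq (E := V) (-m) y
  refine ⟨a, ?_⟩
  have h1 := cmp_mul_of b y
  rw [hy, ha, of_mul_of (neg_add_cancel m), ← of_one, cmpM_same] at h1
  exact (DirectSum.of_injective (β := V.Gr K) 0 h1).symm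

theorem act_act {k l : ℤ} (h : k + l = 0) (x : V.S k ⟶ K) (y : V.S l ⟶ K)
    (hxy : gmul h x y = V.zero.inv ≫ η[K]) :
    IsIso (V.S k ◁ (y ▷ K ≫ μ[K]) ≫ x ▷ K ≫ μ[K]) := by
  have h1 : (x ⊗ₘ y) ≫ μ[K] = ((V.mu k l 0 h).hom ≫ V.zero.inv) ≫ η[K] := by
    rw [Category.assoc, ← hxy, gmul, EvenSpheres.ext, Category.assoc, Iso.hom_inv_id_assoc]
  have h2 : V.S k ◁ (y ▷ K ≫ μ[K]) ≫ x ▷ K ≫ μ[K] =
      (α_ _ _ _).inv ≫ ((x ⊗ₘ y) ≫ μ[K]) ▷ K ≫ μ[K] := by
    rw [MonoidalCategory.whiskerLeft_comp, Category.assoc, whisker_exchange_assoc,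
      MonObj.mul_assoc_flip, associator_inv_naturality_left_assoc,
      associator_inv_naturality_middle_assoc, tensorHom_def', comp_whiskerRight, comp_whiskerRight,
      Category.assoc, Category.assoc]
  rw [h2, h1, comp_whiskerRight, Category.assoc, MonObj.one_mul]
  infer_instance

/-- the multiplication by a homogeneous unit is an isomorphism -/
theorem isIso_act [IsCommMonObj K] {m : ℤ} (b : V.S m ⟶ K) (h : IsUnit (HRing.of V K m b)) :
    IsIso (b ▷ K ≫ μ[K]) := by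
  obtain ⟨a, ha⟩ := exists_inv b h
  have h1 := act_act _ a b ha
  have h2 := act_act (add_neg_cancel m) b a ((gmul_comm _ _ b a).trans ha)
  have h3 : IsSplitEpi (b ▷ K ≫ μ[K]) :=
    ⟨⟨⟨inv (V.S m ◁ (a ▷ K ≫ μ[K]) ≫ b ▷ K ≫ μ[K]) ≫ V.S m ◁ (a ▷ K ≫ μ[K]), by
      rw [Category.assoc, IsIso.inv_hom_id]⟩⟩⟩
  have h4 : Mono (b ▷ K ≫ μ[K]) := ⟨fun x y hxy => by
    refine whiskerLeft_inj (V.S (-m)) ?_
    rw [← cancel_mono (V.S (-m) ◁ (b ▷ K ≫ μ[K]) ≫ a ▷ K ≫ μ[K]),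
      ← MonoidalCategory.whiskerLeft_comp_assoc, hxy, MonoidalCategory.whiskerLeft_comp_assoc]⟩
  exact isIso_of_mono_of_isSplitEpi _

end unit

variable {D}

theorem vv_lawOf {K : T} [MonObj K] [IsCommMonObj K] (φ : D.R ⟶ K) [IsMonHom φ] (p i : ℕ) :
    vv p i (lawOf φ) = HRing.of (stdEven T) K ((p ^ i : ℤ) - 1) (D.vel p i ≫ φ) := by
  rw [lawOf, vv_map, D.vel_spec, HRing.map_of]

/-- the ring spectrum `K(n)` as a module over `MU` -/
theorem kMod {p n : ℕ} (K : KD D p n) : KMod D p n ((ModStr.self K.K).restr K.φ) η[K.K] := by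
  have key : ∀ i, D.vel p i ▷ K.K ≫ ((ModStr.self K.K).restr K.φ).act =
      (D.vel p i ≫ K.φ) ▷ K.K ≫ μ[K.K] := fun i => by
    rw [comp_whiskerRight, Category.assoc]
    rfl
  refine ⟨fun k f hk => ?_, K.ne, K.gen, fun i hi => ?_, ?_⟩
  · rcases Int.even_or_odd' k with ⟨m, rfl | rfl⟩
    · rw [← cancel_epi ((stdEven T).sphIso (Iso.refl _) m).hom, comp_zero]
      exact K.sparse m (fun hd => hk (mul_dvd_mul_left 2 hd)) _
    · exact K.odd m f
  · have h1 : D.vel p i ≫ K.φ = 0 := Z.hring_of_injective (stdEven T) K.K _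
      (((vv_lawOf K.φ p i).symm.trans (K.vv_lt i hi)).trans (map_zero _).symm)
    rw [key, h1, MonoidalPreadditive.zero_whiskerRight, zero_comp]
  · rw [key]
    exact isIso_act _ (vv_lawOf K.φ p n ▸ K.vv_unit)

/-- Koszul equivalences are equivalences for the rings under `K(n)` -/
theorem keq_under {p n : ℕ} [Fact p.Prime] (hn : 1 ≤ n) (K : KD D p n) {A : T} [MonObj A]
    [IsCommMonObj A] (κ : K.K ⟶ A) [IsMonHom κ] (Dk : KosData D.P (p : ℤ) n (D.vs p)) {X Y : T}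
    {m : X ⟶ Y} (hm : KEq Dk.K m) : KEq A m := by
  have h0 : ∀ i, vv p i (D.law.map (HRing.map (E := stdEven T) (K.φ ≫ κ))) =
      HRing.map κ (vv p i (lawOf K.φ)) := fun i => by
    rw [HRing.map_comp, ← Law.map_map, vv_map]
    rfl
  obtain ⟨C, g, d, h⟩ := distinguished_cocone_triangle m
  refine (keq_iff_acyclic h).2 (Z.acyclic_of_height D (K.φ ≫ κ) p hn (fun i hi => ?_) ?_ Dk
    ((keq_iff_acyclic h).1 hm))
  · rw [h0, K.vv_lt i hi, map_zero]
    exact IsNilpotent.zero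
  · rw [h0]
    exact K.vv_unit.map _

theorem odd_cop {X : T} (hX : Odd0 X) {I : Type} (k : I → ℤ) :
    Odd0 (X ⊗ ∐ fun i => (stdEven T).S (k i)) := fun l f => by
  obtain ⟨s, g, rfl⟩ := compact_sumL X _ (isSphere_one_shift _) f
  refine Finset.sum_eq_zero fun i _ => ?_
  have h1 : g i ≫ (((stdEven T).shiftNat (Iso.refl _) (k i)).app X).hom = 0 :=
    GBasis.odd_aux hX _ _ _
  have h2 : g i = 0 := (cancel_mono _).1 (h1.trans zero_comp.symm)
  rw [h2, zero_comp]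

theorem mem_cop {N X : T} [MonObj N] (S : Subring (HRing (stdEven T) N)) (f : X ⟶ N) {I : Type}
    (k : I → ℤ) (c : (∐ fun i => (stdEven T).S (k i)) ⟶ N)
    (hf : ∀ (n : ℤ) (y : (stdEven T).S n ⟶ X), HRing.of _ N n (y ≫ f) ∈ S)
    (hc : ∀ i, HRing.of _ N (k i) (Sigma.ι (fun i => (stdEven T).S (k i)) i ≫ c) ∈ S) (n : ℤ)
    (x : (stdEven T).S n ⟶ X ⊗ ∐ fun i => (stdEven T).S (k i)) :
    HRing.of _ N n (x ≫ (f ⊗ₘ c) ≫ μ[N]) ∈ S := by
  obtain ⟨s, g, rfl⟩ := compact_sumL X _ ⟨_, ⟨(stdEven T).sphIso (Iso.refl _) n⟩⟩ x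
  rw [Preadditive.sum_comp, HRing.of, map_sum]
  refine sum_mem fun i _ => ?_
  have h := sub_add_cancel n (k i)
  obtain ⟨y, hy⟩ := whiskerRight_surj ((stdEven T).S (k i))
    (((stdEven T).mu (n - k i) (k i) n h).hom ≫ g i)
  have h1 : (g i ≫ X ◁ Sigma.ι (fun i => (stdEven T).S (k i)) i) ≫ (f ⊗ₘ c) ≫ μ[N] =
      gmul h (y ≫ f) (Sigma.ι (fun i => (stdEven T).S (k i)) i ≫ c) := by
    rw [gmul, ext_comp, EvenSpheres.ext, tensorHom_def y, hy, Category.assoc, Category.assoc,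
      Category.assoc, Category.assoc, Category.assoc, Iso.inv_hom_id_assoc]
  have h2 := mul_mem (hf _ y) (hc i)
  rw [of_mul_of h] at h2
  rw [h1]
  exact h2

section tens

variable {A E : T} [MonObj A] [MonObj E]

theorem whisker_mul {X Y : T} (f : X ⟶ E) (g : Y ⟶ E) :
    (A ◁ f ⊗ₘ (g ≫ inrM A E)) ≫ μ[A ⊗ E] = (α_ A X Y).hom ≫ A ◁ ((f ⊗ₘ g) ≫ μ[E]) := by
  have h1 : A ◁ f ⊗ₘ (g ≫ inrM A E) = (A ◁ f ⊗ₘ g) ≫ (A ⊗ E) ◁ inrM A E := by
    rw [← id_tensorHom (A ⊗ E), tensorHom_comp_tensorHom, Category.comp_id]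
  rw [h1, Category.assoc, Z.mul_inrM, ← id_tensorHom A f, associator_naturality_assoc,
    id_tensorHom, MonoidalCategory.whiskerLeft_comp]

theorem mem_tens (S : Subring (HRing (stdEven T) (A ⊗ E)))
    (hE : ∀ x, HRing.map (inrM A E) x ∈ S) {X : T} (f : X ⟶ E) {I : Type} (k : I → ℤ)
    (c : (∐ fun i => (stdEven T).S (k i)) ⟶ E)
    (hf : ∀ (n : ℤ) (y : (stdEven T).S n ⟶ A ⊗ X), HRing.of _ (A ⊗ E) n (y ≫ A ◁ f) ∈ S) (n : ℤ)
    (x : (stdEven T).S n ⟶ A ⊗ (X ⊗ ∐ fun i => (stdEven T).S (k i))) :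
    HRing.of _ (A ⊗ E) n (x ≫ A ◁ ((f ⊗ₘ c) ≫ μ[E])) ∈ S := by
  have h1 := mem_cop S (A ◁ f) k (c ≫ inrM A E) hf (fun i => by
    rw [← Category.assoc, ← HRing.map_of]
    exact hE _) n (x ≫ (α_ _ _ _).inv)
  rwa [whisker_mul, Category.assoc, Iso.inv_hom_id_assoc] at h1

variable [IsCommMonObj A] [IsCommMonObj E] {F : SpaceFunctor T}
  {e : F.S.obj CCF ≅ (stdEven T).L}

theorem odd_R (hU : MUUniv e D) (k : D.R ⟶ A) [IsMonHom k] (hA : Odd0 A) : Odd0 (A ⊗ D.R) := by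
  obtain ⟨b, -, -⟩ := D.exists_basis_of k hU
  exact Gen.odd_iso (ρ_ _) (b.odd (Iso.refl _) (𝟙_ T) (Gen.odd_iso (ρ_ A).symm hA))

theorem mem_R (hU : MUUniv e D) (k : D.R ⟶ A) [IsMonHom k] (u : D.R ⟶ E) [IsMonHom u]
    (S : Subring (HRing (stdEven T) (A ⊗ E))) (hA : ∀ x, HRing.map (inlM A E) x ∈ S)
    (hs : ∀ n, (sIso D (k ≫ inlM A E) (u ≫ inrM A E)).c n ∈ S)
    (x : HRing (stdEven T) (A ⊗ D.R)) : HRing.map (A ◁ u) x ∈ S := by
  have h1 : D.toKR k ≫ A ◁ u = pair (k ≫ inlM A E) (u ≫ inrM A E) :=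
    eq_pair _ _ _ (by rw [← Category.assoc, D.v_zero_toKR, Category.assoc, inlM_whiskerLeft])
      (by rw [← Category.assoc, D.v_one_toKR, inrM_whiskerLeft])
  have h2 : sIso D (k ≫ inlM A E) (u ≫ inrM A E) =
      InvSeries.map (HRing.map (A ◁ u)) (strictMk (Z.bK D k)) := by
    rw [← Z.map_strictIso, InvSeries.map_map, ← HRing.map_comp, HRing_map_congr h1, sIso]
  obtain ⟨P, rfl⟩ := (Z.epsK_bijective k hU).2 x
  induction P using MvPolynomial.induction_on with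
  | C a =>
    rw [Z.epsH_C, ← RingHom.comp_apply, ← HRing.map_comp, HRing_map_congr (inlM_whiskerLeft u)]
    exact hA a
  | add P Q hP hQ =>
    rw [map_add, map_add]
    exact add_mem hP hQ
  | mul_X P i hP =>
    have h3 := hs (i + 1)
    rw [h2, InvSeries.c_map, c_succ_strictMk] at h3
    rw [map_mul, map_mul, Z.epsH_X]
    exact mul_mem hP h3

end tens

end Gene

/-- **Generation and locality.** -/
theorem gene : GENE D := by
  intro F e hU Dk K E _ _ q _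
  have : Fact (Nat.Prime 3) := ⟨Nat.prime_three⟩
  refine ⟨fun h W hW f => h ((Gene.kMod K).kos_of_acyclic hU
    (P261Z.T3.MUAt.of_odd D (by norm_num)) (by norm_num) Dk hW) f, ?_⟩
  rintro ⟨J, b, Y, m, π, σ, hm, hσ, hπ⟩ A _ _ κ _ hA
  have h1 : IsIso (A ◁ m) := Gene.keq_under (by norm_num) K κ Dk hm
  have h2 : ∀ {W : T} (x : W ⟶ A ⊗ E), x = (x ≫ A ◁ σ ≫ inv (A ◁ m)) ≫ A ◁ gens q b := by
    intro W x
    rw [← hπ, MonoidalCategory.whiskerLeft_comp, Category.assoc, Category.assoc,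
      IsIso.inv_hom_id_assoc, ← MonoidalCategory.whiskerLeft_comp, hσ,
      MonoidalCategory.whiskerLeft_id, Category.comp_id]
  refine ⟨fun l f => ?_, fun S s1 s2 s3 => (Subring.eq_top_iff' S).2 fun x => ?_⟩
  · have h3 : Odd0 (A ⊗ D.P) :=
      Gen.odd_iso (α_ _ _ _) (Gene.odd_cop (Gene.odd_R hU (K.φ ≫ κ) hA) fun n : ℤ => n)
    have h4 : Odd0 (A ⊗ (D.P ⊗ ∐ fun _ : J => 𝟙_ T)) :=
      Gen.odd_iso (α_ _ _ _) (Gene.odd_cop h3 fun _ : J => 0)
    rw [h2 f, h4 l (f ≫ _), zero_comp]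
  · have h3 : ∀ x, HRing.map (inrM A E) x ∈ S := fun x =>
      HRing_map_congr (E := stdEven T) (Category.id_comp (inrM A E)) ▸ s2 () x
    have h4 : ∀ n, (sIso D ((K.φ ≫ κ) ≫ inlM A E) (uq q ≫ inrM A E)).c n ∈ S := fun n => by
      rw [sIso_congr D (Category.assoc K.φ κ (inlM A E))
        (congrArg (uq q ≫ ·) (Category.id_comp (inrM A E)).symm)]
      exact s3 () n
    have h5 : ∀ (n : ℤ) (y : (stdEven T).S n ⟶ A ⊗ D.R),
        HRing.of _ (A ⊗ E) n (y ≫ A ◁ uq q) ∈ S := fun n y => by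
      rw [← HRing.map_of]
      exact Gene.mem_R hU (K.φ ≫ κ) (uq q) S s1 h4 _
    have h6 : ∀ (n : ℤ) (y : (stdEven T).S n ⟶ A ⊗ D.P),
        HRing.of _ (A ⊗ E) n (y ≫ A ◁ q) ∈ S := fun n y => by
      have h7 : q = (uq q ⊗ₘ tq q) ≫ μ[E] := eq_descM q
      have h8 := Gene.mem_tens S h3 (uq q) (fun n : ℤ => n) (tq q) h5 n y
      exact (congrArg (fun g => HRing.of _ (A ⊗ E) n (y ≫ A ◁ g)) h7).symm ▸ h8
    induction x using DirectSum.induction_on with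
    | zero => exact zero_mem S
    | add x y hx hy => exact add_mem hx hy
    | of n x =>
      rw [h2 x]
      exact Gene.mem_tens S h3 q (fun _ : J => 0) (Sigma.desc fun j => (b j).hom) h6 n _

end T0

end Vale.Agent.P236Z.E
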