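import Vale.Agent.P236Z.E.Top
import Vale.Agent.P236Z.Mod.Gen

/-!
# P236, block E: the graded form of the periodic Lubin-Tate spectrum
-/

open CategoryTheory MonoidalCategory Limits Pretriangulated MonObj
open Vale.Agent.P251 Vale.Agent.P251.T Vale.Agent.P251.M Vale.Agent.P251.S Vale.Agent.P251.F
  Vale.Agent.P251.I Vale.Agent.P251.X Vale.Agent.P236Z.Mod

set_option linter.unusedSectionVars false

noncomputable section

namespace Vale.Agent.P236Z.E

namespace Grd

theorem unit_map {A B : Type} [CommRing A] [CommRing B] (φ : A →+* B) (f : InvSeries A) :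
    (InvSeries.map φ f).isUnit.unit = Units.map (φ : A →* B) f.isUnit.unit :=
  Units.ext (InvSeries.c_map φ f 0)

theorem unit_neg (B : Type) [CommRing B] : (neg B).isUnit.unit = -1 :=
  Units.ext (by simp)

theorem neg_c (B : Type) [CommRing B] (n : ℕ) : (neg B).c n = -(1 : InvSeries B).c n := by
  simp [InvSeries.c]

variable {T : Type 1} [Category.{0} T] [Preadditive T] [HasZeroObject T]
    [HasShift T ℤ] [∀ n : ℤ, (shiftFunctor T n).Additive] [Pretriangulated T] [IsTriangulated T]
    [MonoidalCategory T] [SymmetricCategory T] [TensorTriangulated T] [MonoidalClosed T]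
    [HasCoproducts.{0} T] [HasProducts.{0} T] [StableCat T] {D : MUData T} (O : OriApi D)
    {N : T} [MonObj N] [IsCommMonObj N] (q : D.P ⟶ N) [IsMonHom q] (f : N ⟶ N) [IsMonHom f]

theorem chg (w : ℤ) (x : (stdEven T).S w ⟶ N) : flat q (HRing.of _ N w (x ≫ f)) =
    (((O.ser q (q ≫ f)).isUnit.unit ^ w : (Sc N)ˣ) : Sc N) *
      Sc.map f (flat q (HRing.of _ N w x)) := by
  rw [O.flat_chg q (q ≫ f), ← O.flat_comp, HRing.map_of]

theorem ser (n : ℕ) : (O.ser q (q ≫ f)).c 0 * flat q ((sIso D (uq q) (uq q ≫ f)).c n) =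
    (O.ser q (q ≫ f)).c n := by
  rw [sIso_congr D (a' := uq q) (b' := uq (q ≫ f)) rfl (Category.assoc _ _ _), O.flat_ser]

theorem ser_sc {R : Type} [CommRing R] (θ : R ≃+* Sc N) (g : InvSeries R)
    (h : O.ser q (q ≫ f) = InvSeries.map (θ : R →+* Sc N) g) (n : ℕ) :
    θ.symm (flat q ((sIso D (uq q) (uq q ≫ f)).c n)) = Tate.sc g (n + 1) := by
  have h1 := congrArg θ.symm (ser O q f n)
  rw [h, InvSeries.c_map, InvSeries.c_map, map_mul, RingHom.coe_coe, θ.symm_apply_apply,
    θ.symm_apply_apply] at h1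
  exact (Units.eq_inv_mul_iff_mul_eq g.isUnit.unit).2 h1

include O in
theorem inj {w : ℤ} {x y : (stdEven T).S w ⟶ N}
    (h : flat q (HRing.of _ N w x) = flat q (HRing.of _ N w y)) : x = y := (O.flat_bij q w).1 h

theorem sg (h1 : ∀ x, Sc.map f x = x) (h : O.ser q (q ≫ f) = neg (Sc N)) (w : ℤ)
    (x : (stdEven T).S w ⟶ N) : flat q (HRing.of _ N w (x ≫ f)) =
      (((-1) ^ w : (Sc N)ˣ) : Sc N) * flat q (HRing.of _ N w x) := by
  rw [chg O, h1, h, unit_neg]

theorem u_sg (h : O.ser q (q ≫ f) = neg (Sc N)) : uq q ≫ f = uq q := by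
  refine O.ext_u _ _ (InvSeries.ext_c fun n => ?_)
  have h1 := ser O q f n
  rw [h, neg_c, neg_c, InvSeries.c_zero_one, neg_one_mul, neg_inj] at h1
  rcases n with _ | n
  · rw [sIso_c0, InvSeries.c_zero_one]
  · obtain ⟨x, hx⟩ := sIso_hom D (uq q) (uq q ≫ f) (n + 1)
    have h0 : HRing.of (stdEven T) N ((n + 1 : ℕ) : ℤ) 0 = 0 := (DirectSum.of _ _).map_zero
    rw [hx, InvSeries.c_one_succ] at h1
    have h2 : x = 0 := inj O q (by rw [h1, h0, (flat q).map_zero])
    rw [hx, InvSeries.c_one_succ, h2, h0]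

end Grd

variable {T : Type 1} [Category.{0} T] [Preadditive T] [HasZeroObject T]
    [HasShift T ℤ] [∀ n : ℤ, (shiftFunctor T n).Additive] [Pretriangulated T] [IsTriangulated T]
    [MonoidalCategory T] [SymmetricCategory T] [TensorTriangulated T] [MonoidalClosed T]
    [HasCoproducts.{0} T] [HasProducts.{0} T] [StableCat T]

theorem grd (D : MUData T) : GRD D := by
  intro Dk O a K P hl hg
  have h1 : ∀ x, Sc.map P.sg x = x := fun x => by
    rw [← P.θ.apply_symm_apply x, P.sg_θ]
  refine ⟨{ E := P.E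
            u := uq P.q
            ev := (P.θ.symm : Sc P.E →+* a.R).comp (flat P.q)
            bij := fun w => P.θ.symm.bijective.comp (O.flat_bij P.q w)
            odd := P.odd
            law := ?_
            ρ := P.ρ
            sg := P.sg
            ρ9 := P.ρ9
            ρ_sg := P.ρ_sg
            sg_sg := P.sg_sg
            u_sg := Grd.u_sg O P.q P.sg P.sg_ser
            ev_ρ := fun w x => ?_
            sg_even := fun w hw x => Grd.inj O P.q ?_
            sg_odd := fun w hw x => Grd.inj O P.q ?_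
            ser := Grd.ser_sc O P.q P.ρ P.θ _ P.ρ_ser
            ser3 := Grd.ser_sc O P.q (P.ρ ≫ P.ρ ≫ P.ρ) P.θ _ P.ρ3_ser
            loc := hl
            gen := hg }⟩
  · rw [← Law.map_map, O.flat_law, P.law, Law.map_map, RingEquiv.symm_comp, Law.map_id]
  · apply P.θ.injective
    simp only [RingHom.comp_apply, RingHom.coe_coe, RingEquiv.apply_symm_apply, Tate.Tw.act,
      Tate.twOf, map_mul, inv_zpow', neg_neg]
    rw [Grd.chg O, P.ρ_ser, Grd.unit_map, ← map_zpow, ← P.ρ_θ, RingEquiv.apply_symm_apply, mul_comm]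
    rfl
  · rw [Grd.sg O P.q P.sg h1 P.sg_ser, hw.neg_one_zpow, Units.val_one, _root_.one_mul]
  · have h0 : HRing.of (stdEven T) P.E w (-x) = -HRing.of (stdEven T) P.E w x :=
      (DirectSum.of ((stdEven T).Gr P.E) w).map_neg x
    rw [Grd.sg O P.q P.sg h1 P.sg_ser, hw.neg_one_zpow, Units.val_neg, Units.val_one, neg_one_mul,
      h0, map_neg]

end Vale.Agent.P236Z.E
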