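import Vale.Agent.P251.S.E1MU
import Vale.Agent.P251.S.ModP

/-!
# P236, block E: the integral form of theorem E1, general part
-/

open CategoryTheory MonoidalCategory Limits Pretriangulated MonObj
open Vale.Agent.P251 Vale.Agent.P251.T Vale.Agent.P251.S

set_option linter.unusedSectionVars false

universe v u

noncomputable section

namespace Vale.Agent.P236Z.E.IntA

section alg

variable {L A E : Type} [CommRing L] [CommRing A] [CommRing E] [Algebra L A] [Algebra A E]
  [Algebra L E] [IsScalarTower L A E] {I : Ideal L} {w p : L}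
  (sur : ∀ x : A, ∃ z y, x = algebraMap L A z + algebraMap L A p * y)
  (inj : ∀ z y, algebraMap L A z = algebraMap L A p * y → ∃ z', z = p * z')
  (tf : ∀ x : A, algebraMap L A p * x = 0 → x = 0)

include sur in
theorem sur_pow (j : ℕ) (x : A) : ∃ z y, x = algebraMap L A z + algebraMap L A p ^ j * y := by
  induction j with
  | zero => exact ⟨0, x, by simp⟩
  | succ j ih =>
    obtain ⟨z, y, rfl⟩ := ih
    obtain ⟨z', y', rfl⟩ := sur y
    exact ⟨z + p ^ j * z', y', by simp only [map_add, map_mul, map_pow]; ring⟩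

include inj tf in
theorem inj_pow (j : ℕ) : ∀ z y, algebraMap L A z = algebraMap L A p ^ j * y →
    ∃ z', z = p ^ j * z' := by
  induction j with
  | zero => exact fun z _ _ => ⟨z, by simp⟩
  | succ j ih =>
    intro z y h
    obtain ⟨z', rfl⟩ := inj z (algebraMap L A p ^ j * y) (by rw [h]; ring)
    obtain ⟨z'', rfl⟩ := ih z' y (sub_eq_zero.1 (tf _ (by rw [mul_sub, ← map_mul, h]; ring)))
    exact ⟨z'', by ring⟩

include sur inj tf in
theorem mem_pow (hp : p ∈ I) (j : ℕ) {z : L}
    (hz : algebraMap L A z ∈ I.map (algebraMap L A) ^ j) : z ∈ I ^ j := by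
  have key : ∀ x ∈ (I ^ j).map (algebraMap L A),
      ∃ z ∈ I ^ j, ∃ y, x = algebraMap L A z + algebraMap L A p ^ j * y := by
    intro x hx
    induction hx using Submodule.span_induction with
    | mem x hx =>
      obtain ⟨z, a, rfl⟩ := hx
      exact ⟨z, a, 0, by simp⟩
    | zero => exact ⟨0, zero_mem _, 0, by simp⟩
    | add x x' _ _ h h' =>
      obtain ⟨z, a, y, rfl⟩ := h
      obtain ⟨z', a', y', rfl⟩ := h'
      exact ⟨z + z', add_mem a a', y + y', by rw [map_add]; ring⟩
    | smul c x _ h =>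
      obtain ⟨z, a, y, rfl⟩ := h
      obtain ⟨z', y', rfl⟩ := sur_pow sur j c
      exact ⟨z' * z, Ideal.mul_mem_left _ _ a, y' * algebraMap L A z +
        (algebraMap L A z' + algebraMap L A p ^ j * y') * y, by rw [map_mul, smul_eq_mul]; ring⟩
  obtain ⟨z', a, y, h⟩ := key _ (Ideal.map_pow (algebraMap L A) I j ▸ hz)
  obtain ⟨t, ht⟩ := inj_pow inj tf j (z - z') y (by rw [map_sub, h]; ring)
  rw [sub_eq_iff_eq_add.1 ht]
  exact add_mem (Ideal.mul_mem_right _ _ (Ideal.pow_mem_pow hp j)) a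

theorem mem_top_iff (j : ℕ) (e : E) : e ∈ (I ^ j • ⊤ : Submodule L E) ↔
    e ∈ (I.map (algebraMap L A) ^ j • ⊤ : Submodule A E) := by
  rw [Ideal.smul_top_eq_map, Ideal.smul_top_eq_map, ← Ideal.map_pow, Ideal.map_map,
    ← IsScalarTower.algebraMap_eq]
  rfl

theorem mem_fs {J : Type} {K : Ideal A} {f : J →₀ A} :
    f ∈ (K • ⊤ : Submodule A (J →₀ A)) ↔ ∀ i, f i ∈ K := by
  refine ⟨fun h i => ?_, fun h => ?_⟩
  · simpa using map_mem_smul_top K (Finsupp.lapply i) h
  · rw [← f.sum_single]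
    refine sum_mem fun i _ => ?_
    rw [← Finsupp.smul_single_one]
    exact Submodule.smul_mem_smul (h i) trivial

include sur inj tf in
/-- change of the ring along a map which is bijective modulo `p` -/
theorem cmp_of (hp : p ∈ I) {J : Type} {b : J → E}
    (H : CompCond (I.map (algebraMap L A)) (algebraMap L A w) (Finsupp.linearCombination A b)) :
    CompCond I w (Finsupp.linearCombination L b) := by
  let m : (J →₀ L) → J →₀ A := Finsupp.mapRange (algebraMap L A) (map_zero _)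
  have hm : ∀ f, Finsupp.linearCombination A b (m f) = Finsupp.linearCombination L b f := by
    intro f
    rw [Finsupp.linearCombination_apply, Finsupp.linearCombination_apply,
      Finsupp.sum_mapRange_index (by simp)]
    simp only [algebraMap_smul]
  have hw : ∀ (k : ℕ) (e : E), algebraMap L A w ^ k • e = w ^ k • e := fun k e => by
    rw [← map_pow, algebraMap_smul]
  refine ⟨fun e he => H.haus e fun k => (mem_top_iff k e).1 (he k), fun e he => ?_,
    fun e he => H.inj e (by rwa [algebraMap_smul]), fun e => ?_, fun j e => ?_, fun j f hf => ?_⟩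
  · obtain ⟨l, hl⟩ := H.complete e fun k => (mem_top_iff k _).1 (he k)
    exact ⟨l, fun k => (mem_top_iff k _).2 (hl k)⟩
  · simpa only [algebraMap_smul] using H.surj e
  · obtain ⟨k, f, hf⟩ := H.dense j e
    have key : ∀ f : J →₀ A, ∃ f₀ g, f = m f₀ + algebraMap L A p ^ j • g := by
      intro f
      induction f using Finsupp.induction_linear with
      | zero => exact ⟨0, 0, by simp [m]⟩
      | add f f' h h' =>
        obtain ⟨a, b, rfl⟩ := h
        obtain ⟨a', b', rfl⟩ := h'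
        refine ⟨a + a', b + b', ?_⟩
        ext i
        simp only [m, Finsupp.add_apply, Finsupp.mapRange_apply, Finsupp.smul_apply, map_add,
          smul_eq_mul]
        ring
      | single i x =>
        obtain ⟨z, y, rfl⟩ := sur_pow sur j x
        exact ⟨.single i z, .single i y, by simp [m]⟩
    obtain ⟨f₀, g, rfl⟩ := key f
    refine ⟨k, f₀, (mem_top_iff (A := A) j _).2 ?_⟩
    rw [map_add, map_smul, hm, hw, ← sub_sub] at hf
    have h1 : algebraMap L A p ^ j • Finsupp.linearCombination A b g ∈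
        (I.map (algebraMap L A) ^ j • ⊤ : Submodule A E) :=
      Submodule.smul_mem_smul (Ideal.pow_mem_pow (Ideal.mem_map_of_mem _ hp) j) trivial
    simpa using add_mem hf h1
  · obtain ⟨k, hk⟩ := H.closed j (m f) (by rw [hm]; exact (mem_top_iff j _).1 hf)
    refine ⟨k, mem_fs.2 fun i => mem_pow sur inj tf hp j ?_⟩
    simpa [m] using mem_fs.1 hk i

end alg

variable {T : Type u} [Category.{v} T] [Preadditive T] [HasZeroObject T]
    [HasShift T ℤ] [∀ n : ℤ, (shiftFunctor T n).Additive] [Pretriangulated T] [IsTriangulated T]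
    [MonoidalCategory T] [SymmetricCategory T] [TensorTriangulated T] [MonoidalClosed T]
    [HasCoproducts.{0} T] [HasProducts.{0} T] [StableCat T]
    {P : T} [MonObj P] [IsCommMonObj P] {p : ℤ} {h : ℕ} {v : ℕ → (𝟙_ T ⟶ P)}

theorem good_iso (m : ℕ) : ∀ {i : ℕ} {N N' : T} (_ : N ≅ N'), Good P v i m N → Good P v i m N' := by
  induction m with
  | zero => exact fun e h => OddZero.of_iso (whiskerRightIso e P) h
  | succ m ih =>
    exact fun e h => ⟨OddZero.of_iso (whiskerRightIso e P) h.1, ih (whiskerRightIso e _) h.2⟩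

theorem odd_sum {Y : T} (hY : OddZero Y) (J : Type) : OddZero (Y ⊗ ∐ fun _ : J => 𝟙_ T) :=
  OddZero.coprod fun _ => hY.of_iso (ρ_ Y).symm

theorem good_sum (J : Type) (m : ℕ) : ∀ {i : ℕ} {N : T}, Good P v i m N →
    Good P v i m (N ⊗ ∐ fun _ : J => 𝟙_ T) := by
  induction m with
  | zero => exact fun h => (odd_sum h J).of_iso (swapR _ _ _)
  | succ m ih =>
    exact fun h => ⟨(odd_sum h.1 J).of_iso (swapR _ _ _), good_iso m (swapR _ _ _) (ih h.2)⟩

theorem hom_pow {Y : T} (M : ModStr P Y) (a : 𝟙_ T ⟶ P) (W : T) (j : ℕ) (x : HM M.smr W) :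
    ((algebraMap (Sc P) (Module.End (Sc P) (HM M.smr W)) (Sc.of a) ^ j) x).hom =
      x.hom ≫ (M.sm a ^ j : End Y) := by
  rw [← map_pow, Module.algebraMap_end_apply, HM.hom_smul, map_pow]
  rfl

theorem pow_mem {G : Type v} [AddCommGroup G] [Module (Sc P) G] (hh : 1 ≤ h) (j : ℕ) (x : G) :
    (algebraMap (Sc P) (Module.End (Sc P) G) (Sc.of (v 0)) ^ j) x ∈
      (Iv P v h ^ j • ⊤ : Submodule (Sc P) G) := by
  rw [← map_pow, Module.algebraMap_end_apply]
  exact Submodule.smul_mem_smul (Ideal.pow_mem_pow (mem_Iv hh) j) trivial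

theorem sm_zsmul {Y : T} (M : ModStr P Y) (m : ℤ) : M.sm (m • η[P]) = m • (1 : End Y) :=
  (map_zsmul M.smulHom m η[P]).trans (congrArg (m • ·) M.smul_one)

/-- theorem E1 for a module whose odd homotopy has no `p`-torsion -/
theorem e1_int (D : KosData P p h v) (F : LocFunctor D.K) {N : T} (M : ModStr P N)
    (hv : InvData P p h v) (hh : 1 ≤ h) (hg : Good P v 1 (h - 1) (N ⊗ D.Q 0))
    (htf : ∀ n : ℤ, Odd n → ∀ x : Sph T n ⟶ N, p • x = 0 → x = 0) : E1C F v h M := by
  let f : ℕ → (𝟙_ T ⟶ 𝟙_ T) := fun j => p ^ j • 𝟙 (𝟙_ T)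
  have hw : ∀ {Y : T} (M : ModStr P Y) (j : ℕ), (M.sm (v 0) ^ j : End Y) = p ^ j • 𝟙 Y := by
    intro Y M j
    rw [hv.v0, sm_zsmul, smul_pow, one_pow]
    rfl
  have hw1 : M.sm (v 0) = p • 𝟙 N := by simpa only [pow_one] using hw M 1
  have hd : ∀ j, Triangle.mk (M.sm (v 0) ^ j : End N) ((redC (cofπ (f j))).app N)
      (bdC (cofδ (f j)) N) ∈ distTriang T := fun j => by
    rw [hw]
    exact redTri_distinguished (cof_dist (f j)) N
  have hLd : ∀ j, Triangle.mk ((F.mod M).sm (v 0) ^ j : End (F.L.obj N))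
      (F.L.map ((redC (cofπ (f j))).app N)) (F.L.map (bdC (cofδ (f j)) N) ≫
        (F.L.commShiftIso (1 : ℤ)).hom.app N) ∈ distTriang T := fun j => by
    rw [F.mod_sm, ← map_pow]
    exact F.L.map_distinguished _ (hd j)
  have hQ : ∀ j, E1C F v h (M.tensorRight (cof (f j))) := fun j => by
    refine theoremE1 D F _ hv hh (fun _ _ X g => compact_sum X (isSphere_sph _) g)
      (IsNilpotent.of_pow (m := j) ?_) (Good.cofibre_pow (h - 1) (w := M.sm (v 0))
        (hw1 ▸ redTri_distinguished D.dist0 N) (hd j) hg)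
    have h1 := isNilpotent_mod M (p ^ j) (cof_dist (f j))
    rw [sm_zsmul] at h1
    rw [hw]
    exact h1
  have hus := D.us (F.mod M) hv (F.isLocal N) 0 hh
  have hodd : OddZero (F.L.obj N) := key_oddZero (fun n => hus _) hLd (hQ 1).odd
  refine ⟨hodd, fun n hn => ?_⟩
  have hcq : ∀ (j : ℕ) (a : 𝟙_ T ⟶ P), M.smul a ≫ (redC (cofπ (f j))).app N =
      (redC (cofπ (f j))).app N ≫ (M.tensorRight (cof (f j))).smul a := fun j a => by
    rw [ModStr.tensorRight_smul]
    exact (redC (cofπ (f j))).naturality (M.smul a)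
  refine CompCond.of_quotients (algebraMap (Sc P) (Module.End (Sc P) _) (Sc.of (v 0)))
    (algebraMap (Sc P) (Module.End (Sc P) _) (Sc.of (v 0)))
    (fun j => HM (M.tensorRight (cof (f j))).smr (Sph T n))
    (fun j => HM (F.mod (M.tensorRight (cof (f j)))).smr (Sph T n))
    (fun j => F.homMap (M.tensorRight (cof (f j))) (Sph T n)) (fun j => (hQ j).even n hn)
    (fun j => scMap _ (hcq j) _) (fun j => scMap _ (loc_compat F (hcq j)) _) (fun j x => ?_)
    (fun j y => ?_) (fun j y => ?_) (fun j x hx => ?_) (fun j x => ⟨fun hx => ?_, ?_⟩)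
    (pow_mem hh) (pow_mem hh) (fun x hx => ?_) fun e he => ?_
  · apply HM.hom_ext
    change (x.hom ≫ (redC (cofπ (f j))).app N) ≫ F.u _ =
      (x.hom ≫ F.u _) ≫ F.L.map ((redC (cofπ (f j))).app N)
    rw [Category.assoc, Category.assoc, F.u_naturality]
  · obtain ⟨g, h1, h2⟩ := exists_desuspend_comp (M.sm (v 0) ^ j : End N) n
      (y.hom ≫ bdC (cofδ (f j)) N) (by rw [Category.assoc, zero₃₁ (hd j), comp_zero])
    rw [pow_injective (fun x hx => htf _ (hn.sub_odd odd_one) x (by
      rwa [hw1, Preadditive.comp_zsmul, Category.comp_id] at hx)) j g h1, Functor.map_zero,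
      comp_zero] at h2
    obtain ⟨x, hx⟩ := exact₃ (hd j) y.hom h2
    exact ⟨HM.of x, HM.hom_ext hx.symm⟩
  · obtain ⟨x, hx⟩ := surjective_even (hLd j) hodd hn y.hom
    exact ⟨HM.of x, HM.hom_ext hx⟩
  · obtain ⟨y, hy⟩ := (eq_zero_iff_even (hd j) x.hom).1 hx
    exact ⟨HM.of y, HM.hom_ext ((hom_pow ..).trans hy)⟩
  · obtain ⟨y, hy⟩ := (eq_zero_iff_even (hLd j) x.hom).1 hx
    exact ⟨HM.of y, HM.hom_ext ((hom_pow ..).trans hy)⟩
  · rintro ⟨y, hy⟩
    exact (eq_zero_iff_even (hLd j) x.hom).2 ⟨y.hom, by rw [← hy, hom_pow]⟩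
  · refine HM.hom_ext ((hus _).haus (key_injective hLd (hQ 1).odd hn) x.hom fun j => ?_)
    obtain ⟨y, hy⟩ := hx j
    exact ⟨y.hom, by rw [← hy, hom_pow]⟩
  · obtain ⟨l, hl⟩ := (hus _).complete (fun k => (e k).hom) fun k => by
      obtain ⟨a, ha⟩ := he k
      exact ⟨a.hom, by rw [← hom_pow, ← ha]; rfl⟩
    refine ⟨HM.of l, fun k => ?_⟩
    obtain ⟨a, ha⟩ := hl k
    exact ⟨HM.of a, HM.hom_ext (ha.trans (hom_pow _ _ _ k (HM.of a)).symm)⟩

end Vale.Agent.P236Z.E.IntA
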