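import Vale.Agent.P236Z.E.Top
import Vale.Agent.P236Z.E.IntA
import Vale.Agent.P251.S.GrC
import Vale.Agent.P251.Z.LazMod
import Vale.Agent.P251.H.BLoc

/-!
# P236, block E: the homotopy of the localization of a free module
-/

open CategoryTheory MonoidalCategory Limits Pretriangulated MonObj
open Vale.Agent.P251 Vale.Agent.P251.T Vale.Agent.P251.M Vale.Agent.P251.S Vale.Agent.P251.F
  Vale.Agent.P251.I Vale.Agent.P251.X Vale.Agent.P236Z.Mod Vale.Agent.P251.M.EvenSpheres

set_option linter.unusedSectionVars false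

noncomputable section

namespace Vale.Agent.P236Z.E

variable {T : Type 1} [Category.{0} T] [Preadditive T] [HasZeroObject T]
    [HasShift T ℤ] [∀ n : ℤ, (shiftFunctor T n).Additive] [Pretriangulated T] [IsTriangulated T]
    [MonoidalCategory T] [SymmetricCategory T] [TensorTriangulated T] [MonoidalClosed T]
    [HasCoproducts.{0} T] [HasProducts.{0} T] [StableCat T] (D : MUData T)

namespace IntA

section free

variable (P : T) [MonObj P] [IsCommMonObj P] (J : Type)

/-- the free module on the set `J` -/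
abbrev fr : ModStr P (P ⊗ ∐ fun _ : J => 𝟙_ T) := (ModStr.self P).tensorRight _

variable {J} in
/-- the inclusion of a summand -/
def inc (j : J) : P ⟶ P ⊗ ∐ fun _ : J => 𝟙_ T := (ρ_ P).inv ≫ P ◁ Sigma.ι (fun _ : J => 𝟙_ T) j

/-- the homotopy of the free module -/
def bas : (J →₀ Sc P) →ₗ[Sc P] HM (fr P J).smr (𝟙_ T) :=
  Finsupp.linearCombination (Sc P) fun j => HM.of (η[P] ≫ inc P j)

variable {P J}

theorem bas_single (j : J) (a : Sc P) : (bas P J (.single j a)).hom = a.hom ≫ inc P j := by
  rw [bas, Finsupp.linearCombination_single]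
  change (η[P] ≫ inc P j) ≫ (fr P J).smul a.hom = _
  rw [ModStr.tensorRight_smul, inc, Category.assoc, Category.assoc, whisker_exchange,
    ← rightUnitor_inv_naturality_assoc, ← Category.assoc η[P], ← scMul_eq_smul, scMul_one]

theorem bas_bij : Function.Bijective (bas P J) := by
  classical
  constructor
  · let q : J → ((∐ fun _ : J => 𝟙_ T) ⟶ 𝟙_ T) := fun i =>
      Sigma.desc fun j => if j = i then 𝟙 _ else 0
    have key : ∀ i (f : J →₀ Sc P), (bas P J f).hom ≫ P ◁ q i ≫ (ρ_ P).hom = (f i).hom := by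
      intro i f
      induction f using Finsupp.induction_linear with
      | zero => rw [map_zero]; exact zero_comp
      | add f g a b => rw [map_add, HM.hom_add, Preadditive.add_comp, a, b]; rfl
      | single j a =>
        rw [bas_single, inc, Category.assoc, Category.assoc, ← whiskerLeft_comp_assoc,
          Sigma.ι_desc, Finsupp.single_apply]
        split_ifs
        · simp
        · simp
          rfl
    intro f g e
    ext i
    exact (key i f).symm.trans (e ▸ key i g)
  · intro x
    obtain ⟨s, g, hg⟩ := compact_sumL P (fun _ : J => 𝟙_ T) isSphere_one x.hom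
    refine ⟨∑ i ∈ s, .single i (Sc.of (g i ≫ (ρ_ P).hom)), HM.hom_ext ?_⟩
    rw [map_sum, HM.hom_sum, hg]
    refine Finset.sum_congr rfl fun i _ => (bas_single _ _).trans ?_
    change (g i ≫ (ρ_ P).hom) ≫ _ = _
    rw [inc, Category.assoc, Iso.hom_inv_id_assoc]

end free

variable {D} (Dk : Kos D)

/-- theorem E1 for the free module -/
theorem e1_fr (F : LocFunctor Dk.K) (J : Type) : E1C F (D.vs 3) 6 (fr D.P J) := by
  refine e1_int Dk F _ (D.invData 3 6) (by omega) ?_ fun n hn x hx => ?_
  · exact good_iso _ (whiskerRightIso (swapR (Am D.R 1) (Dk.Q 0) (stdEven T).PS ≪≫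
      whiskerRightIso (whiskerRightIso (λ_ D.R) _) _) _ ≪≫ swapR _ _ _) (good_sum J _
        ((GD.regC_MP D (by omega) Dk.dist0 6 0).good 5 le_rfl
          fun j a b => (D.invData 3 6).inv j a b.le))
  · obtain ⟨q, s, h⟩ := exists_sum_pr D.P _ (isSphere_sph n) x
    rw [h]
    refine Finset.sum_eq_zero fun i _ => ?_
    have h1 := Z.P_torsionFree_odd D (by omega) Dk.dist0 hn ((x ≫ D.P ◁ q i) ≫ (ρ_ _).hom) (by
      rw [← Preadditive.zsmul_comp, ← Preadditive.zsmul_comp, hx, zero_comp, zero_comp])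
    rw [(cancel_mono (ρ_ D.P).hom).1 (h1.trans zero_comp.symm), zero_comp]

theorem lamP_v (k : ℕ) : lamP D (Laz.v 3 k) = Sc.of (D.vs 3 k) :=
  (congrArg (sharpHom D.R) (Z.L0_v D 3 k)).trans (Z.sharpHom_vv D 3 k)

theorem map_I : (Laz.I 3 6).map (lamP D) = Iv D.P (D.vs 3) 6 := by
  rw [Laz.I, Ih, Ideal.map_span, Iv]
  congr 1
  ext x
  constructor
  · rintro ⟨_, ⟨k, hk, rfl⟩, rfl⟩
    exact ⟨k, hk, (lamP_v k).symm⟩
  · rintro ⟨k, hk, rfl⟩
    exact ⟨_, ⟨k, hk, rfl⟩, lamP_v k⟩

end IntA

open IntA in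
/-- the homotopy of the localization of a free module -/
theorem int : INT D := by
  intro Dk Z _ _ p _ J b hZ hK
  obtain ⟨F⟩ := nonempty_locFunctor (K := Dk.K) (H.nonempty_bLoc_of_stableCat Dk.K)
  have hE := e1_fr Dk F J
  let θ := F.isoOfKEq hZ _ hK
  refine ⟨fun l => hE.odd.of_iso θ _ ⟨l, rfl⟩, ?_⟩
  have hl : (fr D.P J).IsLinear ((ModStr.self Z).restr p) (gens p b) := by
    have e : gens p b = ((ModStr.self Z).restr p).ext (Sigma.desc fun j => (b j).hom) := by
      rw [gens, tensorHom_def', Category.assoc]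
      rfl
    rw [e]
    exact ModStr.ext_linear _ _
  let := (lamP D).toAlgebra
  let := (Sc.map p).toAlgebra
  let := (lamQ p).toAlgebra
  have : IsScalarTower Laz (Sc D.P) (Sc Z) := IsScalarTower.of_algebraMap_eq' rfl
  let e := sharpEquiv (stdEven T) D.R
  have h3 : algebraMap Laz (Sc D.P) ((3 : ℕ) : Laz) = e ((3 : ℕ) : HRing (stdEven T) D.R) := by
    rw [map_natCast, map_natCast]
  refine cmp_of (A := Sc D.P) (p := ((3 : ℕ) : Laz)) (fun x => ?_) (fun z y h => ?_) (fun x h => ?_)
    (vv_zero 3 Laz.univ ▸ vv_mem_Ih (by omega) _) ?_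
  · obtain ⟨z, y, h⟩ := P251.Z.exists_L0_add D (by omega) Dk.dist0 (e.symm x)
    refine ⟨z, e y, ?_⟩
    rw [h3, ← map_mul, ← e.apply_symm_apply x, h, map_add]
    rfl
  · refine P251.Z.exists_of_L0_eq D (by omega) Dk.dist0 z (e.symm y) (e.injective ?_)
    rw [map_mul, e.apply_symm_apply, ← h3, ← h]
    rfl
  · rw [h3, ← e.apply_symm_apply x, ← map_mul, e.map_eq_zero_iff] at h
    rw [← e.apply_symm_apply x, P251.Z.hring_torsionFree D (by omega) Dk.dist0 _ h,
      map_zero]
  let r : HM (F.mod (fr D.P J)).smr (𝟙_ T) →ₗ[Sc D.P] Sc Z :=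
    { toFun := fun x => Sc.of (x.hom ≫ θ.hom)
      map_add' := fun _ _ => Preadditive.add_comp _ _ _ _ _ _
      map_smul' := fun a x => by
        have h1 := (F.isLinear_desc _ hZ hl).smul a.hom
        rw [ModStr.restr_smul] at h1
        exact (comp_smul_aux _ _ _ h1 x.hom).trans (scMul_eq_smul _ _).symm }
  have hr : Function.Bijective r :=
    ⟨fun x y h => (cancel_mono θ.hom).1 h, fun y => ⟨HM.of (y.hom ≫ θ.inv), by
      change (y.hom ≫ θ.inv) ≫ θ.hom = y.hom
      rw [Category.assoc, Iso.inv_hom_id, Category.comp_id]⟩⟩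
  let eE := LinearEquiv.ofBijective r hr
  let eF := LinearEquiv.ofBijective (bas D.P J) bas_bij
  have key : ∀ f, r (F.homMap (fr D.P J) (𝟙_ T) (bas D.P J f)) =
      Finsupp.linearCombination (Sc D.P) b f := by
    intro f
    induction f using Finsupp.induction_linear with
    | zero => simp only [map_zero]
    | add f g a c => simp only [map_add, a, c]
    | single j a =>
      rw [Finsupp.linearCombination_single]
      change ((bas D.P J (.single j a)).hom ≫ F.u _) ≫ θ.hom = scMul (a.hom ≫ p) (b j).hom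
      rw [Category.assoc, F.u_isoOfKEq, bas_single, inc, gens, scMul, Category.assoc,
        Category.assoc, ← id_tensorHom, tensorHom_comp_tensorHom_assoc, Sigma.ι_desc,
        rightUnitor_inv_naturality_assoc, ← tensorHom_id, tensorHom_comp_tensorHom_assoc,
        Category.id_comp, Category.id_comp, unitors_inv_equal]
  have H := hE.unit
  rw [← map_I, ← lamP_v] at H
  refine H.retract eF eF.symm eE.symm eE eF.symm_apply_apply eE.apply_symm_apply (fun f => ?_)
    fun x => ?_
  · exact (eE.eq_symm_apply.2 (key f))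
  · obtain ⟨f, rfl⟩ := eF.surjective x
    exact (congrArg _ (eF.symm_apply_apply f)).trans (key f).symm

end Vale.Agent.P236Z.E
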