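import Vale.Agent.P236Z.E.Top
import Vale.Agent.P236Z.Top.Mdl
import Vale.Agent.P236Z.Mod.Gen
import Vale.Agent.P251.X.Split

/-!
# P236, block E: the invariants of the involution
-/

set_option linter.all false

open CategoryTheory MonoidalCategory Limits Pretriangulated
open Vale.Agent.P251 Vale.Agent.P251.T Vale.Agent.P251.M Vale.Agent.P251.S Vale.Agent.P251.F
  Vale.Agent.P251.I Vale.Agent.P251.X Vale.Agent.P236Z.Mod IsLocalRing

noncomputable section

namespace Vale.Agent.P236Z.E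

namespace Plus

section alg

variable {H R : Type} [CommRing H] [CommRing R]

/-- `ev` is bijective on the homogeneous elements of every even weight -/
structure Grd (ev : H →+* R) (g : ℤ → AddSubgroup H) : Prop where
  one : 1 ∈ g 0
  mul : ∀ {m n p : ℤ} {x y : H}, m + n = p → x ∈ g m → y ∈ g n → x * y ∈ g p
  inj : ∀ {n : ℤ} {x y : H}, Even n → x ∈ g n → y ∈ g n → ev x = ev y → x = y
  sur : ∀ {n : ℤ}, Even n → ∀ r, ∃ x ∈ g n, ev x = r

variable {ev : H →+* R} {g : ℤ → AddSubgroup H}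

theorem Grd.unit (h : Grd ev g) {n : ℤ} {x : H} (hn : Even n) (hx : x ∈ g n)
    (hu : IsUnit (ev x)) : IsUnit x := by
  obtain ⟨s, hs⟩ := hu.exists_right_inv
  obtain ⟨y, hy, rfl⟩ := h.sur hn.neg s
  exact IsUnit.of_mul_eq_one y (h.inj Even.zero (h.mul (add_neg_cancel n) hx hy) h.one
    (by rw [map_mul, hs, map_one]))

theorem Grd.pow (h : Grd ev g) {m : ℤ} {x : H} (hx : x ∈ g m) (k : ℕ) : x ^ k ∈ g (m * k) := by
  induction k with
  | zero => simpa using h.one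
  | succ k ih =>
    rw [pow_succ]
    exact h.mul (by push_cast; ring) ih hx

theorem Grd.int (h : Grd ev g) {m : ℤ} {x : H} (hx : x ∈ g m) (c : ℤ) : c * x ∈ g m := by
  rw [← zsmul_eq_mul]
  exact zsmul_mem hx c

theorem Grd.exU (h : Grd ev g) :
    ∃ U : Hˣ, ∀ k : ℤ, (U ^ k).val ∈ g (2 * k) ∧ ev (U ^ k).val = 1 := by
  obtain ⟨x, hx, ex⟩ := h.sur even_two 1
  obtain ⟨y, hy, ey⟩ := h.sur even_two.neg 1
  have e : x * y = 1 := h.inj Even.zero (h.mul (add_neg_cancel 2) hx hy) h.one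
    (by rw [map_mul, ex, ey, one_mul, map_one])
  refine ⟨⟨x, y, e, (mul_comm _ _).trans e⟩, fun k => ?_⟩
  obtain ⟨n, rfl | rfl⟩ := Int.eq_nat_or_neg k
  · rw [zpow_natCast, Units.val_pow_eq_pow_val]
    exact ⟨h.pow hx n, by rw [map_pow, ex, one_pow]⟩
  · rw [zpow_neg, zpow_natCast, ← inv_pow, Units.val_pow_eq_pow_val, mul_neg, ← neg_mul]
    exact ⟨h.pow hy n, (map_pow ev y n).trans (by rw [ey, one_pow])⟩

theorem Grd.key (h : Grd ev g) {p l : ℕ} {G : Law H} {w : ℕ → ℤ} (hw : ∀ i, Even (w i))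
    (hv : ∀ i, vv p i G ∈ g (w i)) {n : ℤ} {x : H} (hn : Even n) (hx : x ∈ g n)
    (hm : ev x ∈ Ih p l (G.map ev)) : x ∈ Ih p l G := by
  suffices hs : ∀ r ∈ Ih p l (G.map ev), ∃ x ∈ g n, x ∈ Ih p l G ∧ ev x = r by
    obtain ⟨y, hy, h1, h2⟩ := hs _ hm
    rwa [h.inj hn hx hy h2.symm]
  intro r hr
  induction hr using Submodule.span_induction with
  | mem r hr =>
    obtain ⟨i, hi, rfl⟩ := hr
    obtain ⟨y, hy, e⟩ := h.sur (hn.sub (hw i)) 1
    exact ⟨y * vv p i G, h.mul (sub_add_cancel _ _) hy (hv i),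
      Ideal.mul_mem_left _ _ (vv_mem_Ih hi G), by rw [map_mul, e, one_mul, vv_map]⟩
  | zero => exact ⟨0, zero_mem _, zero_mem _, map_zero _⟩
  | add r s _ _ h1 h2 =>
    obtain ⟨y, a1, a2, rfl⟩ := h1
    obtain ⟨z, b1, b2, rfl⟩ := h2
    exact ⟨y + z, add_mem a1 b1, add_mem a2 b2, map_add _ _ _⟩
  | smul c r _ h1 =>
    obtain ⟨y, a1, a2, rfl⟩ := h1
    obtain ⟨z, b1, rfl⟩ := h.sur Even.zero c
    exact ⟨z * y, h.mul (zero_add n) b1 a1, Ideal.mul_mem_left _ _ a2, map_mul _ _ _⟩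

theorem quad (ι : H →+* R) (σ : R →+* R) (hι : Function.Injective ι) (hσ : ∀ x, σ (ι x) = ι x)
    (v : R) (hv : σ v = -v) (w : H) (hw : v * v = ι w) (h2 : IsUnit (2 : R)) (S : Subring H)
    (hS : w ∈ S) : ∃ S' : Subring R, (∀ s ∈ S, ι s ∈ S') ∧ v ∈ S' ∧ (S' = ⊤ → S = ⊤) := by
  refine ⟨{ carrier := {z | ∃ s ∈ S, ∃ t ∈ S, z = ι s + ι t * v}
            mul_mem' := ?_
            one_mem' := ⟨1, one_mem _, 0, zero_mem _, by simp⟩
            add_mem' := ?_
            zero_mem' := ⟨0, zero_mem _, 0, zero_mem _, by simp⟩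
            neg_mem' := ?_ }, fun s hs => ⟨s, hs, 0, zero_mem _, by simp⟩,
    ⟨0, zero_mem _, 1, one_mem _, by simp⟩, fun h => (Subring.eq_top_iff' S).2 fun x => ?_⟩
  · rintro _ _ ⟨a, ha, b, hb, rfl⟩ ⟨c, hc, d, hd, rfl⟩
    refine ⟨a * c + b * d * w, add_mem (mul_mem ha hc) (mul_mem (mul_mem hb hd) hS),
      a * d + b * c, add_mem (mul_mem ha hd) (mul_mem hb hc), ?_⟩
    simp only [map_add, map_mul, ← hw]
    ring
  · rintro _ _ ⟨a, ha, b, hb, rfl⟩ ⟨c, hc, d, hd, rfl⟩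
    exact ⟨a + c, add_mem ha hc, b + d, add_mem hb hd, by simp only [map_add]; ring⟩
  · rintro _ ⟨a, ha, b, hb, rfl⟩
    exact ⟨-a, neg_mem ha, -b, neg_mem hb, by simp only [map_neg]; ring⟩
  · obtain ⟨s, hs, t, -, e⟩ := h.ge (Subring.mem_top (ι x))
    have e' := congrArg σ e
    rw [map_add, map_mul, hσ, hσ, hσ, hv] at e'
    rwa [hι (h2.mul_left_cancel (show 2 * ι x = 2 * ι s by linear_combination e + e'))]

end alg

section mon

open MonObj

variable {T : Type 1} [Category.{0} T] [MonoidalCategory T] {E Y : T} [MonObj E]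

/-- a retract which contains the unit and is closed under the product -/
structure Sub (s : Y ⟶ E) (r : E ⟶ Y) : Prop where
  s_r : s ≫ r = 𝟙 Y
  one_rs : (η[E] ≫ r) ≫ s = η[E]
  mul_rs : ((s ⊗ₘ s) ≫ μ[E] ≫ r) ≫ s = (s ⊗ₘ s) ≫ μ[E]

variable {s : Y ⟶ E} {r : E ⟶ Y}

theorem cancel (h : s ≫ r = 𝟙 Y) {A : T} {f g : A ⟶ Y} (e : f ≫ s = g ≫ s) : f = g := by
  rw [← Category.comp_id f, ← Category.comp_id g, ← h, ← Category.assoc, e, Category.assoc]

/-- the monoid structure on the retract -/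
@[reducible] def Sub.monObj (h : Sub s r) : MonObj Y where
  one := η[E] ≫ r
  mul := (s ⊗ₘ s) ≫ μ[E] ≫ r
  one_mul := by
    apply cancel h.s_r
    rw [Category.assoc, h.mul_rs, ← tensorHom_id, ← Category.assoc, tensorHom_comp_tensorHom,
      h.one_rs, Category.id_comp, tensorHom_def', Category.assoc, MonObj.one_mul,
      leftUnitor_naturality]
  mul_one := by
    apply cancel h.s_r
    rw [Category.assoc, h.mul_rs, ← id_tensorHom, ← Category.assoc, tensorHom_comp_tensorHom,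
      h.one_rs, Category.id_comp, MonoidalCategory.tensorHom_def, Category.assoc, MonObj.mul_one,
      rightUnitor_naturality]
  mul_assoc := by
    apply cancel h.s_r
    rw [Category.assoc, h.mul_rs, Category.assoc, Category.assoc, h.mul_rs, ← tensorHom_id,
      ← id_tensorHom, ← Category.assoc (_ ⊗ₘ 𝟙 Y), tensorHom_comp_tensorHom,
      ← Category.assoc (𝟙 Y ⊗ₘ _), tensorHom_comp_tensorHom, h.mul_rs, Category.id_comp]
    have e1 : ((s ⊗ₘ s) ≫ μ[E] ⊗ₘ s) = ((s ⊗ₘ s) ⊗ₘ s) ≫ μ[E] ▷ E := by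
      rw [← tensorHom_id, tensorHom_comp_tensorHom, Category.comp_id]
    have e2 : (s ⊗ₘ (s ⊗ₘ s) ≫ μ[E]) = (s ⊗ₘ (s ⊗ₘ s)) ≫ E ◁ μ[E] := by
      rw [← id_tensorHom, tensorHom_comp_tensorHom, Category.comp_id]
    rw [e1, e2, Category.assoc, Category.assoc, MonObj.mul_assoc, associator_naturality_assoc]

theorem hom_of [MonObj Y] [IsMonHom s] (h : s ≫ r = 𝟙 Y) {N : T} [MonObj N] (f : N ⟶ Y)
    (g : N ⟶ E) [IsMonHom g] (e : f ≫ s = g) : IsMonHom f := by
  refine ⟨cancel h ?_, cancel h ?_⟩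
  · rw [Category.assoc, e, IsMonHom.one_hom, IsMonHom.one_hom]
  · rw [Category.assoc, e, IsMonHom.mul_hom, Category.assoc, IsMonHom.mul_hom,
      tensorHom_comp_tensorHom_assoc, e]

theorem comm_of [BraidedCategory T] [IsCommMonObj E] [MonObj Y] [IsMonHom s] (h : s ≫ r = 𝟙 Y) :
    IsCommMonObj Y := by
  refine ⟨cancel h ?_⟩
  rw [Category.assoc, IsMonHom.mul_hom, ← BraidedCategory.braiding_naturality_assoc,
    IsCommMonObj.mul_comm]

end mon

variable {T : Type 1} [Category.{0} T] [Preadditive T] [HasZeroObject T]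
    [HasShift T ℤ] [∀ n : ℤ, (shiftFunctor T n).Additive] [Pretriangulated T] [IsTriangulated T]
    [MonoidalCategory T] [SymmetricCategory T] [TensorTriangulated T] [MonoidalClosed T]
    [HasCoproducts.{0} T] [HasProducts.{0} T] [StableCat T] {D : MUData T}

theorem two_inj {E Z : T} {t : E ⟶ E} (ht : t + t = 𝟙 E) {x : Z ⟶ E} (h : x + x = 0) : x = 0 := by
  rw [← Category.comp_id x, ← ht, Preadditive.comp_add, ← Preadditive.add_comp, h, zero_comp]

theorem split {E : T} (t sg : E ⟶ E) (ht : t + t = 𝟙 E) (hs : sg ≫ sg = 𝟙 E) :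
    ∃ (Y : T) (i : Y ⟶ E) (r : E ⟶ Y), i ≫ r = 𝟙 Y ∧ i ≫ sg = i ∧
      ∀ {Z : T} (x : Z ⟶ E), x ≫ sg = x → (x ≫ r) ≫ i = x := by
  have c : t ≫ sg = sg ≫ t := sub_eq_zero.1 (two_inj ht (by
    rw [sub_add_sub_comm, ← Preadditive.add_comp, ← Preadditive.comp_add, ht, Category.id_comp,
      Category.comp_id, sub_self]))
  have e1 : (t + t ≫ sg) ≫ sg = t + t ≫ sg := by
    rw [Preadditive.add_comp, Category.assoc, hs, Category.comp_id, add_comm]
  have e2 : ∀ {Z : T} (x : Z ⟶ E), x ≫ sg = x → x ≫ (t + t ≫ sg) = x := fun x hx => by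
    rw [c, Preadditive.comp_add, reassoc_of% hx, ← Preadditive.comp_add, ht, Category.comp_id]
  obtain ⟨Y, i, r, h1, h2⟩ := exists_split _ (e2 _ e1)
  have h3 : i ≫ (t + t ≫ sg) = i := by rw [← h2, reassoc_of% h1]
  exact ⟨Y, i, r, h1, by rw [← h3, Category.assoc, e1], fun x hx => by
    rw [Category.assoc, h2, e2 x hx]⟩

/-- the homogeneous elements -/
def hg (N : T) (n : ℤ) : AddSubgroup (HRing (stdEven T) N) :=
  (DirectSum.of ((stdEven T).Gr N) n).range

theorem of_mem {N : T} {n : ℤ} (x : (stdEven T).S n ⟶ N) : HRing.of _ N n x ∈ hg N n := ⟨x, rfl⟩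

theorem grd {N : T} [MonObj N] [IsCommMonObj N] {R : Type} [CommRing R]
    {ev : HRing (stdEven T) N →+* R} (h : ∀ w : ℤ, Even w → Function.Bijective
      fun a : (stdEven T).S w ⟶ N => ev (HRing.of _ N w a)) : Grd ev (hg N) where
  one := ⟨_, of_one⟩
  mul := by
    rintro m n p _ _ e ⟨x, rfl⟩ ⟨y, rfl⟩
    exact ⟨_, (of_mul_of e x y).symm⟩
  inj := by
    rintro n _ _ hn ⟨x, rfl⟩ ⟨y, rfl⟩ e
    exact congrArg _ ((h n hn).1 e)
  sur := fun hn r => ((h _ hn).2 r).elim fun x hx => ⟨_, of_mem x, hx⟩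

theorem map_inj {N N' : T} [MonObj N] [MonObj N'] (f : N ⟶ N') [IsMonHom f] (r : N' ⟶ N)
    (h : f ≫ r = 𝟙 N) : Function.Injective (HRing.map (E := stdEven T) f) := by
  let ψ : HRing (stdEven T) N' →+ HRing (stdEven T) N := DirectSum.toAddMonoid fun n =>
    (DirectSum.of ((stdEven T).Gr N) n).comp (Preadditive.rightComp _ r)
  refine Function.LeftInverse.injective (g := ψ) fun x => ?_
  induction x using DirectSum.induction_on with
  | zero => rw [map_zero, map_zero]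
  | of n x =>
    refine (congrArg ψ (HRing.map_of f n x)).trans ((DirectSum.toAddMonoid_of _ _ _).trans ?_)
    exact congrArg (DirectSum.of _ n) ((Category.assoc _ _ _).trans (by rw [h, Category.comp_id]))
  | add x y hx hy => rw [map_add, map_add, hx, hy]

theorem map_map {N N' N'' : T} [MonObj N] [MonObj N'] [MonObj N''] {f : N ⟶ N'} [IsMonHom f]
    {g : N' ⟶ N''} [IsMonHom g] {k : N ⟶ N''} [IsMonHom k] (e : f ≫ g = k)
    (x : HRing (stdEven T) N) : HRing.map g (HRing.map f x) = HRing.map k x := by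
  rw [← RingHom.comp_apply, ← HRing.map_comp, HRing_map_congr e]

theorem two_unit (a : AlgD) : IsUnit (2 : a.R) := by
  have h := (isUnit_one_sub_self_of_mem_nonunits _ a.base.three).neg
  rwa [show -(1 - 3 : a.R) = 2 by norm_num] at h

theorem Ih_max (a : AlgD) : Ih 3 6 a.F = maximalIdeal a.R :=
  (congrArg Ideal.span (Set.ext fun _ => exists_congr fun _ =>
    and_congr_right fun _ => eq_comm)).trans a.lt.gen

theorem res_int (a : AlgD) (r : a.R) : ∃ c : ℤ, r - c ∈ maximalIdeal a.R := by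
  obtain ⟨c, hc⟩ := ZMod.intCast_surjective (a.res r)
  exact ⟨c, by rw [← a.ker, RingHom.mem_ker, map_sub, map_intCast, hc, sub_self]⟩

variable {a : AlgD} {K : KD D 3 6} (P : ED a K)

theorem half : ∃ t : P.E ⟶ P.E, t + t = 𝟙 _ := by
  obtain ⟨s, hs⟩ := (two_unit a).exists_right_inv
  obtain ⟨x, hx⟩ := (P.bij 0).2 s
  have e : x + x = (stdEven T).zero.inv ≫ MonObj.one := (P.bij 0).1 (by
    change P.ev (DirectSum.of ((stdEven T).Gr P.E) 0 (x + x)) = P.ev 1
    rw [map_add, map_add, map_one, ← hs, two_mul]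
    exact congrArg₂ (· + ·) hx hx)
  refine ⟨(ModStr.self P.E).smul ((stdEven T).zero.hom ≫ x), ?_⟩
  rw [← ModStr.smul_add, ← Preadditive.comp_add, e, Iso.hom_inv_id_assoc, ModStr.smul_one]

theorem gen {Y : T} [MonObj Y] [IsCommMonObj Y] (i : Y ⟶ P.E) [IsMonHom i] (r : P.E ⟶ Y)
    (h1 : i ≫ r = 𝟙 Y) (h2 : i ≫ P.sg = i)
    (h3 : ∀ {Z : T} (x : Z ⟶ P.E), x ≫ P.sg = x → (x ≫ r) ≫ i = x) (u : D.R ⟶ Y) [IsMonHom u]
    (hu : u ≫ i = P.u) : Gen D K.φ u (fun _ : Unit => 𝟙 Y) := by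
  intro A _ _ κ _ hA
  have w1 : A ◁ i ≫ A ◁ r = 𝟙 _ := by
    rw [← MonoidalCategory.whiskerLeft_comp, h1, MonoidalCategory.whiskerLeft_id]
  refine ⟨fun l f => cancel w1 (((P.gen A κ hA).1 l _).trans zero_comp.symm), fun S s1 s2 s3 => ?_⟩
  have G := grd fun w _ => P.bij w
  obtain ⟨v, hv⟩ := (P.bij 1).2 1
  have ev : ∀ (n : ℤ) (x : (stdEven T).S n ⟶ P.E), Even n →
      HRing.map (𝟙 _ ≫ inrM A P.E) (HRing.of _ P.E n x) =
        HRing.map (A ◁ i) (HRing.map (𝟙 _ ≫ inrM A Y) (HRing.of _ Y n (x ≫ r))) := by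
    intro n x hn
    rw [HRing.map_of, HRing.map_of, HRing.map_of, Category.id_comp, Category.id_comp,
      Category.assoc _ (inrM A Y), inrM_whiskerLeft, ← Category.assoc, h3 x (P.sg_even n hn x)]
  obtain ⟨S', t1, t2, t3⟩ := quad (HRing.map (E := stdEven T) (A ◁ i)) (HRing.map (A ◁ P.sg))
    (map_inj _ _ w1) (map_map (by rw [← MonoidalCategory.whiskerLeft_comp, h2]))
    (HRing.map (𝟙 _ ≫ inrM A P.E) (HRing.of _ P.E 1 v)) (by
      rw [HRing.map_of, HRing.map_of, Category.id_comp, Category.assoc, inrM_whiskerLeft,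
        ← Category.assoc, P.sg_odd 1 odd_one, Preadditive.neg_comp]
      exact map_neg _ _) _
    (by rw [← map_mul, of_mul_of one_add_one_eq_two, ev _ _ even_two]) (by
      have h := (G.unit (x := 2) Even.zero (by simpa using G.int G.one 2)
        (by rw [map_ofNat]; exact two_unit a)).map (HRing.map (inrM A P.E))
      rwa [map_ofNat] at h) S (s2 () _)
  refine t3 ((P.gen A κ hA).2 S' (fun x => ?_) (fun _ x => ?_) fun _ n => ?_)
  · rw [← map_map (inlM_whiskerLeft i)]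
    exact t1 _ (s1 x)
  · induction x using DirectSum.induction_on with
    | zero => rw [map_zero]; exact zero_mem _
    | add x y hx hy => rw [map_add]; exact add_mem hx hy
    | of n x =>
      rcases Int.even_or_odd n with hn | hn
      · exact (ev n x hn).symm ▸ t1 _ (s2 () _)
      · obtain ⟨y, hy⟩ := (P.bij (n - 1)).2 (P.ev (HRing.of _ P.E n x))
        have e : EvenSpheres.gmul (sub_add_cancel n 1) y v = x := (P.bij n).1 (by
          change P.ev (HRing.of _ P.E n _) = P.ev (HRing.of _ P.E n x)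
          rw [← of_mul_of, map_mul]
          exact (congrArg₂ (· * ·) hy hv).trans (mul_one _))
        change HRing.map _ (HRing.of _ P.E n x) ∈ S'
        rw [← e, ← of_mul_of, map_mul, ev _ _ (hn.sub_odd odd_one)]
        exact mul_mem (t1 _ (s2 () _)) t2
  · have h := t1 _ (s3 () n)
    rwa [← InvSeries.c_map, sIso_map, sIso_congr D (a' := K.φ ≫ κ ≫ inlM A P.E)
      (b' := P.u ≫ 𝟙 _ ≫ inrM A P.E) (by simp only [Category.assoc, inlM_whiskerLeft])
      (by simp only [Category.assoc, Category.id_comp, inrM_whiskerLeft, reassoc_of% hu])] at h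

end Plus

open Plus

variable {T : Type 1} [Category.{0} T] [Preadditive T] [HasZeroObject T]
    [HasShift T ℤ] [∀ n : ℤ, (shiftFunctor T n).Additive] [Pretriangulated T] [IsTriangulated T]
    [MonoidalCategory T] [SymmetricCategory T] [TensorTriangulated T] [MonoidalClosed T]
    [HasCoproducts.{0} T] [HasProducts.{0} T] [StableCat T] {D : MUData T}

theorem plus (a : AlgD) (K : KD D 3 6) (P : ED a K) : ∃ Q : EDat D, Nonempty (Top.Alg Q) := by
  obtain ⟨t, ht⟩ := half P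
  obtain ⟨Y, i, r, h1, h2, h3⟩ := split t P.sg ht P.sg_sg
  have hs : Sub i r := ⟨h1, h3 _ (IsMonHom.one_hom _), by
    rw [← Category.assoc (i ⊗ₘ i)]
    exact h3 _ (by rw [Category.assoc, IsMonHom.mul_hom, tensorHom_comp_tensorHom_assoc, h2])⟩
  letI := hs.monObj
  haveI : IsMonHom i := ⟨hs.one_rs, hs.mul_rs⟩
  haveI : IsCommMonObj Y := comm_of h1
  obtain ⟨u, hu⟩ : ∃ u : D.R ⟶ Y, u ≫ i = P.u := ⟨_, h3 _ P.u_sg⟩
  obtain ⟨ρ, hρ⟩ : ∃ ρ : Y ⟶ Y, ρ ≫ i = i ≫ P.ρ :=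
    ⟨_, h3 _ (by rw [Category.assoc, P.ρ_sg, reassoc_of% h2])⟩
  haveI := hom_of h1 u _ hu
  haveI := hom_of h1 ρ _ hρ
  let ev := P.ev.comp (HRing.map (E := stdEven T) i)
  have evo : ∀ (w : ℤ) (x : (stdEven T).S w ⟶ Y),
      ev (HRing.of _ Y w x) = P.ev (HRing.of _ P.E w (x ≫ i)) := fun w x =>
    congrArg P.ev (HRing.map_of i w x)
  have bij : ∀ w : ℤ, Even w → Function.Bijective
      fun x : (stdEven T).S w ⟶ Y => ev (HRing.of _ Y w x) := fun w hw =>
    ⟨fun x y e => cancel h1 ((P.bij w).1 (((evo w x).symm.trans e).trans (evo w y))), fun s =>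
      ((P.bij w).2 s).elim fun x hx => ⟨x ≫ r, (evo w _).trans
        (by rw [h3 x (P.sg_even w hw x)]; exact hx)⟩⟩
  have zer : ∀ w : ℤ, Odd w → ∀ x : (stdEven T).S w ⟶ Y, x = 0 := fun w hw x =>
    cancel h1 ((two_inj ht (by
      have h := P.sg_odd w hw (x ≫ i)
      rw [Category.assoc, h2] at h
      exact eq_neg_iff_add_eq_zero.1 h)).trans zero_comp.symm)
  have law : (lawOf u).map ev = a.F := by
    rw [← P.law, lawOf, lawOf, Law.map_map, Law.map_map, RingHom.comp_assoc, ← HRing.map_comp,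
      HRing_map_congr hu]
  have evρ : ∀ (w : ℤ) (x : (stdEven T).S w ⟶ Y), ev (HRing.of _ Y w (x ≫ ρ)) =
      (Tate.twOf a.γ a.f).act (-w) (ev (HRing.of _ Y w x)) := fun w x => by
    rw [evo, evo, Category.assoc, hρ, ← Category.assoc, P.ev_ρ]
  have ser : ∀ (g : Y ⟶ Y) [IsMonHom g] (g' : P.E ⟶ P.E) [IsMonHom g'], g ≫ i = i ≫ g' → ∀ n,
      ev ((sIso D u (u ≫ g)).c n) = P.ev ((sIso D P.u (P.u ≫ g')).c n) := fun g _ g' _ e n => by
    rw [RingHom.comp_apply, ← InvSeries.c_map, sIso_map,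
      sIso_congr D hu (b' := P.u ≫ g') (by rw [Category.assoc, e, reassoc_of% hu])]
  have G := grd bij
  have hv : ∀ j : ℕ, vv 3 j (lawOf u) ∈ hg Y (((3 : ℕ) ^ j : ℤ) - 1) := fun j => by
    rw [lawOf, vv_map, D.vel_spec, HRing.map_of]
    exact of_mem _
  have hw : ∀ j : ℕ, Even ((((3 : ℕ) : ℤ) ^ j : ℤ) - 1) := fun j =>
    (Odd.pow (by decide)).sub_odd odd_one
  have key : ∀ {n : ℤ} {x : HRing (stdEven T) Y}, Even n → x ∈ hg Y n →
      ev x ∈ maximalIdeal a.R → x ∈ Ih 3 6 (lawOf u) := fun hn hx hm =>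
    G.key hw hv hn hx (by rwa [law, Ih_max])
  obtain ⟨U, hU⟩ := G.exU
  obtain ⟨⟨U₀, hU₀⟩, eU⟩ : U.val ∈ hg Y 2 ∧ ev U.val = 1 := by simpa using hU 1
  refine ⟨{ E := Y, uE := u, ρ := ρ, ρ9 := cancel h1 ?_, K := K, loc := P.loc.retract i r h1
            gen := gen P i r h1 h2 h3 u hu, U := U, U_hom := ⟨2, U₀, hU₀.symm⟩
            int := fun n x => ?_, v6 := ?_, v6_unit := G.unit (hw 6) (hv 6) ?_, ρU := ?_
            unit := fun x hx => G.unit Even.zero (of_mem x) ?_ },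
    ⟨{ R := a.R, base := a.base, tf := a.tf, res := res_int a, F := a.F, γ := a.γ, f := a.f
       lt := a.lt, ev := ev, bij := bij, zero := zer
       odd := fun l f => cancel h1 ((P.odd l _).trans zero_comp.symm), ev_ρ := evρ, law := law
       ser := fun n => (ser ρ P.ρ hρ n).trans (P.ser n)
       ser3 := fun n => (ser (ρ ≫ ρ ≫ ρ) (P.ρ ≫ P.ρ ≫ P.ρ) ?_ n).trans (P.ser3 n)
       B := a.A, h27 := a.h27, h9 := fun b hb hu => a.h9 (hu.mul_left_eq_zero.1 hb), lam := a.pt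
       lam_loc := ⟨fun x hx => by_contra fun h => a.pt_loc x h hx⟩, lam_γ := a.pt_γ
       lam_t := ?_ }⟩⟩
  · have h := P.ρ9
    simp only [Category.assoc] at h
    simp only [Category.assoc, hρ, reassoc_of% hρ, h, Category.comp_id, Category.id_comp]
  · rcases Int.even_or_odd n with ⟨k, rfl⟩ | hn
    · obtain ⟨c, hc⟩ := res_int a (ev (HRing.of _ Y _ x))
      refine ⟨c, k, key ⟨k, rfl⟩ (sub_mem (of_mem x) (G.int (two_mul k ▸ (hU k).1) c)) ?_⟩
      rwa [map_sub, map_mul, (hU k).2, mul_one, map_intCast]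
    · refine ⟨0, 0, ?_⟩
      rw [zer n hn x, Int.cast_zero, zero_mul, sub_zero, HRing.of, map_zero]
      exact zero_mem _
  · obtain ⟨c, hc⟩ := res_int a (ev (vv 3 6 (lawOf u)))
    obtain ⟨N, h3N, e⟩ : ∃ N : ℕ, ¬ 3 ∣ N ∧ ((3 : ℕ) : ℤ) ^ 6 - 1 = 2 * N :=
      ⟨364, by norm_num, by norm_num⟩
    refine ⟨c, N, h3N, key (hw 6) (sub_mem (hv 6) (G.int ?_ c)) ?_⟩
    · rw [e]
      exact G.pow ⟨U₀, hU₀⟩ N
    · rwa [map_sub, map_mul, map_pow, eU, one_pow, mul_one, map_intCast]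
  · rw [← vv_map, law, ← notMem_maximalIdeal, ← a.ker, RingHom.mem_ker, ← vv_map]
    exact a.ht.top.ne_zero
  · rw [← hU₀] at eU ⊢
    refine key even_two (sub_mem ((HRing.map_of ρ 2 U₀).symm ▸ of_mem _) (of_mem U₀)) ?_
    rw [map_sub, HRing.map_of, evρ, eU, Tate.Tw.act, map_one, one_mul, Tate.twOf, inv_zpow', neg_neg,
      zpow_two, Units.val_mul, IsUnit.unit_spec, mul_self_sub_one]
    exact Ideal.mul_mem_left _ _ a.lt.strict
  · have h := Ideal.mem_map_of_mem ev hx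
    rw [← Ih_map, law, Ih_max, map_sub, map_one, ← neg_mem_iff, neg_sub] at h
    simpa using isUnit_one_sub_self_of_mem_nonunits _ h
  · simp only [Category.assoc, hρ, reassoc_of% hρ]
  · rw [← mul_one (_ ^ 9), ← a.pt_f, ← mul_pow, ← map_mul]
    exact (congrArg (fun z => a.pt z ^ 9) a.f.isUnit.val_inv_mul).trans
      (by rw [map_one, one_pow, a.pt_f])

end Vale.Agent.P236Z.E
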