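import Vale.Agent.P236Z.E.Fz
import Vale.Agent.P251.X.Split

/-!
# P236, block E: the ring spectrum of a completed free ring
-/

open CategoryTheory MonoidalCategory Limits Pretriangulated MonObj
open Vale.Agent.P251 Vale.Agent.P251.T Vale.Agent.P251.M Vale.Agent.P251.S Vale.Agent.P251.F
  Vale.Agent.P251.I Vale.Agent.P251.X Vale.Agent.P236Z.Mod

set_option linter.unusedSectionVars false

noncomputable section

universe v u

namespace Vale.Agent.P236Z.E

open Fz

namespace Ym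

section Alg

variable {S M : Type} [CommRing S] [CommRing M]

/-- `M` is separated as a module through `l` -/
def SepR (l : Laz →+* M) : Prop :=
  letI := l.toAlgebra
  Sep M

lemma sepR_of_cmp {l : Laz →+* M} {J : Type} {c : J → M} (h : Cmp l c) : SepR l := by
  letI := l.toAlgebra
  have h' : CompCond (Laz.I 3 6) (Laz.v 3 6) (Finsupp.linearCombination Laz c) := h
  exact ⟨h'.haus, h'.inj⟩

lemma sepR_of (l : Laz →+* M) (h1 : ∀ x : M, (∀ k, x ∈ Ih 3 6 (Laz.univ.map l) ^ k) → x = 0)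
    (h2 : ∀ x : M, vv 3 6 (Laz.univ.map l) * x = 0 → x = 0) : SepR l := by
  letI := l.toAlgebra
  refine ⟨fun e he => h1 e fun k => ?_, fun e he => h2 e ?_⟩
  · have h := he k
    rw [Ideal.smul_top_eq_map, Submodule.restrictScalars_mem, Ideal.map_pow] at h
    rw [← Laz.I_map]
    exact h
  · rw [← Laz.map_v]
    exact he

/-- additive maps compatible with the scalars -/
def Lin (lS : Laz →+* S) (lM : Laz →+* M) (ψ : S →+ M) : Prop :=
  ∀ z y, ψ (lS z * y) = lM z * ψ y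

theorem unq (hU : UNQ) {lS : Laz →+* S} {lM : Laz →+* M} {J : Type} {b : J → S} (hS : Cmp lS b)
    (hM : SepR lM) {ψ ψ' : S →+ M} (hψ : Lin lS lM ψ) (hψ' : Lin lS lM ψ')
    (h : ∀ j, ψ (b j) = ψ' (b j)) (y : S) : ψ y = ψ' y := by
  letI := lS.toAlgebra
  letI := lM.toAlgebra
  let L : S →ₗ[Laz] M := { ψ with map_smul' := fun z y => hψ z y }
  let L' : S →ₗ[Laz] M := { ψ' with map_smul' := fun z y => hψ' z y }
  have e : L = L' := (hU _ _ M (Finsupp.linearCombination Laz b) hS hM).1 L L' (by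
    refine Finsupp.lhom_ext' fun j => LinearMap.ext_ring ?_
    simp only [LinearMap.comp_apply, Finsupp.lsingle_apply, Finsupp.linearCombination_single,
      one_smul]
    exact h j)
  exact LinearMap.congr_fun e y

theorem exi (hU : UNQ) {lS : Laz →+* S} {lM : Laz →+* M} {J : Type} {b : J → S} (hS : Cmp lS b)
    {J' : Type} {c : J' → M} (hM : Cmp lM c) (t : J → M) :
    ∃ ψ : S →+ M, Lin lS lM ψ ∧ ∀ j, ψ (b j) = t j := by
  letI := lS.toAlgebra
  letI := lM.toAlgebra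
  have h' : CompCond (Laz.I 3 6) (Laz.v 3 6) (Finsupp.linearCombination Laz c) := hM
  obtain ⟨L, hL⟩ := (hU _ _ M (Finsupp.linearCombination Laz b) hS (sepR_of_cmp hM)).2
    h'.complete h'.surj (Finsupp.linearCombination Laz t)
  refine ⟨L.toAddMonoidHom, fun z y => L.map_smul z y, fun j => ?_⟩
  have h := LinearMap.congr_fun hL (Finsupp.single j 1)
  simp only [LinearMap.comp_apply, Finsupp.linearCombination_single, one_smul] at h
  exact h

theorem alg (hU : UNQ) {lS : Laz →+* S} {lM : Laz →+* M} {J : Type} {β : J → M} (hM : Cmp lM β)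
    {b : M →* S} (hS : Cmp lS b) :
    ∃ (ev : S →+* M) (σ : M →+ S), (∀ z, ev (lS z) = lM z) ∧ (∀ x, ev (b x) = x) ∧
      (∀ x, ev (σ x) = x) ∧ Lin lM lS σ := by
  obtain ⟨ev, hev, ev_b⟩ := exi hU hS hM (fun x => x)
  obtain ⟨σ, hσ, σ_β⟩ := exi hU hM hS (fun j => b (β j))
  have hs := sepR_of_cmp hM
  have h1 : ∀ x y, ev (b x * y) = x * ev y := fun x y =>
    unq hU hS hs (ψ := ev.comp (AddMonoidHom.mulLeft (b x)))
      (ψ' := (AddMonoidHom.mulLeft x).comp ev)
      (fun z y => by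
        change ev (b x * (lS z * y)) = lM z * ev (b x * y)
        rw [mul_left_comm, hev])
      (fun z y => by
        change x * ev (lS z * y) = lM z * (x * ev y)
        rw [hev, mul_left_comm])
      (fun j => by
        change ev (b x * b j) = x * ev (b j)
        rw [← map_mul, ev_b, ev_b]) y
  have h2 : ∀ y y', ev (y * y') = ev y * ev y' := fun y y' =>
    unq hU hS hs (ψ := ev.comp (AddMonoidHom.mulRight y'))
      (ψ' := (AddMonoidHom.mulRight (ev y')).comp ev)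
      (fun z y => by
        change ev (lS z * y * y') = lM z * ev (y * y')
        rw [_root_.mul_assoc, hev])
      (fun z y => by
        change ev (lS z * y) * ev y' = lM z * (ev y * ev y')
        rw [hev, _root_.mul_assoc])
      (fun j => by
        change ev (b j * y') = ev (b j) * ev y'
        rw [h1, ev_b]) y
  have h3 : ev 1 = 1 := by rw [← map_one b, ev_b]
  refine ⟨{ ev with map_one' := h3, map_mul' := h2 }, σ, fun z => ?_, ev_b, fun x => ?_, hσ⟩
  · change ev (lS z) = lM z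
    rw [← _root_.mul_one (lS z), hev, h3, _root_.mul_one]
  · exact unq hU hM hs (ψ := ev.comp σ) (ψ' := AddMonoidHom.id M)
      (fun z y => by
        change ev (σ (lM z * y)) = lM z * ev (σ y)
        rw [hσ, hev])
      (fun z y => rfl)
      (fun j => by
        change ev (σ (β j)) = β j
        rw [σ_β, ev_b]) x

end Alg

section Cat

variable {C : Type u} [Category.{v} C] [MonoidalCategory C] [SymmetricCategory C]
  {P Z : C} [MonObj P] [MonObj Z] (p : P ⟶ Z)

lemma whisker_descM {X Y : C} (k : X ⟶ Y) (g : Y ⟶ Z) :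
    (P ◁ k) ≫ descM p g = descM p (k ≫ g) := by
  rw [descM, descM, ← id_tensorHom, tensorHom_comp_tensorHom_assoc, Category.id_comp]

lemma whisker_descM_id [IsMonHom p] {X : C} (g : X ⟶ Z) :
    descM p (descM p g) = (α_ P P X).inv ≫ (μ[P] ▷ X) ≫ descM p g := by
  have h1 : (μ[P] ▷ X) ≫ (p ⊗ₘ g) = ((p ⊗ₘ p) ⊗ₘ g) ≫ (μ[Z] ▷ Z) := by
    rw [← tensorHom_id, ← tensorHom_id, tensorHom_comp_tensorHom, tensorHom_comp_tensorHom,
      IsMonHom.mul_hom, Category.comp_id, Category.id_comp]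
  have h2 : p ⊗ₘ ((p ⊗ₘ g) ≫ μ[Z]) = (p ⊗ₘ (p ⊗ₘ g)) ≫ (Z ◁ μ[Z]) := by
    rw [← id_tensorHom, tensorHom_comp_tensorHom, Category.comp_id]
  unfold descM
  rw [reassoc_of% h1, MonObj.mul_assoc, associator_naturality_assoc, Iso.inv_hom_id_assoc, h2,
    Category.assoc]

/-- a map `e` with `descM p g ≫ e = descM p g'` is linear on the image of `descM p g` -/
lemma lin_aux [IsMonHom p] {X : C} {g g' : X ⟶ Z} {e : Z ⟶ Z}
    (h : descM p g ≫ e = descM p g') :
    (P ◁ descM p g) ≫ descM p (𝟙 Z) ≫ e = (P ◁ descM p g) ≫ descM p e := by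
  rw [← Category.assoc, whisker_descM, whisker_descM, Category.comp_id, h, whisker_descM_id,
    whisker_descM_id, Category.assoc, Category.assoc, h]

lemma descM_lin {e : Z ⟶ Z} (he : descM p (𝟙 Z) ≫ e = descM p e) {X : C} (g : X ⟶ Z) :
    descM p g ≫ e = descM p (g ≫ e) := by
  rw [← whisker_descM, ← he, ← Category.assoc, whisker_descM, Category.comp_id]

lemma scMul_descM (a : 𝟙_ C ⟶ P) (y : 𝟙_ C ⟶ Z) :
    scMul (a ≫ p) y = (λ_ (𝟙_ C)).inv ≫ (a ▷ 𝟙_ C) ≫ descM p y := by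
  rw [scMul, descM, ← tensorHom_id, tensorHom_comp_tensorHom_assoc, Category.id_comp]

lemma scMul_lin {e : Z ⟶ Z} (he : descM p (𝟙 Z) ≫ e = descM p e) (a : 𝟙_ C ⟶ P)
    (y : 𝟙_ C ⟶ Z) : scMul (a ≫ p) y ≫ e = scMul (a ≫ p) (y ≫ e) := by
  rw [scMul_descM, scMul_descM, Category.assoc, Category.assoc, descM_lin p he]

lemma descM_tensor [IsMonHom p] [IsCommMonObj Z] {X X' : C} (g : X ⟶ Z) (g' : X' ⟶ Z) :
    (descM p g ⊗ₘ descM p g') ≫ μ[Z] =
      tensorμ P X P X' ≫ (μ[P] ▷ (X ⊗ X')) ≫ descM p ((g ⊗ₘ g') ≫ μ[Z]) := by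
  have h1 : (μ[P] ▷ (X ⊗ X')) ≫ (p ⊗ₘ ((g ⊗ₘ g') ≫ μ[Z])) =
      ((p ⊗ₘ p) ⊗ₘ (g ⊗ₘ g')) ≫ (μ[Z] ⊗ₘ μ[Z]) := by
    rw [← tensorHom_id, tensorHom_comp_tensorHom, tensorHom_comp_tensorHom,
      IsMonHom.mul_hom, Category.id_comp]
  unfold descM
  rw [reassoc_of% h1, ← tensorμ_natural_assoc, MonObj.mul_mul_mul_comm,
    ← tensorHom_comp_tensorHom, Category.assoc]

lemma split_tensor {Y Y' W W' N : C} {s : Y ⟶ W} {π : W ⟶ Y} (h : s ≫ π = 𝟙 Y) {s' : Y' ⟶ W'}
    {π' : W' ⟶ Y'} (h' : s' ≫ π' = 𝟙 Y') (g k : Y ⊗ Y' ⟶ N)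
    (H : (π ⊗ₘ π') ≫ g = (π ⊗ₘ π') ≫ k) : g = k := by
  have e : (s ⊗ₘ s') ≫ (π ⊗ₘ π') = 𝟙 _ := by
    rw [tensorHom_comp_tensorHom, h, h', id_tensorHom_id]
  rw [← Category.id_comp g, ← Category.id_comp k, ← e, Category.assoc, H, Category.assoc]

/-- the image of an idempotent whose kernel is an ideal -/
theorem exists_mon_split [IsCommMonObj Z] {Y : C} {s : Y ⟶ Z} {π : Z ⟶ Y} (h : s ≫ π = 𝟙 Y)
    (he : ((π ≫ s) ⊗ₘ (π ≫ s)) ≫ μ[Z] ≫ π ≫ s = μ[Z] ≫ π ≫ s) :
    ∃ (_ : MonObj Y) (_ : IsCommMonObj Y), IsMonHom π := by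
  have h2 : (s ⊗ₘ s) ≫ (π ⊗ₘ π) = 𝟙 _ := by
    rw [tensorHom_comp_tensorHom, h, id_tensorHom_id]
  let Q : Push π :=
    { mul := (s ⊗ₘ s) ≫ μ[Z] ≫ π
      hmul := by
        have h3 := congrArg (· ≫ π) he
        simp only [Category.assoc, h, Category.comp_id] at h3
        rw [tensorHom_comp_tensorHom_assoc, h3]
      c1 := fun g k H => split_tensor (Category.id_comp (𝟙 _)) h g k (by
        rw [id_tensorHom, H])
      c2 := fun g k H => split_tensor h (Category.id_comp (𝟙 _)) g k (by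
        rw [tensorHom_id, H])
      c3 := fun g k H => split_tensor h h g k H
      c4 := fun g k H => split_tensor h2 h g k H }
  exact Q.exists_mon

end Cat

section T0

variable {T : Type 1} [Category.{0} T] [Preadditive T] [HasZeroObject T]
    [HasShift T ℤ] [∀ n : ℤ, (shiftFunctor T n).Additive] [Pretriangulated T] [IsTriangulated T]
    [MonoidalCategory T] [SymmetricCategory T] [TensorTriangulated T] [MonoidalClosed T]
    [HasCoproducts.{0} T] [HasProducts.{0} T] [StableCat T] {D : MUData T}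

lemma lamQ_comp {N N' : T} [MonObj N] [IsCommMonObj N] [MonObj N'] [IsCommMonObj N']
    (q : D.P ⟶ N) [IsMonHom q] (f : N ⟶ N') [IsMonHom f] (q' : D.P ⟶ N') [IsMonHom q']
    (h : q ≫ f = q') (z : Laz) : Sc.map f (lamQ q z) = lamQ q' z := by
  have h1 : ((lamP D z).hom ≫ q) ≫ f = (lamP D z).hom ≫ q' := by rw [Category.assoc, h]
  exact h1

/-- composition as an additive map on scalars -/
def post {N N' : T} (f : N ⟶ N') : Sc N →+ Sc N' where
  toFun y := Sc.of (y.hom ≫ f)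
  map_zero' := zero_comp
  map_add' _ _ := Preadditive.add_comp _ _ _ _ _ _

lemma post_comp {N N' N'' : T} (f : N ⟶ N') (g : N' ⟶ N'') (y : Sc N) :
    post g (post f y) = post (f ≫ g) y := Category.assoc _ _ _

lemma post_id {N : T} (y : Sc N) : post (𝟙 N) y = y := Category.comp_id _

lemma map_eq_post {N N' : T} [MonObj N] [IsCommMonObj N] [MonObj N'] [IsCommMonObj N']
    (f : N ⟶ N') [IsMonHom f] (y : Sc N) : Sc.map f y = post f y := rfl

variable {Dk : Kos D} {B : Type} [CommRing B]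

/-- The idempotent. -/
theorem exists_idem (hU : UNQ) (Zd : FreeZ Dk B) (hS : Cmp (lamQ Zd.p) Zd.b) {lB : Laz →+* B}
    {ev : Sc Zd.Z →+* B} {σ : B →+ Sc Zd.Z} (h1 : ∀ z, ev (lamQ Zd.p z) = lB z)
    (h2 : ∀ x, ev (Zd.b x) = x) (h3 : ∀ x, ev (σ x) = x) (h4 : Lin lB (lamQ Zd.p) σ) :
    ∃ e : Zd.Z ⟶ Zd.Z, gens Zd.p Zd.b ≫ e = gens Zd.p σ ∧ (∀ y, post e y = σ (ev y)) ∧
      e ≫ e = e ∧ (e ⊗ₘ e) ≫ μ[Zd.Z] ≫ e = μ[Zd.Z] ≫ e := by
  obtain ⟨e, he⟩ : ∃ e : Zd.Z ⟶ Zd.Z, gens Zd.p Zd.b ≫ e = gens Zd.p σ :=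
    ⟨_, Zd.keq.comp_ext Zd.loc _⟩
  obtain ⟨gb, hgb⟩ : ∃ g : SB T B ⟶ Zd.Z, g = descS fun x => (Zd.b x).hom := ⟨_, rfl⟩
  obtain ⟨gσ, hgσ⟩ : ∃ g : SB T B ⟶ Zd.Z, g = descS fun x => (σ x).hom := ⟨_, rfl⟩
  have ib : ∀ x, inS T x ≫ gb = (Zd.b x).hom := fun x => by rw [hgb, inS_descS]
  have iσ : ∀ x, inS T x ≫ gσ = (σ x).hom := fun x => by rw [hgσ, inS_descS]
  have he' : descM Zd.p gb ≫ e = descM Zd.p gσ := by
    rw [hgb, hgσ]
    exact he
  have hk : KEq Dk.K (descM Zd.p gb) := by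
    rw [hgb]
    exact Zd.keq
  have hlin : descM Zd.p (𝟙 Zd.Z) ≫ e = descM Zd.p e :=
    (hk.whiskerLeft D.P).hom_ext Zd.loc (lin_aux Zd.p he')
  have hb : gb ≫ e = gσ := by
    have h := congrArg (inrM D.P (SB T B) ≫ ·) he'
    simp only [inrM_descM_assoc, inrM_descM] at h
    exact h
  have hy : ∀ y, post e y = σ (ev y) := fun y =>
    unq hU hS (sepR_of_cmp hS) (ψ := post e) (ψ' := σ.comp ev.toAddMonoidHom)
      (fun z y => scMul_lin Zd.p hlin (lamP D z).hom y.hom)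
      (fun z y => by
        change σ (ev (lamQ Zd.p z * y)) = lamQ Zd.p z * σ (ev y)
        rw [map_mul, h1, h4])
      (fun x => by
        have h : (Zd.b x).hom ≫ e = (σ x).hom := by rw [← ib, Category.assoc, hb, iσ]
        change Sc.of ((Zd.b x).hom ≫ e) = σ (ev (Zd.b x))
        rw [h, h2]
        rfl) y
  have hy' : ∀ y : Sc Zd.Z, y.hom ≫ e = (σ (ev y)).hom := hy
  have hσ : gσ ≫ e = gσ := jEpi_inS _ _ fun x => by
    rw [← Category.assoc, iσ, hy', h3]
  refine ⟨e, he, hy, ?_, ?_⟩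
  · apply hk.hom_ext Zd.loc
    rw [reassoc_of% he', descM_lin Zd.p hlin, hσ, he']
  · apply (keq_tensor hk hk).hom_ext Zd.loc
    have h5 : ((gσ ⊗ₘ gσ) ≫ μ[Zd.Z]) ≫ e = ((gb ⊗ₘ gb) ≫ μ[Zd.Z]) ≫ e := by
      refine jEpi_inS.tensor jEpi_inS _ _ fun i => ?_
      obtain ⟨x, y⟩ := i
      dsimp only
      simp only [Category.assoc]
      rw [tensorHom_comp_tensorHom_assoc, tensorHom_comp_tensorHom_assoc, iσ, iσ, ib, ib,
        reassoc_of% (tensor_mul_eq (σ x).hom (σ y).hom),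
        reassoc_of% (tensor_mul_eq (Zd.b x).hom (Zd.b y).hom)]
      have e1 : scMul (σ x).hom (σ y).hom ≫ e = (σ (ev (σ x * σ y))).hom := hy' (σ x * σ y)
      have e2 : scMul (Zd.b x).hom (Zd.b y).hom ≫ e = (σ (ev (Zd.b x * Zd.b y))).hom :=
        hy' (Zd.b x * Zd.b y)
      rw [e1, e2, map_mul ev, map_mul ev, h3, h3, h2, h2]
    rw [tensorHom_comp_tensorHom_assoc, he', reassoc_of% (descM_tensor Zd.p gσ gσ),
      reassoc_of% (descM_tensor Zd.p gb gb), descM_lin Zd.p hlin, descM_lin Zd.p hlin, h5]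

end T0

end Ym

open Ym

section T0

variable {T : Type 1} [Category.{0} T] [Preadditive T] [HasZeroObject T]
    [HasShift T ℤ] [∀ n : ℤ, (shiftFunctor T n).Additive] [Pretriangulated T] [IsTriangulated T]
    [MonoidalCategory T] [SymmetricCategory T] [TensorTriangulated T] [MonoidalClosed T]
    [HasCoproducts.{0} T] [HasProducts.{0} T] [StableCat T] (D : MUData T)

/-- **The ring spectrum of a completed free ring.** -/
theorem ym : YM D := by
  intro hU hF hI Dk B _ G J β hB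
  obtain ⟨Zd⟩ := hF Dk B
  obtain ⟨hodd, hS⟩ := hI Dk Zd.Z Zd.p B Zd.b Zd.loc Zd.keq
  obtain ⟨ev, σ, h1, h2, h3, h4⟩ := alg hU hB hS
  obtain ⟨e, he, hy, hee, hid⟩ := exists_idem hU Zd hS h1 h2 h3 h4
  obtain ⟨Y, s, π, hsπ, rfl⟩ := exists_split e hee
  obtain ⟨mY, cY, hπ⟩ := exists_mon_split hsπ hid
  have hπσ : ∀ y, post π (σ (ev y)) = post π y := fun y => by
    rw [← hy, post_comp, Category.assoc, hsπ, Category.comp_id]
  let θ : B ≃+* Sc Y :=
    { toFun := fun x => Sc.map π (Zd.b x)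
      invFun := fun y => ev (post s y)
      left_inv := fun x => by
        change ev (post s (post π (Zd.b x))) = x
        rw [post_comp, hy, h3, h2]
      right_inv := fun y => by
        change post π (Zd.b (ev (post s y))) = y
        rw [← hπσ, h2, hπσ, post_comp, hsπ, post_id]
      map_mul' := fun x y => by rw [map_mul, map_mul]
      map_add' := fun x y => by
        change post π (Zd.b (x + y)) = post π (Zd.b x) + post π (Zd.b y)
        rw [← hπσ, ← hπσ (Zd.b x), ← hπσ (Zd.b y), h2, h2, h2, map_add, map_add] }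
  have hθ : ∀ x, θ x = Sc.map π (Zd.b x) := fun _ => rfl
  have hθev : ∀ y, θ (ev y) = Sc.map π y := fun y => by
    rw [hθ, map_eq_post, map_eq_post, ← hπσ, h2, hπσ]
  have hg : gens Zd.p Zd.b ≫ π = gens (Zd.p ≫ π) θ := gens_comp _ _ _
  refine ⟨{ Y := Y
            p := Zd.p ≫ π
            θ := θ
            law := ?_
            loc := Zd.loc.retract s π hsπ
            odd := fun l f => by
              rw [← Category.comp_id f, ← hsπ, ← Category.assoc, hodd l (f ≫ s), zero_comp]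
            gens := ⟨B, θ, Zd.Z, gens Zd.p Zd.b, π, s, Zd.keq, hsπ, hg⟩
            desc := fun N _ _ hN q _ hq χ hχ => ?_
            uniq := fun N _ _ hN f f' _ _ hp hf => ?_ }⟩
  · have h : lamQ (Zd.p ≫ π) = (θ : B →+* Sc Y).comp (Laz.lift G) := RingHom.ext fun z => by
      rw [← lamQ_comp Zd.p π _ rfl, ← hθev, h1]
      rfl
    rw [lawP, h, ← Law.map_map, Laz.univ_map_lift]
  · obtain ⟨g, hg, hpg, hbg⟩ := Zd.desc N hN q χ.toMonoidHom
    have hl : ∀ z, χ (Laz.lift G z) = lamQ q z := fun z => by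
      rw [Laz.map_lift, hχ, lawP, Laz.lift_map_univ]
    have hev : ∀ y, Sc.map g y = χ (ev y) := fun y =>
      unq hU hS (sepR_of (lamQ q) hq.haus hq.inj) (ψ := (Sc.map g).toAddMonoidHom)
        (ψ' := (χ.comp ev).toAddMonoidHom)
        (fun z y => by
          change Sc.map g (lamQ Zd.p z * y) = lamQ q z * Sc.map g y
          rw [map_mul, lamQ_comp Zd.p g q hpg])
        (fun z y => by
          change χ (ev (lamQ Zd.p z * y)) = lamQ q z * χ (ev y)
          rw [map_mul, map_mul, h1, hl])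
        (fun x => by
          change Sc.map g (Zd.b x) = χ (ev (Zd.b x))
          rw [hbg, h2]
          rfl) y
    have heg : π ≫ s ≫ g = g := by
      apply Zd.keq.hom_ext hN
      rw [reassoc_of% he, gens_comp, gens_comp]
      have h : (fun x => Sc.map g (σ x)) = fun x => Sc.map g (Zd.b x) := funext fun x => by
        rw [hev, hev, h3, h2]
      rw [h]
    have hm : IsMonHom (s ≫ g) :=
      isMonHom_of_comp _ g heg fun a b H => split_tensor hsπ hsπ a b H
    refine ⟨s ≫ g, hm, by rw [Category.assoc, heg, hpg], fun x => ?_⟩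
    rw [hθ, map_eq_post, map_eq_post, post_comp, heg, ← map_eq_post, hbg]
    rfl
  · have h : π ≫ f = π ≫ f' := by
      apply Zd.keq.hom_ext hN
      rw [reassoc_of% hg, reassoc_of% hg, gens_comp, gens_comp, hp, funext hf]
    rw [← Category.id_comp f, ← Category.id_comp f', ← hsπ, Category.assoc, h, Category.assoc]

end T0

end Vale.Agent.P236Z.E
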