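import Vale.Agent.P236Z.E.Main0
import Vale.Agent.P236Z.E.Fz
import Vale.Agent.P236Z.E.Ym
import Vale.Agent.P236Z.E.Int
import Vale.Agent.P236Z.E.Gene
import Vale.Agent.P236Z.E.Plus

/-!
# P236, block E: the Lubin-Tate spectrum of height six at the prime three, with its action of `C₉`
-/

namespace Vale.Agent.P236Z.E

/-- **StE** -/
theorem stE : Top.StE := fun _ _ M b =>
  main_of (M.data b) (fz _) (int _) (ym _) (gene _) (fun a K P => plus a K P) (M.muUniv b)

end Vale.Agent.P236Z.E
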