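import Vale.Agent.P236Z.E.Top
import Vale.Agent.P257.H80.HomTyp
import Vale.Agent.P221.H246.Ser
import Vale.Agent.P251.M.EvenPer

/-!
# P236, block E: orientations form a torsor under the invertible series
-/

open CategoryTheory MonoidalCategory Limits Pretriangulated MonObj
open Vale.Agent.P251 Vale.Agent.P251.T Vale.Agent.P251.M Vale.Agent.P251.S Vale.Agent.P251.F
  Vale.Agent.P251.I Vale.Agent.P251.X Vale.Agent.P236Z.Mod

set_option linter.unusedSectionVars false

noncomputable section

namespace Vale.Agent.P236Z.E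

namespace OriH

section Alg

variable {B : Type} [CommRing B]

theorem c_lin_mul (d : Bˣ) (f : InvSeries B) (n : ℕ) : (InvSeries.lin d * f).c n = d * f.c n := by
  change PowerSeries.coeff (n + 1)
    (PowerSeries.subst f.val (PowerSeries.C (d : B) * PowerSeries.X) : PowerSeries B) = _
  rw [PowerSeries.subst_mul f.hs, PowerSeries.subst_X f.hs, PowerSeries.subst_C]
  exact PowerSeries.coeff_C_mul _ _ _

theorem c_mul_lin (d : Bˣ) (f : InvSeries B) (n : ℕ) :
    (f * InvSeries.lin d).c n = d ^ (n + 1) * f.c n := by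
  change PowerSeries.coeff (n + 1)
    (PowerSeries.subst (PowerSeries.C (d : B) * PowerSeries.X) f.val : PowerSeries B) = _
  have h : (PowerSeries.C (d : B) * PowerSeries.X : PowerSeries B) = (d : B) • PowerSeries.X := by
    rw [PowerSeries.smul_eq_C_mul]
  rw [h, ← PowerSeries.rescale_eq_subst, PowerSeries.coeff_rescale]
  rfl

end Alg

variable {T : Type 1} [Category.{0} T] [Preadditive T] [HasZeroObject T]
    [HasShift T ℤ] [∀ n : ℤ, (shiftFunctor T n).Additive] [Pretriangulated T] [IsTriangulated T]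
    [MonoidalCategory T] [SymmetricCategory T] [TensorTriangulated T] [MonoidalClosed T]
    [HasCoproducts.{0} T] [HasProducts.{0} T] [StableCat T] {D : MUData T}
    {N N' : T} [MonObj N] [IsCommMonObj N] [MonObj N'] [IsCommMonObj N']

/-- the powers of the periodicity class -/
def tau (q : D.P ⟶ N) (w : ℤ) : HRing (stdEven T) N :=
  HRing.of _ N w ((stdEven T).inPS w ≫ tq q)

variable (q q' q'' : D.P ⟶ N) [IsMonHom q] [IsMonHom q'] [IsMonHom q'']

theorem tau_mul (m n : ℤ) : tau q m * tau q n = tau q (m + n) := by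
  rw [tau, tau, tau, of_mul_of rfl, EvenSpheres.gmul_comp, gmul_inPS]

theorem tau_zero : tau q 0 = 1 := by
  have h : (stdEven T).inPS 0 ≫ tq q = (stdEven T).zero.inv ≫ η[N] := by
    rw [← IsMonHom.one_hom (tq q), EvenSpheres.PS_one, Category.assoc, Iso.inv_hom_id_assoc]
  rw [tau, h, of_one]

/-- the periodicity class -/
def tu : (HRing (stdEven T) N)ˣ where
  val := tau q 1
  inv := tau q (-1)
  val_inv := by rw [tau_mul, add_neg_cancel, tau_zero]
  inv_val := by rw [tau_mul, neg_add_cancel, tau_zero]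

theorem tu_zpow (w : ℤ) : ((tu q ^ w : _ˣ) : HRing (stdEven T) N) = tau q w := by
  induction w using Int.induction_on with
  | zero => rw [zpow_zero, tau_zero, Units.val_one]
  | succ n ih =>
    rw [zpow_add_one, Units.val_mul, ih]
    exact tau_mul q _ _
  | pred n ih =>
    rw [zpow_sub_one, Units.val_mul, ih]
    exact tau_mul q _ _

theorem flat_of (w : ℤ) (a : (stdEven T).S w ⟶ N) :
    flat q (HRing.of _ N w a) = Sc.of ((stdEven T).zero.hom ≫
      EvenSpheres.gmul (add_neg_cancel w) a ((stdEven T).inPS (-w) ≫ tq q)) := by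
  rw [flat, RingHom.comp_apply, sharpHom_of]
  change sharp a ≫ descM (𝟙 N) (tq q) = _
  rw [sharp, descM, Category.assoc, ← reassoc_of% (EvenSpheres.ext_comp (E := stdEven T)),
    Category.comp_id]
  rfl

theorem of_flat (w : ℤ) (a : (stdEven T).S w ⟶ N) :
    HRing.of _ N 0 ((stdEven T).zero.inv ≫ (flat q (HRing.of _ N w a)).hom) =
      HRing.of _ N w a * tau q (-w) := by
  rw [flat_of, tau, of_mul_of (add_neg_cancel w)]
  change HRing.of _ N 0 ((stdEven T).zero.inv ≫ (stdEven T).zero.hom ≫ _) = _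
  rw [Iso.inv_hom_id_assoc]

theorem flat_zero (a : 𝟙_ T ⟶ N) :
    flat q (HRing.of _ N 0 ((stdEven T).zero.inv ≫ a)) = Sc.of a := by
  have h := of_flat q 0 ((stdEven T).zero.inv ≫ a)
  rw [neg_zero, tau_zero, _root_.mul_one] at h
  exact (cancel_epi (stdEven T).zero.inv).1 (P257.H80.of_injective h)

theorem flat_tau (w : ℤ) : flat q (tau q w) = 1 := by
  have h := of_flat q w ((stdEven T).inPS w ≫ tq q)
  have h2 : HRing.of _ N w ((stdEven T).inPS w ≫ tq q) * tau q (-w) =
      HRing.of _ N 0 ((stdEven T).zero.inv ≫ η[N]) := by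
    rw [of_one, ← tau_zero q, ← add_neg_cancel w, ← tau_mul]
    rfl
  exact (cancel_epi (stdEven T).zero.inv).1 (P257.H80.of_injective (h.trans h2))

theorem flat_inj (w : ℤ) {a b : (stdEven T).S w ⟶ N}
    (h : flat q (HRing.of _ N w a) = flat q (HRing.of _ N w b)) : a = b := by
  have h1 := of_flat q w a
  rw [h, of_flat, ← tu_zpow] at h1
  exact P257.H80.of_injective (Units.mul_left_inj _ |>.1 h1).symm

theorem flat_surj (w : ℤ) (y : Sc N) :
    ∃ a : (stdEven T).S w ⟶ N, flat q (HRing.of _ N w a) = y := by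
  refine ⟨EvenSpheres.gmul (zero_add w) ((stdEven T).zero.inv ≫ y.hom) ((stdEven T).inPS w ≫ tq q), ?_⟩
  rw [← of_mul_of, map_mul, flat_zero]
  exact (congrArg _ (flat_tau q w)).trans (_root_.mul_one _)

/-- the ratio of the periodicity classes -/
def dd : (Sc N)ˣ := Units.map (flat q : HRing (stdEven T) N →* Sc N) (tu q')

theorem dd_zpow (w : ℤ) : ((dd q q' ^ w : _ˣ) : Sc N) = flat q (tau q' w) := by
  rw [dd, ← map_zpow, Units.coe_map, tu_zpow]
  rfl

theorem flat_chg (w : ℤ) (a : (stdEven T).S w ⟶ N) :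
    flat q (HRing.of _ N w a) = ((dd q q' ^ w : _ˣ) : Sc N) * flat q' (HRing.of _ N w a) := by
  have h := congrArg (flat q) (of_flat q' w a)
  rw [flat_zero, map_mul, ← dd_zpow] at h
  change flat q' (HRing.of _ N w a) = _ at h
  rw [h, mul_left_comm, ← Units.val_mul, ← zpow_add, add_neg_cancel, zpow_zero, Units.val_one,
    _root_.mul_one]

theorem dd_self : dd q q = 1 := Units.ext (flat_tau q 1)

theorem dd_mul : dd q' q'' * dd q q' = dd q q'' := by
  apply Units.ext
  have h := flat_chg q q' 1 ((stdEven T).inPS 1 ≫ tq q'')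
  rw [zpow_one] at h
  rw [Units.val_mul, mul_comm]
  exact h.symm

theorem flat_comp (f : N ⟶ N') [IsMonHom f] (x : HRing (stdEven T) N) :
    flat (q ≫ f) (HRing.map f x) = Sc.map f (flat q x) := by
  have h : (flat (q ≫ f)).comp (HRing.map f) = (Sc.map f).comp (flat q) := by
    refine HRing.ringHom_ext fun w a => ?_
    rw [RingHom.comp_apply, RingHom.comp_apply, HRing.map_of, flat_of, flat_of]
    change _ ≫ _ = (_ ≫ _) ≫ f
    rw [Category.assoc, ← EvenSpheres.gmul_comp]
    simp only [tq, Category.assoc]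
  exact RingHom.congr_fun h x

theorem flat_map : (flat q).comp (HRing.map (uq q)) = (Sc.map q).comp (sharpHom D.R) := by
  refine RingHom.ext fun x => ?_
  rw [flat, RingHom.comp_apply, RingHom.comp_apply, ← EvenSpheres.sharpHom_map,
    RingHom.comp_apply]
  have h : (uq q ▷ (stdEven T).PS) ≫ descM (𝟙 N) (tq q) = q := by
    rw [descM, ← tensorHom_id, tensorHom_comp_tensorHom_assoc, Category.comp_id,
      Category.id_comp]
    exact (eq_descM q).symm
  change (_ ≫ _) ≫ _ = _ ≫ q
  rw [Category.assoc, h]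

theorem flat_law : (lawOf (uq q)).map (flat q) = lawP q := by
  rw [lawOf, Law.map_map, flat_map, lawP, lamQ, lamP, ← Law.map_map, ← Law.map_map,
    ← Law.map_map, Laz.univ_map_lift]

/-- evaluation of the grading variable -/
def evT (d : (Sc N)ˣ) : LaurentPolynomial (HRing (stdEven T) N) →+* Sc N :=
  LaurentPolynomial.eval₂ (flat q') d

theorem flat_coact : (evT q' (dd q q')).comp (P257.H80.coactH N) = flat q := by
  refine HRing.ringHom_ext fun w a => ?_
  rw [RingHom.comp_apply, P257.H80.coactH_of, evT, LaurentPolynomial.eval₂_C_mul_T,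
    flat_chg q q', mul_comm]

theorem law_chg (u : D.R ⟶ N) [IsMonHom u] :
    InvSeries.lin (dd q q') • (lawOf u).map (flat q) = (lawOf u).map (flat q') := by
  have h := congrArg (Law.map (evT q' (dd q q'))) (P257.H80.lawOf_coact u)
  have h1 : (evT q' (dd q q')).comp LaurentPolynomial.C = flat q' :=
    RingHom.ext fun x => LaurentPolynomial.eval₂_C _ _ x
  have h2 : Units.map (evT q' (dd q q') : _ →* Sc N) (unitT (HRing (stdEven T) N)) = dd q q' := by
    apply Units.ext
    change evT q' (dd q q') (LaurentPolynomial.T 1) = _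
    rw [evT, LaurentPolynomial.eval₂_T, zpow_one]
  rw [Law.map_map, flat_coact, InvSeries.map_smul, Law.map_map, h1, map_inv, InvSeries.map_lin,
    h2] at h
  change (lawOf u).map (flat q) = _ • (lawOf u).map (flat q') at h
  rw [h, smul_inv_smul]

/-- the isomorphism between the laws -/
def ser : InvSeries (Sc N) :=
  InvSeries.lin (dd q q') * InvSeries.map (flat q) (sIso D (uq q) (uq q'))

theorem sIso_c0 (u u' : D.R ⟶ N) [IsMonHom u] [IsMonHom u'] : (sIso D u u').c 0 = 1 :=
  P257.H80.ser_strict u u'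

theorem sIso_hom (u u' : D.R ⟶ N) [IsMonHom u] [IsMonHom u'] (n : ℕ) :
    ∃ a : (stdEven T).S n ⟶ N, (sIso D u u').c n = HRing.of _ N n a := by
  rcases n with _ | n
  · exact ⟨(stdEven T).zero.inv ≫ η[N], sIso_c0 u u'⟩
  · exact P221.H246.isHomog_ser u u' n

theorem ser_c (n : ℕ) : (ser q q').c n = dd q q' * flat q ((sIso D (uq q) (uq q')).c n) := by
  rw [ser, c_lin_mul, InvSeries.c_map]

theorem ser_c0 : (ser q q').c 0 = dd q q' := by
  rw [ser_c, sIso_c0, map_one, _root_.mul_one]

theorem ser_unit : (ser q q').isUnit.unit = dd q q' :=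
  Units.ext ((ser q q').isUnit.unit_spec.trans (ser_c0 q q'))

theorem ser_smul : ser q q' • lawP q = lawP q' := by
  have h : sIso D (uq q) (uq q') • lawOf (uq q) = lawOf (uq q') := P257.H80.ser_smul _ _
  rw [ser, mul_smul, ← flat_law, ← InvSeries.map_smul, h, law_chg, flat_law]

theorem ser_comp (f : N ⟶ N') [IsMonHom f] :
    ser (q ≫ f) (q' ≫ f) = InvSeries.map (Sc.map f) (ser q q') := by
  refine InvSeries.ext_c fun n => ?_
  have h1 : sIso D (uq (q ≫ f)) (uq (q' ≫ f)) =
      InvSeries.map (HRing.map f) (sIso D (uq q) (uq q')) := by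
    have h := P257.H80.ser_comp f (uq q) (uq q')
    simp only [uq, Category.assoc] at h
    exact h
  have h2 : (dd (q ≫ f) (q' ≫ f) : Sc N') = Sc.map f (dd q q') := by
    change flat (q ≫ f) (tau (q' ≫ f) 1) = Sc.map f (flat q (tau q' 1))
    rw [← flat_comp, tau, tau, HRing.map_of]
    simp only [tq, Category.assoc]
  rw [InvSeries.c_map, ser_c, ser_c, h1, InvSeries.c_map, flat_comp, h2, map_mul]

theorem ser_self : ser q q = 1 := by
  have h : sIso D (uq q) (uq q) = 1 := P257.H80.ser_self _
  rw [ser, dd_self, h, map_one, map_one, _root_.mul_one]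

theorem ser_trans : ser q' q'' * ser q q' = ser q q'' := by
  have h : sIso D (uq q') (uq q'') * sIso D (uq q) (uq q') = sIso D (uq q) (uq q'') :=
    P221.H246.ser_trans _ _ _
  have h1 : InvSeries.map (flat q') (sIso D (uq q') (uq q'')) * InvSeries.lin (dd q q') =
      InvSeries.lin (dd q q') * InvSeries.map (flat q) (sIso D (uq q') (uq q'')) := by
    refine InvSeries.ext_c fun n => ?_
    obtain ⟨a, ha⟩ := sIso_hom (uq q') (uq q'') n
    rw [c_mul_lin, c_lin_mul, InvSeries.c_map, InvSeries.c_map, ha, flat_chg q q', zpow_natCast,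
      Units.val_pow_eq_pow_val]
    ring
  rw [ser, ser, ser, ← h, map_mul, ← dd_mul q q' q'', map_mul, _root_.mul_assoc,
    ← _root_.mul_assoc (InvSeries.map _ _), h1]
  simp only [_root_.mul_assoc]

variable {F : SpaceFunctor T} {e : F.S.obj CCF ≅ (stdEven T).L}

theorem ser_inj (hD : MUUniv e D) (h : ser q q' = ser q q'') : q' = q'' := by
  have hd : dd q q' = dd q q'' := by rw [← ser_unit, ← ser_unit, h]
  refine hom_ext_tensor ?_ ?_
  · refine P257.H80.eq_of_ser hD (u := uq q) (InvSeries.ext_c fun n => ?_)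
    have h1 := congrArg (fun f => InvSeries.c f n) h
    simp only [ser_c, hd] at h1
    have h2 := (Units.mul_right_inj _).1 h1
    obtain ⟨a, ha⟩ := sIso_hom (uq q) (uq q') n
    obtain ⟨b, hb⟩ := sIso_hom (uq q) (uq q'') n
    change (sIso D (uq q) (uq q')).c n = (sIso D (uq q) (uq q'')).c n
    rw [ha, hb] at h2 ⊢
    rw [flat_inj q _ h2]
  · refine (stdEven T).jEpi_inPS _ _ fun w => flat_inj q w ?_
    change flat q (tau q' w) = flat q (tau q'' w)
    rw [← dd_zpow, ← dd_zpow, hd]

theorem ser_surj (hD : MUUniv e D) (h : InvSeries (Sc N)) :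
    ∃ (q' : D.P ⟶ N) (_ : IsMonHom q'), ser q q' = h := by
  set d := h.isUnit.unit with hd
  choose x hx using fun w : ℤ => flat_surj q w ((d ^ w : _ˣ) : Sc N)
  choose z hz using fun m : ℕ => flat_surj q ((m + 1 : ℕ) : ℤ) (((d⁻¹ : _ˣ) : Sc N) * h.c (m + 1))
  obtain ⟨u', hu', hs⟩ := P257.H80.exists_of_ser hD (uq q) (fun m => HRing.of _ N _ (z m))
    fun m => ⟨z m, rfl⟩
  let t : (stdEven T).PS ⟶ N := Sigma.desc x
  have ht : ∀ w, (stdEven T).inPS w ≫ t = x w := fun w => Sigma.ι_desc _ _
  have : IsMonHom t := by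
    refine ⟨?_, (stdEven T).PS_ext2 fun m n => ?_⟩
    · have h0 : x 0 = (stdEven T).zero.inv ≫ η[N] := by
        refine flat_inj q 0 ?_
        rw [hx, of_one, map_one, zpow_zero, Units.val_one]
      rw [EvenSpheres.PS_one, Category.assoc, ht, h0, Iso.hom_inv_id_assoc]
    · have h0 : x (m + n) = EvenSpheres.gmul rfl (x m) (x n) := by
        refine flat_inj q _ ?_
        rw [← of_mul_of, map_mul, hx, hx, hx, zpow_add, Units.val_mul]
      rw [EvenSpheres.in_mul_assoc _ m n _ rfl, ht, tensorHom_comp_tensorHom_assoc, ht, ht, h0,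
        EvenSpheres.gmul, EvenSpheres.ext, Category.assoc, Iso.hom_inv_id_assoc]
  refine ⟨descM u' t, inferInstance, InvSeries.ext_c fun n => ?_⟩
  have h1 : uq (descM u' t : D.P ⟶ N) = u' := inlM_descM _ _
  have h2 : tq (descM u' t : D.P ⟶ N) = t := inrM_descM _ _
  have h3 : (dd q (descM u' t) : Sc N) = d := by
    change flat q (tau (descM u' t) 1) = _
    rw [tau, h2, ht, hx, zpow_one]
  have h4 : sIso D (uq q) (uq (descM u' t : D.P ⟶ N)) = strictMk fun m => HRing.of _ N _ (z m) := by
    simp only [h1]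
    exact hs
  rw [ser_c, h3, h4]
  rcases n with _ | n
  · rw [c_zero_strictMk, map_one, _root_.mul_one]
    exact h.isUnit.unit_spec
  · rw [c_succ_strictMk, hz, Units.mul_inv_cancel_left]

end OriH

variable {T : Type 1} [Category.{0} T] [Preadditive T] [HasZeroObject T]
    [HasShift T ℤ] [∀ n : ℤ, (shiftFunctor T n).Additive] [Pretriangulated T] [IsTriangulated T]
    [MonoidalCategory T] [SymmetricCategory T] [TensorTriangulated T] [MonoidalClosed T]
    [HasCoproducts.{0} T] [HasProducts.{0} T] [StableCat T] (D : MUData T)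

/-- **ORI** -/
theorem ori : ORI D := fun _ _ hD =>
  ⟨{ ser := fun q q' _ _ => OriH.ser q q'
     smul := fun q q' _ _ => OriH.ser_smul q q'
     comp := fun q q' _ _ f _ => OriH.ser_comp q q' f
     inj := fun q q' q'' _ _ _ h => OriH.ser_inj q q' q'' hD h
     surj := fun q _ h => OriH.ser_surj q hD h
     self := fun q _ => OriH.ser_self q
     trans := fun q q' q'' _ _ _ => OriH.ser_trans q q' q''
     flat_bij := fun q _ w => ⟨fun _ _ h => OriH.flat_inj q w h, OriH.flat_surj q w⟩
     flat_zero := fun q _ a => OriH.flat_zero q a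
     flat_comp := fun q _ f _ x => OriH.flat_comp q f x
     flat_law := fun q _ => OriH.flat_law q
     flat_chg := fun q q' _ _ w a => by
       rw [OriH.ser_unit]
       exact OriH.flat_chg q q' w a
     flat_ser := fun q q' _ _ n => by rw [OriH.ser_c0, OriH.ser_c]
     ext_u := fun u u' _ _ h =>
       P257.H80.eq_of_ser hD (u := u) (h.trans (P257.H80.ser_self u).symm) }⟩

end Vale.Agent.P236Z.E
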