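import Vale.Agent.P236Z.E.AlgD

/-!
# P236, block E: the universal property of completions
-/

namespace Vale.Agent.P236Z.E

open Vale.Agent.P251.F Vale.Agent.P251.S

namespace UnqH

variable {A : Type} [CommRing A] {I : Ideal A} {v : A} {F E M : Type} [AddCommGroup F] [Module A F]
  [AddCommGroup E] [Module A E] [AddCommGroup M] [Module A M]

theorem inj_pow (h : ∀ e : M, v • e = 0 → e = 0) (k : ℕ) : ∀ e : M, v ^ k • e = 0 → e = 0 := by
  induction k with
  | zero => simp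
  | succ k ih => exact fun e he => h e (ih _ (by rwa [pow_succ, mul_smul] at he))

theorem surj_pow (h : ∀ e : M, ∃ e', v • e' = e) (k : ℕ) : ∀ e : M, ∃ e', v ^ k • e' = e := by
  induction k with
  | zero => simp
  | succ k ih =>
    intro e
    obtain ⟨a, rfl⟩ := ih e
    obtain ⟨b, rfl⟩ := h a
    exact ⟨b, by rw [pow_succ, mul_smul]⟩

theorem dv (h : ∀ e : M, v • e = 0 → e = 0) (h' : ∀ e : M, ∃ e', v • e' = e) {J : Ideal A} {k : ℕ}
    {e : M} (he : v ^ k • e ∈ (J • ⊤ : Submodule A M)) : e ∈ (J • ⊤ : Submodule A M) := by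
  let w := LinearEquiv.ofBijective (LinearMap.lsmul A M (v ^ k))
    ⟨(injective_iff_map_eq_zero _).2 (inj_pow h k), surj_pow h' k⟩
  have := map_mem_smul_top J w.symm.toLinearMap he
  rwa [show w.symm.toLinearMap (v ^ k • e) = e from w.symm_apply_apply e] at this

variable (I v) in
/-- the graph of the extension, modulo `I ^ j` -/
def R (φ : F →ₗ[A] E) (ψ : F →ₗ[A] M) (j : ℕ) : Submodule A (E × M) where
  carrier := {z | ∃ (k : ℕ) (f : F), v ^ k • z.1 - φ f ∈ (I ^ j • ⊤ : Submodule A E) ∧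
    v ^ k • z.2 - ψ f ∈ (I ^ j • ⊤ : Submodule A M)}
  zero_mem' := ⟨0, 0, by simp, by simp⟩
  add_mem' := by
    rintro a b ⟨k, f, h1, h2⟩ ⟨l, g, h3, h4⟩
    refine ⟨k + l, v ^ l • f + v ^ k • g, ?_, ?_⟩
    · have := add_mem (Submodule.smul_mem _ (v ^ l) h1) (Submodule.smul_mem _ (v ^ k) h3)
      rwa [show v ^ l • (v ^ k • a.1 - φ f) + v ^ k • (v ^ l • b.1 - φ g) =
        v ^ (k + l) • (a + b).1 - φ (v ^ l • f + v ^ k • g) by
          simp only [map_add, map_smul, Prod.fst_add]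
          module] at this
    · have := add_mem (Submodule.smul_mem _ (v ^ l) h2) (Submodule.smul_mem _ (v ^ k) h4)
      rwa [show v ^ l • (v ^ k • a.2 - ψ f) + v ^ k • (v ^ l • b.2 - ψ g) =
        v ^ (k + l) • (a + b).2 - ψ (v ^ l • f + v ^ k • g) by
          simp only [map_add, map_smul, Prod.snd_add]
          module] at this
  smul_mem' := by
    rintro c a ⟨k, f, h1, h2⟩
    refine ⟨k, c • f, ?_, ?_⟩
    · have := Submodule.smul_mem _ c h1
      rwa [smul_sub, smul_comm, ← map_smul] at this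
    · have := Submodule.smul_mem _ c h2
      rwa [smul_sub, smul_comm, ← map_smul] at this

theorem uq {φ : F →ₗ[A] E} (h : CompCond I v φ)
    (h1 : ∀ e : M, (∀ k, e ∈ (I ^ k • ⊤ : Submodule A M)) → e = 0)
    (h2 : ∀ e : M, v • e = 0 → e = 0) (δ : E →ₗ[A] M) (hδ : ∀ f, δ (φ f) = 0) (e : E) : δ e = 0 := by
  refine h1 _ fun j => ?_
  obtain ⟨k, f, hf⟩ := h.dense j e
  obtain ⟨e', he⟩ := surj_pow h.surj k (φ f)
  rw [← he, ← smul_sub] at hf
  have := map_mem_smul_top _ δ (dv h.inj h.surj hf)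
  rwa [map_sub, inj_pow h2 k (δ e') (by rw [← map_smul, he, hδ]), sub_zero] at this

theorem ex {φ : F →ₗ[A] E} (h : CompCond I v φ)
    (h1 : ∀ e : M, (∀ k, e ∈ (I ^ k • ⊤ : Submodule A M)) → e = 0)
    (h2 : ∀ e : M, v • e = 0 → e = 0) (h3 : CauchyComplete I M) (h4 : ∀ e : M, ∃ e', v • e' = e)
    (ψ₀ : F →ₗ[A] M) : ∃ ψ : E →ₗ[A] M, ψ ∘ₗ φ = ψ₀ := by
  have a : ∀ j e m m', (e, m) ∈ R I v φ ψ₀ j → (e, m') ∈ R I v φ ψ₀ j →
      m - m' ∈ (I ^ j • ⊤ : Submodule A M) := fun j e m m' b c => by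
    obtain ⟨k, f, k1, k2⟩ := sub_mem b c
    obtain ⟨l, k3⟩ := h.closed j f (by simpa using k1)
    have := add_mem (Submodule.smul_mem _ (v ^ l) k2) (map_mem_smul_top _ ψ₀ k3)
    rw [map_smul, smul_sub, sub_add_cancel] at this
    exact dv h2 h4 (dv h2 h4 this)
  have b : ∀ e, ∃ m, ∀ j, (e, m) ∈ R I v φ ψ₀ j := fun e => by
    choose k f hf using fun j => h.dense j e
    choose m hm using fun j => surj_pow h4 (k j) (ψ₀ (f j))
    have c : ∀ j i, i ≤ j → (e, m j) ∈ R I v φ ψ₀ i := fun j i hi =>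
      ⟨k j, f j, Submodule.smul_mono_left (Ideal.pow_le_pow_right hi) (hf j), by simp [hm]⟩
    obtain ⟨l, hl⟩ := h3 m fun j => a j e _ _ (c _ j j.le_succ) (c j j le_rfl)
    refine ⟨l, fun j => ?_⟩
    have d : ((0, l - m j) : E × M) ∈ R I v φ ψ₀ j := ⟨0, 0, by simp, by simpa using hl j⟩
    simpa using add_mem (c j j le_rfl) d
  choose ψ hψ using b
  have c : ∀ e m, (∀ j, (e, m) ∈ R I v φ ψ₀ j) → ψ e = m := fun e m hm =>
    sub_eq_zero.1 (h1 _ fun j => a j e _ _ (hψ e j) (hm j))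
  exact ⟨⟨⟨ψ, fun x y => c _ _ fun j => add_mem (hψ x j) (hψ y j)⟩,
    fun r x => c _ _ fun j => Submodule.smul_mem _ r (hψ x j)⟩,
    LinearMap.ext fun f => c _ _ fun j => ⟨0, f, by simp, by simp⟩⟩

end UnqH

theorem unq : UNQ := fun _ _ _ _ _ _ _ _ _ _ h hM =>
  ⟨fun ψ ψ' e => LinearMap.ext fun x => sub_eq_zero.1 (UnqH.uq h hM.haus hM.inj (ψ - ψ')
    (fun f => sub_eq_zero.2 (LinearMap.congr_fun e f)) x), UnqH.ex h hM.haus hM.inj⟩

end Vale.Agent.P236Z.E
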