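import Vale.Agent.P236Z.E.AlgX
import Vale.Agent.P236Z.E.Unq
import Vale.Agent.P236Z.E.Ori
import Vale.Agent.P236Z.E.Ee
import Vale.Agent.P236Z.E.Grd
import Vale.Agent.P236Z.Top.Mdl
import Vale.Agent.P251.X.KExists

/-!
# P236, block E: the assembly
-/

open CategoryTheory MonoidalCategory Limits Pretriangulated MonObj
open Vale.Agent.P251 Vale.Agent.P251.T Vale.Agent.P251.M Vale.Agent.P251.S Vale.Agent.P251.F
  Vale.Agent.P251.I Vale.Agent.P251.X Vale.Agent.P236Z.Mod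

namespace Vale.Agent.P236Z.E

variable {T : Type 1} [Category.{0} T] [Preadditive T] [HasZeroObject T]
    [HasShift T ℤ] [∀ n : ℤ, (shiftFunctor T n).Additive] [Pretriangulated T] [IsTriangulated T]
    [MonoidalCategory T] [SymmetricCategory T] [TensorTriangulated T] [MonoidalClosed T]
    [HasCoproducts.{0} T] [HasProducts.{0} T] [StableCat T] (D : MUData T)

/-- the invariants of the involution -/
def PLUS : Prop :=
  ∀ (a : AlgD) (K : KD D 3 6), ED a K → ∃ Q : EDat D, Nonempty (Top.Alg Q)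

theorem main_of (h1 : FZ D) (h2 : INT D) (h3 : YM D) (h4 : GENE D) (h5 : PLUS D)
    {F : SpaceFunctor T} {e : F.S.obj CCF ≅ (stdEven T).L} (hU : MUUniv e D) :
    ∃ Q : EDat D, Nonempty (Top.Alg Q) := by
  obtain ⟨a⟩ := algD
  obtain ⟨Dk⟩ := exists_kosData D.P ((3 : ℕ) : ℤ) 6 (D.vs 3)
  obtain ⟨K⟩ := X.exists_KD (p := 3) (n := 6) hU (by decide) (by decide)
  obtain ⟨O⟩ := ori D F e hU
  obtain ⟨Y⟩ := h3 unq h1 h2 Dk a.B _ a.J a.β a.cmp
  obtain ⟨P⟩ := ee D Dk O a Y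
  obtain ⟨g1, g2⟩ := h4 F e hU Dk K P.E P.q
  obtain ⟨Q⟩ := grd D Dk O a K P (g1 P.loc) (g2 P.gens)
  exact h5 a K Q

end Vale.Agent.P236Z.E
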