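import Vale.Agent.P236Z.E.AlgD
import Vale.Agent.P236Z.Mod.Defs
import Vale.Agent.P251.S.LocMod
import Vale.Agent.P251.S.KosData
import Vale.Agent.P251.I.M2

/-!
# P236, block E: the topology, definitions and rows

`P = D.P` is the periodic complex cobordism spectrum, `Dk.K` the Koszul form of `K(6)`.
-/

open CategoryTheory MonoidalCategory Limits Pretriangulated MonObj
open Vale.Agent.P251 Vale.Agent.P251.T Vale.Agent.P251.M Vale.Agent.P251.S Vale.Agent.P251.F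
  Vale.Agent.P251.I Vale.Agent.P251.X Vale.Agent.P236Z.Mod

set_option linter.unusedSectionVars false

noncomputable section

namespace Vale.Agent.P236Z.E

section T0

variable {T : Type 1} [Category.{0} T] [Preadditive T] [HasZeroObject T]
    [HasShift T ℤ] [∀ n : ℤ, (shiftFunctor T n).Additive] [Pretriangulated T] [IsTriangulated T]
    [MonoidalCategory T] [SymmetricCategory T] [TensorTriangulated T] [MonoidalClosed T]
    [HasCoproducts.{0} T] [HasProducts.{0} T] [StableCat T] (D : MUData T)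

/-- the Koszul data of height six -/
abbrev Kos : Type 1 := KosData D.P ((3 : ℕ) : ℤ) 6 (D.vs 3)

/-- `Laz → π₀ P` -/
def lamP : Laz →+* Sc D.P := (sharpHom D.R).comp (Laz.lift D.law)

section Ori

variable {D} {N : T} [MonObj N] [IsCommMonObj N]

/-- the classifying map of the law of an orientation -/
def lamQ (q : D.P ⟶ N) [IsMonHom q] : Laz →+* Sc N := (Sc.map q).comp (lamP D)

/-- the law of an orientation -/
def lawP (q : D.P ⟶ N) [IsMonHom q] : Law (Sc N) := Laz.univ.map (lamQ q)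

/-- the restriction to `MU` -/
abbrev uq (q : D.P ⟶ N) : D.R ⟶ N := inlM D.R (stdEven T).PS ≫ q

/-- the restriction to the periodic sphere -/
abbrev tq (q : D.P ⟶ N) : (stdEven T).PS ⟶ N := inrM D.R (stdEven T).PS ≫ q

/-- the periodicity class is sent to `1` -/
def flat (q : D.P ⟶ N) [IsMonHom q] : HRing (stdEven T) N →+* Sc N :=
  (Sc.map (descM (𝟙 N) (tq q))).comp (sharpHom N)

/-- the `P`-linear map with the values `b j` -/
def gens (q : D.P ⟶ N) {J : Type} (b : J → Sc N) : D.P ⊗ ∐ (fun _ : J => 𝟙_ T) ⟶ N :=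
  (q ⊗ₘ Sigma.desc fun j => (b j).hom) ≫ μ[N]

/-- `π₀ N` is `I₆`-adically separated and `v₆` is injective on it -/
structure SepQ (q : D.P ⟶ N) [IsMonHom q] : Prop where
  haus : ∀ x : Sc N, (∀ k, x ∈ Ih 3 6 (lawP q) ^ k) → x = 0
  inj : ∀ x : Sc N, vv 3 6 (lawP q) * x = 0 → x = 0

end Ori

/-- Orientations form a torsor under the invertible series. -/
structure OriApi where
  /-- the isomorphism from the law of `q` to the law of `q'` -/
  ser : ∀ {N : T} [MonObj N] [IsCommMonObj N] (q q' : D.P ⟶ N) [IsMonHom q] [IsMonHom q'],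
    InvSeries (Sc N)
  smul : ∀ {N : T} [MonObj N] [IsCommMonObj N] (q q' : D.P ⟶ N) [IsMonHom q] [IsMonHom q'],
    ser q q' • lawP q = lawP q'
  comp : ∀ {N N' : T} [MonObj N] [IsCommMonObj N] [MonObj N'] [IsCommMonObj N'] (q q' : D.P ⟶ N)
    [IsMonHom q] [IsMonHom q'] (f : N ⟶ N') [IsMonHom f],
    ser (q ≫ f) (q' ≫ f) = InvSeries.map (Sc.map f) (ser q q')
  inj : ∀ {N : T} [MonObj N] [IsCommMonObj N] (q q' q'' : D.P ⟶ N) [IsMonHom q] [IsMonHom q']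
    [IsMonHom q''], ser q q' = ser q q'' → q' = q''
  surj : ∀ {N : T} [MonObj N] [IsCommMonObj N] (q : D.P ⟶ N) [IsMonHom q] (h : InvSeries (Sc N)),
    ∃ (q' : D.P ⟶ N) (_ : IsMonHom q'), ser q q' = h
  self : ∀ {N : T} [MonObj N] [IsCommMonObj N] (q : D.P ⟶ N) [IsMonHom q], ser q q = 1
  trans : ∀ {N : T} [MonObj N] [IsCommMonObj N] (q q' q'' : D.P ⟶ N) [IsMonHom q] [IsMonHom q']
    [IsMonHom q''], ser q' q'' * ser q q' = ser q q''
  flat_bij : ∀ {N : T} [MonObj N] [IsCommMonObj N] (q : D.P ⟶ N) [IsMonHom q] (w : ℤ),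
    Function.Bijective fun a : (stdEven T).S w ⟶ N => flat q (HRing.of _ N w a)
  flat_zero : ∀ {N : T} [MonObj N] [IsCommMonObj N] (q : D.P ⟶ N) [IsMonHom q] (a : 𝟙_ T ⟶ N),
    flat q (HRing.of _ N 0 ((stdEven T).zero.inv ≫ a)) = Sc.of a
  flat_comp : ∀ {N N' : T} [MonObj N] [IsCommMonObj N] [MonObj N'] [IsCommMonObj N']
    (q : D.P ⟶ N) [IsMonHom q] (f : N ⟶ N') [IsMonHom f] (x : HRing (stdEven T) N),
    flat (q ≫ f) (HRing.map f x) = Sc.map f (flat q x)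
  flat_law : ∀ {N : T} [MonObj N] [IsCommMonObj N] (q : D.P ⟶ N) [IsMonHom q],
    (lawOf (uq q)).map (flat q) = lawP q
  flat_chg : ∀ {N : T} [MonObj N] [IsCommMonObj N] (q q' : D.P ⟶ N) [IsMonHom q] [IsMonHom q']
    (w : ℤ) (a : (stdEven T).S w ⟶ N), flat q (HRing.of _ N w a) =
      (((ser q q').isUnit.unit ^ w : (Sc N)ˣ) : Sc N) * flat q' (HRing.of _ N w a)
  flat_ser : ∀ {N : T} [MonObj N] [IsCommMonObj N] (q q' : D.P ⟶ N) [IsMonHom q] [IsMonHom q']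
    (n : ℕ), (ser q q').c 0 * flat q ((sIso D (uq q) (uq q')).c n) = (ser q q').c n
  ext_u : ∀ {N : T} [MonObj N] [IsCommMonObj N] (u u' : D.R ⟶ N) [IsMonHom u] [IsMonHom u'],
    sIso D u u' = 1 → u' = u

variable {D} (Dk : Kos D)

/-- The free local commutative `P`-algebra on the monoid `B`. -/
structure FreeZ (B : Type) [CommMonoid B] where
  /-- the spectrum -/
  Z : T
  [mon : MonObj Z]
  [comm : IsCommMonObj Z]
  /-- the orientation -/
  p : D.P ⟶ Z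
  [hom : IsMonHom p]
  /-- the generators -/
  b : B →* Sc Z
  loc : IsLocal Dk.K Z
  keq : KEq Dk.K (gens p b)
  desc : ∀ (N : T) [MonObj N] [IsCommMonObj N], IsLocal Dk.K N → ∀ (q : D.P ⟶ N) [IsMonHom q]
    (χ : B →* Sc N), ∃ (f : Z ⟶ N) (_ : IsMonHom f), p ≫ f = q ∧ ∀ x, Sc.map f (b x) = χ x

attribute [instance] FreeZ.mon FreeZ.comm FreeZ.hom

/-- `E` is a retract of the localization of a free `P`-module, on the generators `b` -/
def Gens {E : T} [MonObj E] (q : D.P ⟶ E) [IsCommMonObj E] : Prop :=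
  ∃ (J : Type) (b : J → Sc E) (Z : T) (m : D.P ⊗ ∐ (fun _ : J => 𝟙_ T) ⟶ Z) (π : Z ⟶ E)
    (σ : E ⟶ Z), KEq Dk.K m ∧ σ ≫ π = 𝟙 E ∧ m ≫ π = gens q b

/-- The ring spectrum with `π₀ = B`. -/
structure YD {B : Type} [CommRing B] (G : Law B) where
  /-- the spectrum -/
  Y : T
  [mon : MonObj Y]
  [comm : IsCommMonObj Y]
  /-- the orientation -/
  p : D.P ⟶ Y
  [hom : IsMonHom p]
  /-- the homotopy ring -/
  θ : B ≃+* Sc Y
  law : lawP p = G.map (θ : B →+* Sc Y)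
  loc : IsLocal Dk.K Y
  odd : Odd0 Y
  gens : Gens Dk p
  desc : ∀ (N : T) [MonObj N] [IsCommMonObj N], IsLocal Dk.K N → ∀ (q : D.P ⟶ N) [IsMonHom q],
    SepQ q → ∀ χ : B →+* Sc N, G.map χ = lawP q →
    ∃ (f : Y ⟶ N) (_ : IsMonHom f), p ≫ f = q ∧ ∀ x, Sc.map f (θ x) = χ x
  uniq : ∀ (N : T) [MonObj N] [IsCommMonObj N], IsLocal Dk.K N → ∀ (f f' : Y ⟶ N) [IsMonHom f]
    [IsMonHom f'], p ≫ f = p ≫ f' → (∀ x, Sc.map f (θ x) = Sc.map f' (θ x)) → f = f'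

attribute [instance] YD.mon YD.comm YD.hom

/-- The periodic Lubin-Tate spectrum, in degree zero. -/
structure EP (O : OriApi D) (a : AlgD) where
  /-- the spectrum -/
  E : T
  [mon : MonObj E]
  [comm : IsCommMonObj E]
  /-- the orientation -/
  q : D.P ⟶ E
  [hom : IsMonHom q]
  /-- the homotopy ring -/
  θ : a.R ≃+* Sc E
  law : lawP q = a.F.map (θ : a.R →+* Sc E)
  loc : IsLocal Dk.K E
  odd : Odd0 E
  gens : Gens Dk q
  /-- the automorphism of order nine -/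
  ρ : E ⟶ E
  [ρ_hom : IsMonHom ρ]
  /-- the involution -/
  sg : E ⟶ E
  [sg_hom : IsMonHom sg]
  ρ_θ : ∀ x, Sc.map ρ (θ x) = θ (a.γ x)
  ρ_ser : O.ser q (q ≫ ρ) = InvSeries.map (θ : a.R →+* Sc E) a.f
  sg_θ : ∀ x, Sc.map sg (θ x) = θ x
  sg_ser : O.ser q (q ≫ sg) = neg (Sc E)
  ρ9 : (ρ ≫ ρ ≫ ρ) ≫ (ρ ≫ ρ ≫ ρ) ≫ (ρ ≫ ρ ≫ ρ) = 𝟙 E
  ρ3_ser : O.ser q (q ≫ ρ ≫ ρ ≫ ρ) = InvSeries.map (θ : a.R →+* Sc E) (Tate.ser3 a.γ a.f)
  ρ_sg : ρ ≫ sg = sg ≫ ρ
  sg_sg : sg ≫ sg = 𝟙 E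

attribute [instance] EP.mon EP.comm EP.hom EP.ρ_hom EP.sg_hom

/-- The periodic Lubin-Tate spectrum, graded form. -/
structure ED (a : AlgD) (K : KD D 3 6) where
  /-- the spectrum -/
  E : T
  [mon : MonObj E]
  [comm : IsCommMonObj E]
  /-- the orientation -/
  u : D.R ⟶ E
  [hom : IsMonHom u]
  /-- `u ↦ 1` -/
  ev : HRing (stdEven T) E →+* a.R
  bij : ∀ w : ℤ, Function.Bijective fun x : (stdEven T).S w ⟶ E => ev (HRing.of _ E w x)
  odd : Odd0 E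
  law : (lawOf u).map ev = a.F
  /-- the automorphism of order nine -/
  ρ : E ⟶ E
  [ρ_hom : IsMonHom ρ]
  /-- the involution -/
  sg : E ⟶ E
  [sg_hom : IsMonHom sg]
  ρ9 : (ρ ≫ ρ ≫ ρ) ≫ (ρ ≫ ρ ≫ ρ) ≫ (ρ ≫ ρ ≫ ρ) = 𝟙 E
  ρ_sg : ρ ≫ sg = sg ≫ ρ
  sg_sg : sg ≫ sg = 𝟙 E
  u_sg : u ≫ sg = u
  ev_ρ : ∀ (w : ℤ) (x : (stdEven T).S w ⟶ E),
    ev (HRing.of _ E w (x ≫ ρ)) = (Tate.twOf a.γ a.f).act (-w) (ev (HRing.of _ E w x))
  sg_even : ∀ w : ℤ, Even w → ∀ x : (stdEven T).S w ⟶ E, x ≫ sg = x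
  sg_odd : ∀ w : ℤ, Odd w → ∀ x : (stdEven T).S w ⟶ E, x ≫ sg = -x
  ser : ∀ n, ev ((sIso D u (u ≫ ρ)).c n) = Tate.sc a.f (n + 1)
  ser3 : ∀ n, ev ((sIso D u (u ≫ ρ ≫ ρ ≫ ρ)).c n) = Tate.sc (Tate.ser3 a.γ a.f) (n + 1)
  loc : IsLocal K.K E
  gen : Gen D K.φ u (fun _ : Unit => 𝟙 E)

attribute [instance] ED.mon ED.comm ED.hom ED.ρ_hom ED.sg_hom

/-! ### the rows -/

variable (D)

/-- orientations -/
def ORI : Prop := ∀ (F : SpaceFunctor T) (e : F.S.obj CCF ≅ (stdEven T).L), MUUniv e D →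
  Nonempty (OriApi D)

/-- the free local algebra -/
def FZ : Prop := ∀ (Dk : Kos D) (B : Type) [CommMonoid B], Nonempty (FreeZ Dk B)

/-- the homotopy of the localization of a free module -/
def INT : Prop :=
  ∀ (Dk : Kos D) (Z : T) [MonObj Z] [IsCommMonObj Z] (p : D.P ⟶ Z) [IsMonHom p] (J : Type)
    (b : J → Sc Z), IsLocal Dk.K Z → KEq Dk.K (gens p b) → Odd0 Z ∧ Cmp (lamQ p) b

/-- the ring spectrum of a completed free ring -/
def YM : Prop :=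
  UNQ → FZ D → INT D → ∀ (Dk : Kos D) (B : Type) [CommRing B] (G : Law B) (J : Type) (β : J → B),
    Cmp (Laz.lift G) β → Nonempty (YD Dk G)

/-- the splitting -/
def EE : Prop :=
  ∀ (Dk : Kos D) (O : OriApi D) (a : AlgD), YD Dk (a.g • a.F.map a.inc) → Nonempty (EP Dk O a)

/-- generation and locality -/
def GENE : Prop :=
  ∀ (F : SpaceFunctor T) (e : F.S.obj CCF ≅ (stdEven T).L), MUUniv e D →
    ∀ (Dk : Kos D) (K : KD D 3 6) (E : T) [MonObj E] [IsCommMonObj E] (q : D.P ⟶ E) [IsMonHom q],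
      (IsLocal Dk.K E → IsLocal K.K E) ∧
      (Gens Dk q → Gen D K.φ (uq q) (fun _ : Unit => 𝟙 E))

/-- the graded form -/
def GRD : Prop :=
  ∀ (Dk : Kos D) (O : OriApi D) (a : AlgD) (K : KD D 3 6) (P : EP Dk O a), IsLocal K.K P.E →
    Gen D K.φ (uq P.q) (fun _ : Unit => 𝟙 P.E) → Nonempty (ED a K)

end T0

end Vale.Agent.P236Z.E
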